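import Mathlib

/-!
Arithmetic preliminaries: a divisor bound and moments of a divisor sum.
-/

open Finset

namespace Vale.Agent.P028

/-- `w n = n^(1/32)`. -/
noncomputable def w (n : ℕ) : ℝ := (n : ℝ) ^ (1 / 32 : ℝ)

lemma w_nonneg (n : ℕ) : 0 ≤ w n := Real.rpow_nonneg (Nat.cast_nonneg n) _

lemma w_pow (n : ℕ) : w n ^ 32 = n := by
  unfold w
  rw [← Real.rpow_natCast, ← Real.rpow_mul (Nat.cast_nonneg n)]
  norm_num

lemma w_one : w 1 = 1 := by simp [w]

lemma w_mul (m n : ℕ) : w (m * n) = w m * w n := by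
  unfold w
  rw [Nat.cast_mul, Real.mul_rpow (Nat.cast_nonneg m) (Nat.cast_nonneg n)]

lemma w_mono {m n : ℕ} (h : m ≤ n) : w m ≤ w n := by
  unfold w
  exact Real.rpow_le_rpow (Nat.cast_nonneg m) (by exact_mod_cast h) (by norm_num)

lemma one_le_w {n : ℕ} (h : 1 ≤ n) : 1 ≤ w n := by
  rw [← w_one]; exact w_mono h

lemma w_pos {n : ℕ} (h : 1 ≤ n) : 0 < w n := lt_of_lt_of_le one_pos (one_le_w h)

/-- divisor bound -/
lemma divisor_bound (ε : ℝ) (hε : 0 < ε) :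
    ∃ C : ℝ, 1 ≤ C ∧ ∀ n : ℕ, 1 ≤ n → (n.divisors.card : ℝ) ≤ C * (n : ℝ) ^ ε := by
  -- threshold P₀ with P₀^ε ≥ 2
  obtain ⟨P0, hP0⟩ : ∃ P0 : ℕ, (2 : ℝ) ≤ (P0 : ℝ) ^ ε := by
    obtain ⟨P0, hP0⟩ := exists_nat_ge ((2 : ℝ) ^ (1 / ε))
    refine ⟨P0, ?_⟩
    calc (2 : ℝ) = ((2 : ℝ) ^ (1 / ε)) ^ ε := by
          rw [← Real.rpow_mul (by norm_num)]; field_simp; simp
      _ ≤ (P0 : ℝ) ^ ε := Real.rpow_le_rpow (by positivity) hP0 hε.le
  -- bound (v+1) ≤ Cε * 2^(v ε)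
  obtain ⟨D, hD1, hD⟩ : ∃ D : ℝ, 1 ≤ D ∧ ∀ v : ℕ, ((v : ℝ) + 1) ≤ D * ((2 : ℝ) ^ ε) ^ v := by
    have h2 : (1 : ℝ) < (2 : ℝ) ^ ε := Real.one_lt_rpow (by norm_num) hε
    set a : ℝ := (2 : ℝ) ^ ε with ha
    -- Bernoulli : a^v ≥ 1 + v (a-1)
    refine ⟨max 1 (1 / (a - 1)), le_max_left _ _, fun v => ?_⟩
    have hb : 1 + (v : ℝ) * (a - 1) ≤ a ^ v := by
      have := one_add_mul_le_pow (a := a - 1) (by linarith) v
      simpa using this
    have hpos : 0 < a - 1 := by linarith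
    have hM1 : (1 : ℝ) ≤ max 1 (1 / (a - 1)) := le_max_left _ _
    have hM2 : 1 / (a - 1) ≤ max 1 (1 / (a - 1)) := le_max_right _ _
    calc (v : ℝ) + 1 = 1 * 1 + (1 / (a - 1)) * (v * (a - 1)) := by field_simp; ring
      _ ≤ max 1 (1 / (a - 1)) * 1 + max 1 (1 / (a - 1)) * (v * (a - 1)) := by
          gcongr
      _ = max 1 (1 / (a - 1)) * (1 + v * (a - 1)) := by ring
      _ ≤ max 1 (1 / (a - 1)) * a ^ v := by gcongr
  refine ⟨D ^ P0, one_le_pow₀ hD1, fun n hn => ?_⟩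
  have hn0 : n ≠ 0 := by omega
  rw [Nat.card_divisors hn0]
  have hprod : (n : ℝ) ^ ε = ∏ p ∈ n.primeFactors, ((p : ℝ) ^ ε) ^ (n.factorization p) := by
    conv_lhs => rw [← Nat.prod_factorization_pow_eq_self hn0]
    rw [Finsupp.prod, Nat.support_factorization]
    push_cast
    rw [← Real.finsetProd_rpow _ _ (fun i _ => by positivity)]
    refine Finset.prod_congr rfl fun p _ => ?_
    rw [← Real.rpow_natCast, ← Real.rpow_natCast, ← Real.rpow_mul (by positivity),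
      ← Real.rpow_mul (by positivity), mul_comm]
  rw [hprod]
  have key : ∀ p ∈ n.primeFactors, ((n.factorization p + 1 : ℕ) : ℝ) ≤
      (if p < P0 then D else 1) * ((p : ℝ) ^ ε) ^ (n.factorization p) := by
    intro p hp
    have hpp := Nat.prime_of_mem_primeFactors hp
    have hp2 : (2 : ℝ) ≤ p := by exact_mod_cast hpp.two_le
    set v := n.factorization p
    push_cast
    split_ifs with h
    · refine (hD v).trans ?_
      gcongr
    · have h2 : (2 : ℝ) ≤ (p : ℝ) ^ ε := by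
        refine hP0.trans ?_
        apply Real.rpow_le_rpow (by positivity) _ hε.le
        exact_mod_cast not_lt.mp h
      have : ((v : ℝ) + 1) ≤ 2 ^ v := by
        have := Nat.lt_two_pow_self (n := v)
        exact_mod_cast this
      calc ((v : ℝ) + 1) ≤ 2 ^ v := this
        _ ≤ ((p : ℝ) ^ ε) ^ v := by gcongr
        _ = 1 * ((p : ℝ) ^ ε) ^ v := by ring
  calc ((∏ x ∈ n.primeFactors, (n.factorization x + 1) : ℕ) : ℝ)
      = ∏ x ∈ n.primeFactors, ((n.factorization x + 1 : ℕ) : ℝ) := by push_cast; rfl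
    _ ≤ ∏ p ∈ n.primeFactors, ((if p < P0 then D else 1) * ((p : ℝ) ^ ε) ^ (n.factorization p)) :=
        Finset.prod_le_prod (fun _ _ => by positivity) key
    _ = (∏ p ∈ n.primeFactors, (if p < P0 then D else 1)) *
          ∏ p ∈ n.primeFactors, ((p : ℝ) ^ ε) ^ (n.factorization p) := Finset.prod_mul_distrib
    _ ≤ D ^ P0 * ∏ p ∈ n.primeFactors, ((p : ℝ) ^ ε) ^ (n.factorization p) := by
        gcongr
        rw [Finset.prod_ite, Finset.prod_const_one, mul_one, Finset.prod_const]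
        refine pow_le_pow_right₀ hD1 ?_
        calc #{p ∈ n.primeFactors | p < P0} ≤ #(range P0) := by
              apply Finset.card_le_card
              intro p hp
              simp only [mem_filter] at hp
              exact mem_range.mpr hp.2
          _ = P0 := card_range P0

/-- `sg n = ∑_{d ∣ n} d^(-1/32)`. -/
noncomputable def sg (n : ℕ) : ℝ := ∑ d ∈ n.divisors, (w d)⁻¹

/-- general version with exponent `β` -/
noncomputable def sb (β : ℝ) (n : ℕ) : ℝ := ∑ d ∈ n.divisors, ((d : ℝ) ^ β)⁻¹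

lemma sg_eq (n : ℕ) : sg n = sb (1 / 32) n := rfl

lemma sb_nonneg (β : ℝ) (n : ℕ) : 0 ≤ sb β n :=
  Finset.sum_nonneg fun d _ => by positivity

lemma one_le_sb (β : ℝ) {n : ℕ} (hn : 1 ≤ n) : 1 ≤ sb β n := by
  have h1 : (1 : ℕ) ∈ n.divisors := by simp; omega
  calc (1 : ℝ) = (((1 : ℕ) : ℝ) ^ β)⁻¹ := by simp
    _ ≤ sb β n := Finset.single_le_sum (f := fun d : ℕ => ((d : ℝ) ^ β)⁻¹)
          (fun d _ => by positivity) h1

lemma one_le_sg {n : ℕ} (hn : 1 ≤ n) : 1 ≤ sg n := one_le_sb _ hn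

lemma sg_pos {n : ℕ} (hn : 1 ≤ n) : 0 < sg n := lt_of_lt_of_le one_pos (one_le_sg hn)

lemma sg_le_card (n : ℕ) : sg n ≤ n.divisors.card := by
  unfold sg
  calc ∑ d ∈ n.divisors, (w d)⁻¹ ≤ ∑ d ∈ n.divisors, (1 : ℝ) := by
        refine Finset.sum_le_sum fun d hd => ?_
        have : 1 ≤ d := Nat.pos_of_mem_divisors hd
        exact inv_le_one_of_one_le₀ (one_le_w this)
    _ = _ := by simp

/-- All powers of the divisor function are `≪ w`. -/
lemma card_pow_le_w (k : ℕ) : ∃ C : ℝ, 1 ≤ C ∧ ∀ n : ℕ, 1 ≤ n →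
    (n.divisors.card : ℝ) ^ k ≤ C * w n := by
  obtain ⟨C, hC1, hC⟩ := divisor_bound (1 / (32 * (k + 1))) (by positivity)
  refine ⟨C ^ k, one_le_pow₀ hC1, fun n hn => ?_⟩
  have hn1 : (1 : ℝ) ≤ n := by exact_mod_cast hn
  calc (n.divisors.card : ℝ) ^ k ≤ (C * (n : ℝ) ^ (1 / (32 * ((k : ℝ) + 1)))) ^ k := by
        gcongr; exact hC n hn
    _ = C ^ k * ((n : ℝ) ^ (1 / (32 * ((k : ℝ) + 1)) * k)) := by
        rw [mul_pow, ← Real.rpow_natCast ((n : ℝ) ^ _), ← Real.rpow_mul (by positivity)]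
    _ ≤ C ^ k * w n := by
        unfold w
        gcongr
        rw [div_mul_eq_mul_div, div_le_div_iff₀ (by positivity) (by norm_num)]
        nlinarith

lemma sg_pow_le_w (k : ℕ) : ∃ C : ℝ, 1 ≤ C ∧ ∀ n : ℕ, 1 ≤ n → sg n ^ k ≤ C * w n := by
  obtain ⟨C, hC1, hC⟩ := card_pow_le_w k
  refine ⟨C, hC1, fun n hn => ?_⟩
  refine le_trans ?_ (hC n hn)
  have := sg_le_card n
  have := (sg_pos hn).le
  gcongr

/-- submultiplicativity -/
lemma sg_mul_le (m n : ℕ) : sg (m * n) ≤ sg m * sg n := by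
  unfold sg
  rw [Finset.sum_mul_sum, ← Finset.sum_product']
  have : ∀ p ∈ m.divisors ×ˢ n.divisors, (w p.1)⁻¹ * (w p.2)⁻¹ = (w (p.1 * p.2))⁻¹ := by
    intro p _
    rw [w_mul, mul_inv]
  rw [Finset.sum_congr rfl this]
  have hmul : (m * n).divisors = (m.divisors ×ˢ n.divisors).image (fun p => p.1 * p.2) := by
    rw [Nat.divisors_mul]; rfl
  rw [hmul]
  exact Finset.sum_image_le_of_nonneg (fun p _ => by
    have := w_nonneg p
    positivity)

/-- product of two such sums is dominated by another one -/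
lemma sb_mul_le (α β : ℝ) (hα : 0 < α) (hβ : 0 < β) :
    ∃ C : ℝ, ∃ η : ℝ, 0 < η ∧ 0 < C ∧ ∀ n : ℕ, 1 ≤ n → sb α n * sb β n ≤ C * sb η n := by
  set δ := min α β with hδ
  have hδ0 : 0 < δ := lt_min hα hβ
  obtain ⟨C, hC1, hC⟩ := divisor_bound (δ / 4) (by positivity)
  refine ⟨C ^ 2, δ / 2, by positivity, by positivity, fun n hn => ?_⟩
  unfold sb
  rw [Finset.sum_mul_sum, ← Finset.sum_product', Finset.mul_sum]
  have hmaps : ∀ p ∈ n.divisors ×ˢ n.divisors, Nat.lcm p.1 p.2 ∈ n.divisors := by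
    intro p hp
    simp only [mem_product, Nat.mem_divisors] at hp ⊢
    exact ⟨Nat.lcm_dvd hp.1.1 hp.2.1, hp.1.2⟩
  rw [← Finset.sum_fiberwise_of_maps_to hmaps]
  refine Finset.sum_le_sum fun m hm => ?_
  have hm1 : 1 ≤ m := Nat.pos_of_mem_divisors hm
  have hmR : (1 : ℝ) ≤ m := by exact_mod_cast hm1
  have hm0 : (0 : ℝ) < m := by linarith
  have h1 : ∀ p ∈ (n.divisors ×ˢ n.divisors).filter (fun p => Nat.lcm p.1 p.2 = m),
      ((p.1 : ℝ) ^ α)⁻¹ * ((p.2 : ℝ) ^ β)⁻¹ ≤ ((m : ℝ) ^ δ)⁻¹ := by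
    intro p hp
    simp only [mem_filter, mem_product] at hp
    have ha : 1 ≤ p.1 := Nat.pos_of_mem_divisors hp.1.1
    have hb : 1 ≤ p.2 := Nat.pos_of_mem_divisors hp.1.2
    have haR : (1 : ℝ) ≤ p.1 := by exact_mod_cast ha
    have hbR : (1 : ℝ) ≤ p.2 := by exact_mod_cast hb
    rw [← mul_inv]
    apply inv_anti₀ (by positivity)
    have hle : (m : ℝ) ≤ (p.1 : ℝ) * p.2 := by
      rw [← hp.2]
      exact_mod_cast Nat.lcm_le_mul (by omega) (by omega)
    calc (m : ℝ) ^ δ ≤ ((p.1 : ℝ) * p.2) ^ δ := Real.rpow_le_rpow hm0.le hle hδ0.le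
      _ = (p.1 : ℝ) ^ δ * (p.2 : ℝ) ^ δ := Real.mul_rpow (by positivity) (by positivity)
      _ ≤ (p.1 : ℝ) ^ α * (p.2 : ℝ) ^ β := by
          gcongr
          · exact min_le_left _ _
          · exact min_le_right _ _
  calc ∑ p ∈ (n.divisors ×ˢ n.divisors).filter (fun p => Nat.lcm p.1 p.2 = m),
        ((p.1 : ℝ) ^ α)⁻¹ * ((p.2 : ℝ) ^ β)⁻¹
      ≤ ∑ p ∈ (n.divisors ×ˢ n.divisors).filter (fun p => Nat.lcm p.1 p.2 = m),
          ((m : ℝ) ^ δ)⁻¹ := Finset.sum_le_sum h1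
    _ = (((n.divisors ×ˢ n.divisors).filter (fun p => Nat.lcm p.1 p.2 = m)).card : ℝ)
          * ((m : ℝ) ^ δ)⁻¹ := by rw [Finset.sum_const, nsmul_eq_mul]
    _ ≤ ((m.divisors.card : ℝ) ^ 2) * ((m : ℝ) ^ δ)⁻¹ := by
        gcongr
        have hsub : (n.divisors ×ˢ n.divisors).filter (fun p => Nat.lcm p.1 p.2 = m) ⊆
            m.divisors ×ˢ m.divisors := by
          intro p hp
          simp only [mem_filter, mem_product, Nat.mem_divisors] at hp ⊢
          rw [← hp.2]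
          refine ⟨⟨Nat.dvd_lcm_left _ _, ?_⟩, ⟨Nat.dvd_lcm_right _ _, ?_⟩⟩ <;>
          · rw [hp.2]; omega
        have := Finset.card_le_card hsub
        rw [Finset.card_product] at this
        rw [sq]
        exact_mod_cast this
    _ ≤ ((C * (m : ℝ) ^ (δ / 4)) ^ 2) * ((m : ℝ) ^ δ)⁻¹ := by
        gcongr
        exact hC m hm1
    _ = C ^ 2 * ((m : ℝ) ^ (δ / 2))⁻¹ := by
        have e1 : ((m : ℝ) ^ (δ / 4)) ^ 2 = (m : ℝ) ^ (δ / 2) := by
          rw [← Real.rpow_natCast, ← Real.rpow_mul hm0.le]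
          congr 1
          push_cast
          ring
        have e2 : (m : ℝ) ^ δ = (m : ℝ) ^ (δ / 2) * (m : ℝ) ^ (δ / 2) := by
          rw [← Real.rpow_add hm0]; congr 1; ring
        have e3 : (m : ℝ) ^ (δ / 2) ≠ 0 := (Real.rpow_pos_of_pos hm0 _).ne'
        rw [mul_pow, e1, e2]
        field_simp

lemma sg_pow_le_sb (k : ℕ) : ∃ C : ℝ, ∃ β : ℝ, 0 < β ∧ 0 < C ∧
    ∀ n : ℕ, 1 ≤ n → sg n ^ k ≤ C * sb β n := by
  induction k with
  | zero =>
    refine ⟨1, 1, one_pos, one_pos, fun n hn => ?_⟩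
    simpa using one_le_sb 1 hn
  | succ k ih =>
    obtain ⟨C, β, hβ, hC, h⟩ := ih
    obtain ⟨C', η, hη, hC', h'⟩ := sb_mul_le β (1 / 32) hβ (by norm_num)
    refine ⟨C * C', η, hη, by positivity, fun n hn => ?_⟩
    calc sg n ^ (k + 1) = sg n ^ k * sg n := pow_succ _ _
      _ ≤ (C * sb β n) * sg n := by
          have := (sg_pos hn).le
          gcongr
          exact h n hn
      _ = C * (sb β n * sb (1 / 32) n) := by rw [sg_eq]; ring
      _ ≤ C * (C' * sb η n) := mul_le_mul_of_nonneg_left (h' n hn) hC.le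
      _ = C * C' * sb η n := by ring

lemma sum_sb_le (β : ℝ) (hβ : 0 < β) : ∃ C : ℝ, 0 < C ∧ ∀ N : ℕ,
    ∑ n ∈ Ioc 0 N, sb β n ≤ C * N := by
  have hsum : Summable (fun d : ℕ => ((d : ℝ) ^ (1 + β))⁻¹) :=
    Real.summable_nat_rpow_inv.mpr (by linarith)
  refine ⟨(∑' d : ℕ, ((d : ℝ) ^ (1 + β))⁻¹) + 1, ?_, fun N => ?_⟩
  · have : 0 ≤ ∑' d : ℕ, ((d : ℝ) ^ (1 + β))⁻¹ := tsum_nonneg fun d => by positivity
    linarith
  unfold sb
  have hcomm : ∑ n ∈ Ioc 0 N, ∑ d ∈ n.divisors, ((d : ℝ) ^ β)⁻¹ =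
      ∑ d ∈ Ioc 0 N, ∑ n ∈ (Ioc 0 N).filter (fun n => d ∣ n), ((d : ℝ) ^ β)⁻¹ := by
    apply Finset.sum_comm'
    intro n d
    simp only [mem_Ioc, Nat.mem_divisors, mem_filter]
    constructor
    · rintro ⟨⟨h1, h2⟩, h3, h4⟩
      exact ⟨⟨⟨h1, h2⟩, h3⟩, Nat.pos_of_dvd_of_pos h3 h1, (Nat.le_of_dvd h1 h3).trans h2⟩
    · rintro ⟨⟨⟨h1, h2⟩, h3⟩, h4, h5⟩
      exact ⟨⟨h1, h2⟩, h3, by omega⟩
  rw [hcomm]
  calc ∑ d ∈ Ioc 0 N, ∑ n ∈ (Ioc 0 N).filter (fun n => d ∣ n), ((d : ℝ) ^ β)⁻¹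
      = ∑ d ∈ Ioc 0 N, ((N / d : ℕ) : ℝ) * ((d : ℝ) ^ β)⁻¹ := by
        refine Finset.sum_congr rfl fun d _ => ?_
        rw [Finset.sum_const, nsmul_eq_mul, Nat.Ioc_filter_dvd_card_eq_div]
    _ ≤ ∑ d ∈ Ioc 0 N, (N : ℝ) * ((d : ℝ) ^ (1 + β))⁻¹ := by
        refine Finset.sum_le_sum fun d hd => ?_
        have hd1 : 1 ≤ d := (mem_Ioc.mp hd).1
        have hdR : (0 : ℝ) < d := by exact_mod_cast hd1
        have h1 : ((N / d : ℕ) : ℝ) ≤ (N : ℝ) / d := Nat.cast_div_le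
        rw [Real.rpow_add hdR, Real.rpow_one, mul_inv]
        calc ((N / d : ℕ) : ℝ) * ((d : ℝ) ^ β)⁻¹ ≤ ((N : ℝ) / d) * ((d : ℝ) ^ β)⁻¹ := by gcongr
          _ = (N : ℝ) * ((d : ℝ)⁻¹ * ((d : ℝ) ^ β)⁻¹) := by rw [div_eq_mul_inv]; ring
    _ = (N : ℝ) * ∑ d ∈ Ioc 0 N, ((d : ℝ) ^ (1 + β))⁻¹ := by rw [Finset.mul_sum]
    _ ≤ (N : ℝ) * ((∑' d : ℕ, ((d : ℝ) ^ (1 + β))⁻¹) + 1) := by
        gcongr
        have := hsum.sum_le_tsum (Ioc 0 N) (fun d _ => by positivity)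
        linarith
    _ = ((∑' d : ℕ, ((d : ℝ) ^ (1 + β))⁻¹) + 1) * N := by ring

/-- all moments of `sg` are bounded on average -/
lemma sg_moment (k : ℕ) : ∃ C : ℝ, 1 ≤ C ∧ ∀ N : ℕ, ∑ n ∈ Ioc 0 N, sg n ^ k ≤ C * N := by
  obtain ⟨C, β, hβ, hC, h⟩ := sg_pow_le_sb k
  obtain ⟨C', hC', h'⟩ := sum_sb_le β hβ
  refine ⟨max 1 (C * C'), le_max_left _ _, fun N => ?_⟩
  calc ∑ n ∈ Ioc 0 N, sg n ^ k ≤ ∑ n ∈ Ioc 0 N, C * sb β n :=
        Finset.sum_le_sum fun n hn => h n (mem_Ioc.mp hn).1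
    _ = C * ∑ n ∈ Ioc 0 N, sb β n := by rw [Finset.mul_sum]
    _ ≤ C * (C' * N) := by gcongr; exact h' N
    _ = (C * C') * N := by ring
    _ ≤ max 1 (C * C') * N := by gcongr; exact le_max_right _ _

lemma prod_one_add_le_sg {n : ℕ} (hn : 1 ≤ n) :
    ∏ p ∈ n.primeFactors, (1 + (w p)⁻¹) ≤ sg n := by
  rw [Finset.prod_one_add]
  have h1 : ∀ T ∈ n.primeFactors.powerset, ∏ p ∈ T, (w p)⁻¹ = (w (∏ p ∈ T, p))⁻¹ := by
    intro T hT
    clear hT
    rw [Finset.prod_inv_distrib]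
    congr 1
    induction T using Finset.induction_on with
    | empty => simp [w_one]
    | insert a s ha ih => rw [Finset.prod_insert ha, Finset.prod_insert ha, w_mul, ih]
  rw [Finset.sum_congr rfl h1]
  have hinj : Set.InjOn (fun T : Finset ℕ => ∏ p ∈ T, p) (n.primeFactors.powerset : Set (Finset ℕ)) := by
    intro T hT T' hT' h
    have e : ∀ S ∈ n.primeFactors.powerset, (∏ p ∈ S, p).primeFactors = S := by
      intro S hS
      exact Nat.primeFactors_prod (fun p hp => Nat.prime_of_mem_primeFactors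
        (Finset.mem_powerset.mp hS hp))
    have h1 := e T (by exact_mod_cast hT)
    have h2 := e T' (by exact_mod_cast hT')
    simp only at h
    rw [← h1, ← h2, h]
  rw [← Finset.sum_image (f := fun m : ℕ => (w m)⁻¹) hinj]
  unfold sg
  apply Finset.sum_le_sum_of_subset_of_nonneg
  · intro m hm
    simp only [mem_image, mem_powerset] at hm
    obtain ⟨T, hT, rfl⟩ := hm
    rw [Nat.mem_divisors]
    refine ⟨?_, by omega⟩
    exact (Finset.prod_dvd_prod_of_subset _ _ _ hT).trans (Nat.prod_primeFactors_dvd n)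
  · intro m _ _
    have := w_nonneg m
    positivity

lemma w_le_sub_one {p : ℕ} (hp : 3 ≤ p) : w p ≤ (p : ℝ) - 1 := by
  have hp' : (3 : ℝ) ≤ p := by exact_mod_cast hp
  apply le_of_pow_le_pow_left₀ (n := 32) (by norm_num) (by linarith)
  rw [w_pow]
  calc (p : ℝ) ≤ ((p : ℝ) - 1) ^ 2 := by nlinarith
    _ ≤ ((p : ℝ) - 1) ^ 32 := pow_le_pow_right₀ (by linarith) (by norm_num)

lemma inv_le_prod {n : ℕ} (hn : 1 ≤ n) :
    (2 * sg n)⁻¹ ≤ ∏ p ∈ n.primeFactors, (1 - 1 / (p : ℝ)) := by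
  have hpt : ∀ p ∈ n.primeFactors,
      ((if p = 2 then (2 : ℝ) else 1) * (1 + (w p)⁻¹))⁻¹ ≤ 1 - 1 / (p : ℝ) := by
    intro p hp
    have hpp := Nat.prime_of_mem_primeFactors hp
    have hp2 : (2 : ℝ) ≤ p := by exact_mod_cast hpp.two_le
    have hw : 0 < w p := w_pos hpp.one_lt.le
    have hge : (1 - 1 / (p : ℝ)) = (((p : ℝ) / (p - 1)))⁻¹ := by
      rw [inv_div]; field_simp
    rw [hge]
    apply inv_anti₀
    · apply div_pos <;> linarith
    split_ifs with h2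
    · subst h2
      push_cast
      have : 0 < (w 2)⁻¹ := by positivity
      norm_num
      linarith
    · have h3 : 3 ≤ p := by
        have := hpp.two_le
        omega
      have h4 := w_le_sub_one h3
      have h5 : (0 : ℝ) < (p : ℝ) - 1 := by linarith
      rw [one_mul, div_le_iff₀ h5]
      have h6 : 1 ≤ (w p)⁻¹ * ((p : ℝ) - 1) := by
        calc (1 : ℝ) = (w p)⁻¹ * w p := (inv_mul_cancel₀ hw.ne').symm
          _ ≤ (w p)⁻¹ * ((p : ℝ) - 1) := by gcongr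
      nlinarith
  have hprodle : ∏ p ∈ n.primeFactors, (if p = 2 then (2 : ℝ) else 1) ≤ 2 := by
    rw [Finset.prod_ite_eq' n.primeFactors 2 (fun _ => (2 : ℝ))]
    split_ifs <;> norm_num
  calc (2 * sg n)⁻¹ ≤ (∏ p ∈ n.primeFactors, ((if p = 2 then (2 : ℝ) else 1) * (1 + (w p)⁻¹)))⁻¹ := by
        apply inv_anti₀
        · apply Finset.prod_pos
          intro p hp
          have hpp := Nat.prime_of_mem_primeFactors hp
          have hw : 0 < w p := w_pos hpp.one_lt.le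
          split_ifs <;> positivity
        · rw [Finset.prod_mul_distrib]
          apply mul_le_mul hprodle (prod_one_add_le_sg hn) _ (by norm_num)
          apply Finset.prod_nonneg
          intro p _
          have := w_nonneg p
          positivity
    _ = ∏ p ∈ n.primeFactors, ((if p = 2 then (2 : ℝ) else 1) * (1 + (w p)⁻¹))⁻¹ := by
        rw [Finset.prod_inv_distrib]
    _ ≤ ∏ p ∈ n.primeFactors, (1 - 1 / (p : ℝ)) := by
        apply Finset.prod_le_prod _ hpt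
        intro p hp
        have hpp := Nat.prime_of_mem_primeFactors hp
        have hw : 0 < w p := w_pos hpp.one_lt.le
        split_ifs <;> positivity

lemma one_sub_inv_pos {n p : ℕ} (hp : p ∈ n.primeFactors) : 0 < 1 - 1 / (p : ℝ) := by
  have hpp := Nat.prime_of_mem_primeFactors hp
  have hp2 : (2 : ℝ) ≤ p := by exact_mod_cast hpp.two_le
  have : 1 / (p : ℝ) ≤ 1 / 2 := one_div_le_one_div_of_le (by norm_num) hp2
  linarith

lemma one_sub_inv_le {p : ℕ} : 1 - 1 / (p : ℝ) ≤ 1 := by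
  have : 0 ≤ 1 / (p : ℝ) := by positivity
  linarith

lemma inv_le_prod_subset {n : ℕ} (hn : 1 ≤ n) {S : Finset ℕ} (hS : S ⊆ n.primeFactors) :
    (2 * sg n)⁻¹ ≤ ∏ p ∈ S, (1 - 1 / (p : ℝ)) := by
  refine (inv_le_prod hn).trans ?_
  rw [← Finset.prod_sdiff hS]
  have h0 : 0 ≤ ∏ p ∈ S, (1 - 1 / (p : ℝ)) :=
    Finset.prod_nonneg fun p hp => (one_sub_inv_pos (hS hp)).le
  calc _ ≤ 1 * ∏ p ∈ S, (1 - 1 / (p : ℝ)) := by
        gcongr
        apply Finset.prod_le_one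
        · intro p hp
          exact (one_sub_inv_pos (Finset.sdiff_subset hp)).le
        · intro p _
          exact one_sub_inv_le
    _ = _ := one_mul _

lemma tail_prod {n : ℕ} (hn : 1 ≤ n) {S : Finset ℕ} (hS : S ⊆ n.primeFactors)
    (hlarge : ∀ p ∈ S, sg n ^ 2 ≤ p) :
    Real.exp (-2) ≤ ∏ p ∈ S, (1 - 1 / (p : ℝ)) := by
  have hsg := sg_pos hn
  have hsum : ∑ p ∈ S, 1 / (p : ℝ) ≤ 1 := by
    calc ∑ p ∈ S, 1 / (p : ℝ) ≤ ∑ p ∈ S, (sg n)⁻¹ * (w p)⁻¹ := by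
          refine Finset.sum_le_sum fun p hp => ?_
          have hpp := Nat.prime_of_mem_primeFactors (hS hp)
          have hw1 : 1 ≤ w p := one_le_w hpp.one_lt.le
          have hw : 0 < w p := by linarith
          have h16 : sg n ≤ w p ^ 16 := by
            apply le_of_pow_le_pow_left₀ (n := 2) (by norm_num) (by positivity)
            rw [← pow_mul]
            norm_num
            rw [w_pow]
            exact hlarge p hp
          rw [← mul_inv, one_div]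
          apply inv_anti₀ (by positivity)
          calc sg n * w p ≤ w p ^ 16 * w p := by gcongr
            _ ≤ w p ^ 16 * w p ^ 16 := by
                gcongr
                exact le_self_pow₀ hw1 (by norm_num)
            _ = w p ^ 32 := by ring
            _ = p := w_pow p
      _ = (sg n)⁻¹ * ∑ p ∈ S, (w p)⁻¹ := by rw [Finset.mul_sum]
      _ ≤ (sg n)⁻¹ * sg n := by
          gcongr
          unfold sg
          apply Finset.sum_le_sum_of_subset_of_nonneg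
          · intro p hp
            have h := Nat.dvd_of_mem_primeFactors (hS hp)
            rw [Nat.mem_divisors]
            exact ⟨h, by omega⟩
          · intro m _ _
            have := w_nonneg m
            positivity
      _ = 1 := inv_mul_cancel₀ hsg.ne'
  calc Real.exp (-2) ≤ Real.exp (∑ p ∈ S, (-2 * (1 / (p : ℝ)))) := by
        rw [← Finset.mul_sum]
        apply Real.exp_le_exp.mpr
        linarith
    _ = ∏ p ∈ S, Real.exp (-2 * (1 / (p : ℝ))) := by rw [Real.exp_sum]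
    _ ≤ ∏ p ∈ S, (1 - 1 / (p : ℝ)) := by
        apply Finset.prod_le_prod (fun _ _ => (Real.exp_pos _).le)
        intro p hp
        have hpp := Nat.prime_of_mem_primeFactors (hS hp)
        have hp2 : (2 : ℝ) ≤ p := by exact_mod_cast hpp.two_le
        set x : ℝ := 1 / (p : ℝ) with hx
        have hx1 : x ≤ 1 / 2 := one_div_le_one_div_of_le (by norm_num) hp2
        have hx0 : 0 < x := by positivity
        have he : 1 + 2 * x ≤ Real.exp (2 * x) := by
          have := Real.add_one_le_exp (2 * x)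
          linarith
        have hmul : Real.exp (-2 * x) * Real.exp (2 * x) = 1 := by
          rw [← Real.exp_add]; simp
        have hpos := Real.exp_pos (-2 * x)
        have h1 : Real.exp (-2 * x) * (1 + 2 * x) ≤ 1 := by
          calc _ ≤ Real.exp (-2 * x) * Real.exp (2 * x) := by gcongr
            _ = 1 := hmul
        have h2 : 1 ≤ (1 - x) * (1 + 2 * x) := by nlinarith
        have h3 : 0 < 1 + 2 * x := by linarith
        by_contra hcon
        rw [not_le] at hcon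
        have := mul_lt_mul_of_pos_right hcon h3
        linarith

/-- sums over divisors -/
lemma sum_divisors_le (k : ℕ) : ∃ C : ℝ, 1 ≤ C ∧ ∀ x : ℕ, 1 ≤ x →
    ∑ d ∈ x.divisors, sg d ^ k * (w d)⁻¹ ^ 8 ≤ C * sg x := by
  obtain ⟨C, hC1, hC⟩ := sg_pow_le_w k
  refine ⟨C, hC1, fun x _ => ?_⟩
  unfold sg at *
  rw [Finset.mul_sum]
  refine Finset.sum_le_sum fun d hd => ?_
  have hd1 : 1 ≤ d := Nat.pos_of_mem_divisors hd
  have hw1 := one_le_w hd1
  have hw := w_pos hd1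
  have hwi : (w d)⁻¹ ≤ 1 := inv_le_one_of_one_le₀ hw1
  calc _ ≤ (C * w d) * (w d)⁻¹ ^ 8 := by gcongr; exact hC d hd1
    _ = C * (w d)⁻¹ * ((w d)⁻¹ ^ 6 * (w d * (w d)⁻¹)) := by ring
    _ ≤ C * (w d)⁻¹ * (1 * 1) := by
        rw [mul_inv_cancel₀ hw.ne']
        gcongr
        exact pow_le_one₀ (by positivity) hwi
    _ = _ := by ring

end Vale.Agent.P028
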