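import Vale.Agent.Lib.P028.SumBad

/-!
Rational centres of the shift and the modified approximation sets.
-/

open Finset MeasureTheory

namespace Vale.Agent.P028

/-- the scale parameter -/
def Nj (j : ℕ) : ℕ := 2 ^ 2 ^ j

lemma Nj_pos (j : ℕ) : 0 < Nj j := by unfold Nj; positivity

/-- rational approximation of `γ` at scale `j` -/
noncomputable def cen (γ : ℝ) (j : ℕ) : ℚ :=
  Classical.choose (Real.exists_rat_abs_sub_le_and_den_le γ (Nj_pos j))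

lemma cen_spec (γ : ℝ) (j : ℕ) :
    |γ - cen γ j| ≤ 1 / ((Nj j + 1) * (cen γ j).den) ∧ (cen γ j).den ≤ Nj j :=
  Classical.choose_spec (Real.exists_rat_abs_sub_le_and_den_le γ (Nj_pos j))

/-- denominator of the centre -/
noncomputable def cB (γ : ℝ) (j : ℕ) : ℕ := (cen γ j).den

/-- numerator of the centre -/
noncomputable def cA (γ : ℝ) (j : ℕ) : ℤ := (cen γ j).num

lemma cB_pos (γ : ℝ) (j : ℕ) : 0 < cB γ j := (cen γ j).den_pos

lemma cB_le (γ : ℝ) (j : ℕ) : cB γ j ≤ Nj j := (cen_spec γ j).2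

lemma cAB (γ : ℝ) (j : ℕ) : IsCoprime (cA γ j) (cB γ j : ℤ) := by
  unfold cA cB
  rw [Int.isCoprime_iff_gcd_eq_one]
  have := (cen γ j).reduced
  rw [Int.gcd_eq_natAbs, Int.natAbs_natCast]
  exact this

lemma cen_theta (γ : ℝ) (j : ℕ) : |(cB γ j : ℝ) * γ - cA γ j| ≤ ((Nj j : ℝ))⁻¹ := by
  have h := (cen_spec γ j).1
  have hB : (0 : ℝ) < (cen γ j).den := by exact_mod_cast (cen γ j).den_pos
  have hN : (0 : ℝ) < Nj j := by exact_mod_cast Nj_pos j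
  have e : (cB γ j : ℝ) * γ - cA γ j = (cen γ j).den * (γ - cen γ j) := by
    unfold cB cA
    have h2 : ((cen γ j : ℚ) : ℝ) = (cen γ j).num / (cen γ j).den := by
      exact_mod_cast (Rat.cast_def (K := ℝ) (cen γ j))
    rw [h2, mul_sub]
    field_simp
  rw [e, abs_mul, abs_of_pos hB]
  calc ((cen γ j).den : ℝ) * |γ - cen γ j| ≤ (cen γ j).den * (1 / ((Nj j + 1) * (cen γ j).den)) := by
        gcongr
    _ = ((Nj j : ℝ) + 1)⁻¹ := by field_simp
    _ ≤ _ := by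
        gcongr
        linarith

/-- scale of an integer -/
def sc (q : ℕ) : ℕ := Nat.log 2 (Nat.log 4 q)

lemma sc_lower {q : ℕ} (hq : 4 ≤ q) : Nj (sc q) ^ 2 ≤ q := by
  have h1 : Nat.log 4 q ≠ 0 := by
    have : 0 < Nat.log 4 q := Nat.log_pos (by norm_num) hq
    omega
  have h2 : 2 ^ sc q ≤ Nat.log 4 q := Nat.pow_log_le_self 2 h1
  calc Nj (sc q) ^ 2 = 4 ^ 2 ^ sc q := by
        unfold Nj
        rw [← pow_mul, mul_comm, pow_mul]
        norm_num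
    _ ≤ 4 ^ Nat.log 4 q := Nat.pow_le_pow_right (by norm_num) h2
    _ ≤ q := Nat.pow_log_le_self 4 (by omega)

lemma lt_sc (q : ℕ) : q < Nj (sc q) ^ 4 := by
  have h2 : Nat.log 4 q < 2 ^ (sc q + 1) := Nat.lt_pow_succ_log_self (by norm_num) _
  calc q < 4 ^ (Nat.log 4 q + 1) := Nat.lt_pow_succ_log_self (by norm_num) _
    _ ≤ 4 ^ (2 ^ (sc q + 1)) := Nat.pow_le_pow_right (by norm_num) h2
    _ = Nj (sc q) ^ 4 := by
        unfold Nj
        rw [← pow_mul, pow_succ, show (2 : ℕ) ^ sc q * 4 = 2 * (2 ^ sc q * 2) by ring, pow_mul 2 2]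
        norm_num

lemma sc_mono {x y : ℕ} (h : x ≤ y) : sc x ≤ sc y :=
  Nat.log_mono_right (Nat.log_mono_right h)

lemma sc_le_succ {x y : ℕ} (h : y < x ^ 2) : sc y ≤ sc x + 1 := by
  unfold sc
  have h1 : Nat.log 4 y < 2 * (Nat.log 4 x + 1) := by
    by_contra hcon
    rw [not_lt] at hcon
    have hx2 : x < 4 ^ (Nat.log 4 x + 1) := Nat.lt_pow_succ_log_self (by norm_num) _
    have hy0 : y ≠ 0 := by
      intro h0
      rw [h0] at hcon
      simp at hcon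
    have h3 : 4 ^ Nat.log 4 y ≤ y := Nat.pow_log_le_self 4 hy0
    have h4 : (4 : ℕ) ^ (2 * (Nat.log 4 x + 1)) ≤ 4 ^ Nat.log 4 y :=
      Nat.pow_le_pow_right (by norm_num) hcon
    have h5 : x ^ 2 ≤ (4 ^ (Nat.log 4 x + 1)) ^ 2 := Nat.pow_le_pow_left hx2.le 2
    rw [← pow_mul, mul_comm] at h5
    omega
  have h2 : Nat.log 4 x + 1 ≤ 2 ^ (Nat.log 2 (Nat.log 4 x) + 1) :=
    Nat.lt_pow_succ_log_self (by norm_num) _
  have h3 : Nat.log 4 y < 2 ^ (Nat.log 2 (Nat.log 4 x) + 1 + 1) := by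
    rw [pow_succ]
    omega
  have h4 : Nat.log 2 (Nat.log 4 y) < Nat.log 2 (Nat.log 4 x) + 1 + 1 :=
    Nat.log_lt_of_lt_pow' (by omega) h3
  omega

lemma theta_le (γ : ℝ) {x y : ℕ} (hx : 0 < x) (hxy : x ≤ y) :
    |(cB γ (sc y) : ℝ) * γ - cA γ (sc y)| ≤ (w x ^ 8)⁻¹ := by
  refine (cen_theta γ (sc y)).trans ?_
  have hwx := w_pos hx
  have h1 : w x ^ 8 ≤ Nj (sc y) := by
    apply le_of_pow_le_pow_left₀ (n := 4) (by norm_num) (by positivity)
    rw [← pow_mul]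
    calc w x ^ (8 * 4) = w x ^ 32 := by norm_num
      _ = (x : ℝ) := w_pow x
      _ ≤ y := by exact_mod_cast hxy
      _ ≤ (Nj (sc y) : ℝ) ^ 4 := by exact_mod_cast (lt_sc y).le
  gcongr

lemma den_le (γ : ℝ) {x y : ℕ} (hy : 4 ≤ y) (hxy : (y : ℝ) ≤ w x ^ 40) :
    (cB γ (sc y) : ℝ) ≤ w x ^ 20 := by
  have hwx := w_nonneg x
  apply le_of_pow_le_pow_left₀ (n := 2) (by norm_num) (by positivity)
  rw [← pow_mul]
  calc (cB γ (sc y) : ℝ) ^ 2 ≤ (Nj (sc y) : ℝ) ^ 2 := by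
        gcongr
        exact_mod_cast cB_le γ (sc y)
    _ ≤ (y : ℝ) := by exact_mod_cast sc_lower hy
    _ ≤ w x ^ 40 := hxy
    _ = _ := by norm_num

/-- primes retained for the residue restriction -/
noncomputable def PP (γ : ℝ) (q : ℕ) : Finset ℕ :=
  q.primeFactors.filter (fun p => ¬ (p : ℤ) ∣ (cB γ (sc q) : ℤ))

/-- density of the retained residues -/
noncomputable def kap (γ : ℝ) (q : ℕ) : ℝ := ∏ p ∈ PP γ q, (1 - 1 / (p : ℝ))

/-- the approximation set attached to `q` -/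
noncomputable def EE (γ : ℝ) (ψ : ℕ → ℝ) (q : ℕ) : Set ℝ :=
  ES γ (ψ q) (cB γ (sc q)) (cA γ (sc q)) (PP γ q) q

lemma PP_sub (γ : ℝ) (q : ℕ) : PP γ q ⊆ q.primeFactors := Finset.filter_subset _ _

lemma PP_prime (γ : ℝ) (q : ℕ) : ∀ p ∈ PP γ q, p.Prime := fun _ hp =>
  Nat.prime_of_mem_primeFactors (PP_sub γ q hp)

lemma PP_coprime (γ : ℝ) (q : ℕ) : ∀ p ∈ PP γ q, IsCoprime (cB γ (sc q) : ℤ) (p : ℤ) := by
  intro p hp
  have hpp := PP_prime γ q p hp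
  unfold PP at hp
  rw [mem_filter] at hp
  rw [isCoprime_comm, Nat.isCoprime_iff_coprime, hpp.coprime_iff_not_dvd]
  intro h
  exact hp.2 (Int.natCast_dvd_natCast.mpr h)

lemma kap_pos (γ : ℝ) (q : ℕ) : 0 < kap γ q :=
  Finset.prod_pos fun _ hp => one_sub_inv_pos (PP_sub γ q hp)

lemma kap_lower (γ : ℝ) {q : ℕ} (hq : 0 < q) : (sg q)⁻¹ ≤ 2 * kap γ q := by
  have h := inv_le_prod_subset hq (PP_sub γ q)
  rw [mul_inv] at h
  have : kap γ q = ∏ p ∈ PP γ q, (1 - 1 / (p : ℝ)) := rfl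
  rw [this]
  linarith

lemma kap_ge_totient (γ : ℝ) {q : ℕ} (hq : 0 < q) : (Nat.totient q : ℝ) / q ≤ kap γ q := by
  have hqR : (0 : ℝ) < q := by exact_mod_cast hq
  have h1 : (Nat.totient q : ℝ) / q = ∏ p ∈ q.primeFactors, (1 - 1 / (p : ℝ)) := by
    have h := Nat.totient_eq_mul_prod_factors q
    have h2 : (Nat.totient q : ℝ) = q * ∏ p ∈ q.primeFactors, (1 - 1 / (p : ℝ)) := by
      have h3 : ((Nat.totient q : ℚ) : ℝ) = ((q * ∏ p ∈ q.primeFactors, (1 - (p : ℚ)⁻¹) : ℚ) : ℝ) := by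
        rw [h]
      push_cast at h3
      rw [h3]
      simp [one_div]
    rw [h2]
    field_simp
  rw [h1]
  unfold kap
  rw [← Finset.prod_sdiff (PP_sub γ q)]
  have h0 : 0 ≤ ∏ p ∈ PP γ q, (1 - 1 / (p : ℝ)) := (kap_pos γ q).le
  calc _ ≤ 1 * ∏ p ∈ PP γ q, (1 - 1 / (p : ℝ)) := by
        gcongr
        apply Finset.prod_le_one
        · intro p hp
          exact (one_sub_inv_pos (Finset.mem_sdiff.mp hp).1).le
        · intro p _
          exact one_sub_inv_le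
    _ = _ := one_mul _

end Vale.Agent.P028
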