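import Vale.Agent.Lib.P028.Arith

/-!
Elementary sieve: the Legendre sieve in short intervals and exact counts over full periods.
-/

open Finset

namespace Vale.Agent.P028

/-- `Phi B A P a`: no prime of `P` divides `B * a + A`. -/
def Phi (B A : ℤ) (P : Finset ℕ) (a : ℤ) : Prop := ∀ p ∈ P, ¬ (p : ℤ) ∣ B * a + A

instance (B A : ℤ) (P : Finset ℕ) (a : ℤ) : Decidable (Phi B A P a) :=
  inferInstanceAs (Decidable (∀ p ∈ P, ¬ (p : ℤ) ∣ B * a + A))

lemma phi_insert {B A : ℤ} {p : ℕ} {S : Finset ℕ} {a : ℤ} :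
    Phi B A (insert p S) a ↔ ¬ (p : ℤ) ∣ B * a + A ∧ Phi B A S a := by
  simp [Phi]

lemma phi_insert_split (B A : ℤ) (S : Finset ℕ) (p : ℕ) (hp : p.Prime)
    (hc : IsCoprime B (p : ℤ)) :
    ∃ c : ℤ, ∀ u v : ℤ,
      #{a ∈ Ico u v | Phi B A (insert p S) a} +
        #{s ∈ Ico (-((c - u) / p)) (-((c - v) / p)) | Phi (B * p) (B * c + A) S s} =
      #{a ∈ Ico u v | Phi B A S a} := by
  obtain ⟨x, y, hxy⟩ := hc
  have hp0 : (0 : ℤ) < p := by exact_mod_cast hp.pos
  -- x * B + y * p = 1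
  refine ⟨-(A * x), fun u v => ?_⟩
  set c : ℤ := -(A * x) with hcdef
  have hdvd : ∀ a : ℤ, (p : ℤ) ∣ B * a + A ↔ (p : ℤ) ∣ a - c := by
    intro a
    constructor
    · rintro ⟨k, hk⟩
      refine ⟨x * k + y * a, ?_⟩
      have : a - c = x * (B * a + A) + y * p * a := by
        rw [hcdef]
        linear_combination (-(a)) * hxy
      rw [this, hk]; ring
    · rintro ⟨k, hk⟩
      refine ⟨B * k + y * A, ?_⟩
      have : B * a + A = B * (a - c) + y * p * A := by
        rw [hcdef]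
        linear_combination (-A) * hxy
      rw [this, hk]; ring
  have hle : ∀ z s : ℤ, -((c - z) / p) ≤ s ↔ z ≤ c + p * s := by
    intro z s
    rw [neg_le, Int.le_ediv_iff_mul_le hp0]
    constructor <;> intro h <;> linarith
  have hlt : ∀ z s : ℤ, s < -((c - z) / p) ↔ c + p * s < z := by
    intro z s
    rw [← not_le, hle, not_le]
  have himg : #{s ∈ Ico (-((c - u) / p)) (-((c - v) / p)) | Phi (B * p) (B * c + A) S s} =
      #{a ∈ Ico u v | Phi B A S a ∧ (p : ℤ) ∣ B * a + A} := by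
    apply Finset.card_bij (fun s _ => c + p * s)
    · intro s hs
      simp only [mem_filter, mem_Ico, hle, hlt] at hs ⊢
      refine ⟨hs.1, ?_, ?_⟩
      · intro r hr
        have := hs.2 r hr
        convert this using 2
        ring
      · rw [hdvd]
        exact ⟨s, by ring⟩
    · intro s _ s' _ h
      have : (p : ℤ) * s = p * s' := by linarith
      exact mul_left_cancel₀ hp0.ne' this
    · intro a ha
      simp only [mem_filter, mem_Ico, hdvd] at ha
      obtain ⟨⟨hu, hv⟩, hphi, k, hk⟩ := ha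
      refine ⟨k, ?_, by linarith⟩
      simp only [mem_filter, mem_Ico, hle, hlt]
      have hak : c + p * k = a := by linarith
      rw [hak]
      refine ⟨⟨hu, hv⟩, ?_⟩
      intro r hr
      have := hphi r hr
      convert this using 2
      rw [← hak]; ring
  rw [himg]
  rw [← Finset.card_union_of_disjoint]
  · congr 1
    ext a
    simp only [mem_union, mem_filter, phi_insert]
    tauto
  · rw [Finset.disjoint_left]
    intro a ha hb
    simp only [mem_filter, phi_insert] at ha hb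
    exact ha.2.1 hb.2.2

lemma floor_diff (p : ℕ) (hp : 0 < p) (c u v : ℤ) (huv : u ≤ v) :
    -((c - u) / p) ≤ -((c - v) / (p : ℤ)) ∧
    |(((-((c - v) / p) - -((c - u) / p) : ℤ)) : ℝ) - ((v - u : ℤ) : ℝ) / p| ≤ 1 := by
  have hp0 : (0 : ℤ) < p := by exact_mod_cast hp
  have hpR : (0 : ℝ) < p := by exact_mod_cast hp
  constructor
  · have : (c - v) / (p : ℤ) ≤ (c - u) / p := Int.ediv_le_ediv hp0 (by linarith)
    linarith
  · have h1 := Int.emod_add_mul_ediv (c - u) p
    have h2 := Int.emod_add_mul_ediv (c - v) p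
    have h3 := Int.emod_nonneg (c - u) hp0.ne'
    have h4 := Int.emod_nonneg (c - v) hp0.ne'
    have h5 := Int.emod_lt_of_pos (c - u) hp0
    have h6 := Int.emod_lt_of_pos (c - v) hp0
    set X := (c - u) / (p : ℤ)
    set Y := (c - v) / (p : ℤ)
    set x := (c - u) % (p : ℤ)
    set y := (c - v) % (p : ℤ)
    have e : ((-Y - -X : ℤ) : ℝ) - ((v - u : ℤ) : ℝ) / p = ((y : ℝ) - x) / p := by
      have h1' : (x : ℝ) + p * X = c - u := by exact_mod_cast h1
      have h2' : (y : ℝ) + p * Y = c - v := by exact_mod_cast h2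
      field_simp
      push_cast
      linarith
    rw [e, abs_div, abs_of_pos hpR, div_le_one hpR, abs_le]
    have h3' : (0 : ℝ) ≤ x := by exact_mod_cast h3
    have h4' : (0 : ℝ) ≤ y := by exact_mod_cast h4
    have h5' : (x : ℝ) < p := by exact_mod_cast h5
    have h6' : (y : ℝ) < p := by exact_mod_cast h6
    constructor <;> linarith

/-- Legendre sieve with linear forms. -/
lemma legendre (P : Finset ℕ) : ∀ (B A : ℤ), (∀ p ∈ P, p.Prime) → (∀ p ∈ P, IsCoprime B (p : ℤ)) →
    ∀ u v : ℤ, u ≤ v →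
    |(#{a ∈ Ico u v | Phi B A P a} : ℝ) - ((v - u : ℤ) : ℝ) * ∏ p ∈ P, (1 - 1 / (p : ℝ))|
      ≤ 2 ^ (#P + 1) - 1 := by
  induction P using Finset.induction_on with
  | empty =>
    intro B A _ _ u v huv
    have : #{a ∈ Ico u v | Phi B A ∅ a} = (v - u).toNat := by
      rw [Finset.filter_true_of_mem]
      · exact Int.card_Ico u v
      · intro a _; simp [Phi]
    rw [this]
    have h : (((v - u).toNat : ℕ) : ℝ) = ((v - u : ℤ) : ℝ) := by
      have h' : (((v - u).toNat : ℕ) : ℤ) = v - u := Int.toNat_of_nonneg (by linarith)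
      exact_mod_cast h'
    rw [h]
    simp
  | insert p S hpS ih =>
    intro B A hprime hcop u v huv
    have hp : p.Prime := hprime p (mem_insert_self _ _)
    have hpR : (0 : ℝ) < p := by exact_mod_cast hp.pos
    have hpp := hcop p (mem_insert_self _ _)
    obtain ⟨c, hc⟩ := phi_insert_split B A S p hp hpp
    have hprimeS : ∀ r ∈ S, r.Prime := fun r hr => hprime r (mem_insert_of_mem hr)
    have h1 := ih B A hprimeS (fun r hr => hcop r (mem_insert_of_mem hr)) u v huv
    obtain ⟨hle, hfl⟩ := floor_diff p hp.pos c u v huv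
    have hcop2 : ∀ r ∈ S, IsCoprime (B * p) (r : ℤ) := by
      intro r hr
      have hrp : r.Prime := hprimeS r hr
      have hne : p ≠ r := fun h => hpS (h ▸ hr)
      have h2 : IsCoprime (p : ℤ) (r : ℤ) := by
        rw [Nat.isCoprime_iff_coprime]
        exact (Nat.coprime_primes hp hrp).mpr hne
      exact IsCoprime.mul_left (hcop r (mem_insert_of_mem hr)) h2
    have h2 := ih (B * p) (B * c + A) hprimeS hcop2 _ _ hle
    have h3 := hc u v
    have h3' : (#{a ∈ Ico u v | Phi B A (insert p S) a} : ℝ) +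
        (#{s ∈ Ico (-((c - u) / p)) (-((c - v) / p)) | Phi (B * p) (B * c + A) S s} : ℝ) =
      (#{a ∈ Ico u v | Phi B A S a} : ℝ) := by exact_mod_cast h3
    rw [Finset.prod_insert hpS, Finset.card_insert_of_notMem hpS]
    set Q : ℝ := ∏ r ∈ S, (1 - 1 / (r : ℝ)) with hQ
    have hQ0 : 0 ≤ Q := by
      apply Finset.prod_nonneg
      intro r hr
      have : (1 : ℝ) ≤ r := by exact_mod_cast (hprimeS r hr).one_lt.le
      have : 1 / (r : ℝ) ≤ 1 := by rw [div_le_one (by linarith)]; exact this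
      linarith
    have hQ1 : Q ≤ 1 := by
      apply Finset.prod_le_one
      · intro r hr
        have : (1 : ℝ) ≤ r := by exact_mod_cast (hprimeS r hr).one_lt.le
        have : 1 / (r : ℝ) ≤ 1 := by rw [div_le_one (by linarith)]; exact this
        linarith
      · intro r _
        exact one_sub_inv_le
    set N1 : ℝ := (#{a ∈ Ico u v | Phi B A (insert p S) a} : ℝ)
    set N2 : ℝ := (#{s ∈ Ico (-((c - u) / p)) (-((c - v) / p)) | Phi (B * p) (B * c + A) S s} : ℝ)
    set N3 : ℝ := (#{a ∈ Ico u v | Phi B A S a} : ℝ)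
    set l1 : ℝ := ((v - u : ℤ) : ℝ)
    set l2 : ℝ := ((-((c - v) / (p : ℤ)) - -((c - u) / (p : ℤ)) : ℤ) : ℝ)
    have hE : (2 : ℝ) ^ (#S + 1 + 1) - 1 = (2 ^ (#S + 1) - 1) + (2 ^ (#S + 1) - 1) + 1 := by
      rw [pow_succ (2 : ℝ) (#S + 1)]; ring
    rw [hE]
    have key : N1 - l1 * ((1 - 1 / (p : ℝ)) * Q) = (N3 - l1 * Q) - (N2 - l2 * Q) - (l2 - l1 / p) * Q := by
      rw [← h3']; ring
    rw [key]
    have h4 : |(l2 - l1 / p) * Q| ≤ 1 := by
      rw [abs_mul, abs_of_nonneg hQ0]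
      calc |l2 - l1 / (p : ℝ)| * Q ≤ 1 * 1 := by gcongr
        _ = 1 := one_mul 1
    rw [abs_le] at h1 h2 h4 ⊢
    constructor <;> linarith [h1.1, h1.2, h2.1, h2.2, h4.1, h4.2]

/-- exact count over full periods -/
lemma full_period (P : Finset ℕ) : ∀ (B A : ℤ), (∀ p ∈ P, p.Prime) →
    (∀ p ∈ P, IsCoprime B (p : ℤ)) → ∀ (u : ℤ) (N : ℕ), (∏ p ∈ P, p) ∣ N →
    (#{a ∈ Ico u (u + N) | Phi B A P a} : ℝ) = (N : ℝ) * ∏ p ∈ P, (1 - 1 / (p : ℝ)) := by
  induction P using Finset.induction_on with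
  | empty =>
    intro B A _ _ u N _
    have : #{a ∈ Ico u (u + N) | Phi B A ∅ a} = N := by
      rw [Finset.filter_true_of_mem]
      · rw [Int.card_Ico]; simp
      · intro a _; simp [Phi]
    rw [this]; simp
  | insert p S hpS ih =>
    intro B A hprime hcop u N hN
    have hp : p.Prime := hprime p (mem_insert_self _ _)
    have hpR : (0 : ℝ) < p := by exact_mod_cast hp.pos
    have hp0 : (0 : ℤ) < p := by exact_mod_cast hp.pos
    have hpp := hcop p (mem_insert_self _ _)
    obtain ⟨c, hc⟩ := phi_insert_split B A S p hp hpp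
    have hprimeS : ∀ r ∈ S, r.Prime := fun r hr => hprime r (mem_insert_of_mem hr)
    rw [Finset.prod_insert hpS] at hN ⊢
    obtain ⟨M, hM⟩ := hN
    have h1 := ih B A hprimeS (fun r hr => hcop r (mem_insert_of_mem hr)) u N
      ⟨p * M, by rw [hM]; ring⟩
    have hcop2 : ∀ r ∈ S, IsCoprime (B * p) (r : ℤ) := by
      intro r hr
      have hrp : r.Prime := hprimeS r hr
      have hne : p ≠ r := fun h => hpS (h ▸ hr)
      have h2 : IsCoprime (p : ℤ) (r : ℤ) := by
        rw [Nat.isCoprime_iff_coprime]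
        exact (Nat.coprime_primes hp hrp).mpr hne
      exact IsCoprime.mul_left (hcop r (mem_insert_of_mem hr)) h2
    have hend : -((c - (u + (N : ℤ))) / (p : ℤ)) = -((c - u) / (p : ℤ)) + (((∏ r ∈ S, r) * M : ℕ) : ℤ) := by
      have : c - (u + (N : ℤ)) = (c - u) - p * (((∏ r ∈ S, r) * M : ℕ) : ℤ) := by
        rw [hM]; push_cast; ring
      rw [this, Int.sub_mul_ediv_left _ _ hp0.ne']
      ring
    have h2 := ih (B * p) (B * c + A) hprimeS hcop2 (-((c - u) / (p : ℤ))) ((∏ r ∈ S, r) * M)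
      (Dvd.intro _ rfl)
    have h3 := hc u (u + N)
    rw [hend] at h3
    have h3' : (#{a ∈ Ico u (u + N) | Phi B A (insert p S) a} : ℝ) +
        (#{s ∈ Ico (-((c - u) / p)) (-((c - u) / (p : ℤ)) + (((∏ r ∈ S, r) * M : ℕ) : ℤ)) |
          Phi (B * p) (B * c + A) S s} : ℝ) =
      (#{a ∈ Ico u (u + N) | Phi B A S a} : ℝ) := by exact_mod_cast h3
    rw [h1, h2] at h3'
    have hNR : (N : ℝ) = p * (((∏ r ∈ S, r) * M : ℕ) : ℝ) := by
      rw [hM]; push_cast; ring
    have : (#{a ∈ Ico u (u + N) | Phi B A (insert p S) a} : ℝ) =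
      (N : ℝ) * ∏ p ∈ S, (1 - 1 / (p : ℝ)) -
        (((∏ r ∈ S, r) * M : ℕ) : ℝ) * ∏ p ∈ S, (1 - 1 / (p : ℝ)) := by linarith
    rw [this, hNR]
    field_simp

end Vale.Agent.P028
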