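import Vale.Agent.Lib.P028.Sieve

/-!
Exact count of pairs over full periods.
-/

open Finset

namespace Vale.Agent.P028

lemma sum_period (f : ℤ → ℝ) (N : ℕ) (hf : ∀ x, f (x + N) = f x) (a : ℤ) :
    ∑ x ∈ Ico a (a + N), f x = ∑ x ∈ Ico (0 : ℤ) N, f x := by
  rcases Nat.eq_zero_or_pos N with h0 | hN
  · subst h0; simp
  have step : ∀ a : ℤ, ∑ x ∈ Ico (a + 1) (a + 1 + N), f x = ∑ x ∈ Ico a (a + N), f x := by
    intro a
    have h1 : Ico a (a + N) = insert a (Ico (a + 1) (a + N)) := by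
      ext x; simp only [mem_Ico, mem_insert]
      have : (0 : ℤ) < N := by exact_mod_cast hN
      constructor <;> intro h <;> omega
    have h2 : Ico (a + 1) (a + 1 + N) = insert (a + N) (Ico (a + 1) (a + N)) := by
      ext x; simp only [mem_Ico, mem_insert]
      have : (0 : ℤ) < N := by exact_mod_cast hN
      constructor <;> intro h <;> omega
    rw [h1, h2, sum_insert, sum_insert, hf]
    · simp
    · simp
  induction a using Int.induction_on with
  | zero => simp
  | succ i ih => rw [step, ih]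
  | pred i ih =>
    have := step (-(i : ℤ) - 1)
    rw [← this]
    convert ih using 2
    ring_nf

lemma sum_period_mul (f : ℤ → ℝ) (N : ℕ) (hf : ∀ x, f (x + N) = f x) (a : ℤ) (k : ℕ) :
    ∑ x ∈ Ico a (a + (k * N : ℕ)), f x = k * ∑ x ∈ Ico (0 : ℤ) N, f x := by
  induction k with
  | zero => simp
  | succ k ih =>
    have h : Ico a (a + ((k + 1) * N : ℕ)) =
        Ico a (a + (k * N : ℕ)) ∪ Ico (a + (k * N : ℕ)) (a + (k * N : ℕ) + N) := by
      ext x; simp only [mem_Ico, mem_union]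
      push_cast
      have h0 : (0 : ℤ) ≤ N := by positivity
      have h1 : (0 : ℤ) ≤ (k : ℤ) * N := by positivity
      constructor
      · intro h
        by_cases hx : x < a + k * N
        · left; exact ⟨h.1, hx⟩
        · right; exact ⟨by linarith, by linarith [h.2]⟩
      · rintro (h | h)
        · exact ⟨h.1, by linarith [h.2]⟩
        · exact ⟨by linarith [h.1], by linarith [h.2]⟩
    rw [h, sum_union, ih, sum_period f N hf]
    · push_cast; ring
    · rw [Finset.disjoint_left]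
      intro x hx hx'
      simp only [mem_Ico] at hx hx'
      omega

lemma period_val (N : ℕ) [NeZero N] (f : ℤ → ℝ) (hf : ∀ x, f (x + N) = f x) (x : ℤ) :
    f x = f (((x : ZMod N).val : ℕ) : ℤ) := by
  have hmul : ∀ (k : ℕ) (y : ℤ), f (y + N * k) = f y := by
    intro k
    induction k with
    | zero => intro y; simp
    | succ k ih =>
      intro y
      have : y + (N : ℤ) * ((k + 1 : ℕ) : ℤ) = (y + N * k) + N := by push_cast; ring
      rw [this, hf, ih]
  have hmulz : ∀ (k : ℤ) (y : ℤ), f (y + N * k) = f y := by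
    intro k y
    obtain ⟨n, rfl | rfl⟩ := k.eq_nat_or_neg
    · exact hmul n y
    · have := hmul n (y + N * (-(n : ℤ)))
      rw [← this]
      congr 1
      ring
  rw [ZMod.val_intCast]
  conv_lhs => rw [← Int.emod_add_mul_ediv x N]
  exact hmulz _ _

lemma sum_Ico_eq_sum_zmod (N : ℕ) [NeZero N] (f : ℤ → ℝ) :
    ∑ x ∈ Ico (0 : ℤ) N, f x = ∑ z : ZMod N, f ((z.val : ℕ) : ℤ) := by
  symm
  apply Finset.sum_bij (fun z _ => ((z.val : ℕ) : ℤ))
  · intro z _
    simp only [mem_Ico]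
    have := ZMod.val_lt z
    omega
  · intro z _ z' _ h
    exact ZMod.val_injective N (by exact_mod_cast h)
  · intro x hx
    simp only [mem_Ico] at hx
    refine ⟨(x : ZMod N), mem_univ _, ?_⟩
    rw [ZMod.val_intCast, Int.emod_eq_of_lt hx.1 hx.2]
  · intro z _; rfl

lemma sum_unimodular (N : ℕ) (hN : 0 < N) (F G : ℤ → ℝ) (hF : ∀ x, F (x + N) = F x)
    (hG : ∀ x, G (x + N) = G x) (u v q r : ℤ) (hdet : u * r - v * q = 1) :
    ∑ m ∈ Ico (0 : ℤ) N, ∑ t ∈ Ico (0 : ℤ) N, F (u * m + q * t) * G (v * m + r * t) =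
      (∑ a ∈ Ico (0 : ℤ) N, F a) * (∑ b ∈ Ico (0 : ℤ) N, G b) := by
  have : NeZero N := ⟨hN.ne'⟩
  have hdetz : (u : ZMod N) * r - v * q = 1 := by
    have := congrArg (fun z : ℤ => (z : ZMod N)) hdet
    simpa using this
  rw [sum_Ico_eq_sum_zmod N (fun m => ∑ t ∈ Ico (0 : ℤ) N, F (u * m + q * t) * G (v * m + r * t))]
  have h1 : ∀ z : ZMod N, ∑ t ∈ Ico (0 : ℤ) N, F (u * (z.val : ℕ) + q * t) * G (v * (z.val : ℕ) + r * t)
      = ∑ y : ZMod N, F (((u * z + q * y : ZMod N).val : ℕ) : ℤ) *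
          G (((v * z + r * y : ZMod N).val : ℕ) : ℤ) := by
    intro z
    rw [sum_Ico_eq_sum_zmod N (fun t => F (u * (z.val : ℕ) + q * t) * G (v * (z.val : ℕ) + r * t))]
    refine Finset.sum_congr rfl fun y _ => ?_
    rw [period_val N F hF (u * (z.val : ℕ) + q * (y.val : ℕ)),
      period_val N G hG (v * (z.val : ℕ) + r * (y.val : ℕ))]
    push_cast
    simp only [ZMod.natCast_val, ZMod.cast_id', id_eq]
  rw [Finset.sum_congr rfl (fun z _ => h1 z)]
  rw [sum_Ico_eq_sum_zmod N F, sum_Ico_eq_sum_zmod N G, Finset.sum_mul_sum]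
  rw [← Fintype.sum_prod_type' (fun (z y : ZMod N) =>
    F (((u * z + q * y : ZMod N).val : ℕ) : ℤ) * G (((v * z + r * y : ZMod N).val : ℕ) : ℤ))]
  rw [← Fintype.sum_prod_type' (fun (z y : ZMod N) =>
    F ((z.val : ℕ) : ℤ) * G ((y.val : ℕ) : ℤ))]
  let e : (ZMod N × ZMod N) ≃ (ZMod N × ZMod N) :=
    { toFun := fun p => (u * p.1 + q * p.2, v * p.1 + r * p.2)
      invFun := fun p => (r * p.1 - q * p.2, -v * p.1 + u * p.2)
      left_inv := by
        rintro ⟨m, t⟩
        simp only [Prod.mk.injEq]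
        constructor
        · linear_combination m * hdetz
        · linear_combination t * hdetz
      right_inv := by
        rintro ⟨a, b⟩
        simp only [Prod.mk.injEq]
        constructor
        · linear_combination a * hdetz
        · linear_combination b * hdetz }
  exact Equiv.sum_comp e (fun p : ZMod N × ZMod N => F ((p.1.val : ℕ) : ℤ) * G ((p.2.val : ℕ) : ℤ))

/-- parametrisation of the pairs `(a,b)` with `a * r' - b * q' = m`. -/
lemma inner_param (q' r' d : ℕ) (hq' : 0 < q') (u v : ℤ) (hdet : u * r' - v * q' = 1)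
    (a₀ m : ℤ) (K : ℤ → ℤ → ℝ) :
    ∑ a ∈ Ico a₀ (a₀ + 2 * (d * q' : ℕ)) with (q' : ℤ) ∣ a * r' - m, K a ((a * r' - m) / q') =
    ∑ t ∈ Ico (-((u * m - a₀) / (q' : ℤ))) (-((u * m - a₀) / (q' : ℤ)) + 2 * (d : ℕ)),
      K (u * m + q' * t) (v * m + r' * t) := by
  have hq0 : (0 : ℤ) < q' := by exact_mod_cast hq'
  have hle : ∀ z s : ℤ, -((u * m - z) / (q' : ℤ)) ≤ s ↔ z ≤ u * m + q' * s := by
    intro z s
    rw [neg_le, Int.le_ediv_iff_mul_le hq0]
    constructor <;> intro h <;> linarith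
  have hend : -((u * m - a₀) / (q' : ℤ)) + 2 * (d : ℕ) =
      -((u * m - (a₀ + 2 * (d * q' : ℕ))) / (q' : ℤ)) := by
    have : u * m - (a₀ + 2 * ((d * q' : ℕ) : ℤ)) = (u * m - a₀) - q' * (2 * (d : ℤ)) := by
      push_cast; ring
    rw [this, Int.sub_mul_ediv_left _ _ hq0.ne']
    ring
  rw [hend]
  symm
  apply Finset.sum_bij (fun t _ => u * m + q' * t)
  · intro t ht
    rw [mem_Ico, hle, ← not_le, hle, not_le] at ht
    rw [mem_filter, mem_Ico]
    refine ⟨ht, ?_⟩
    refine ⟨v * m + r' * t, ?_⟩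
    linear_combination m * hdet
  · intro t _ t' _ h
    have : (q' : ℤ) * t = q' * t' := by linarith
    exact mul_left_cancel₀ hq0.ne' this
  · intro a ha
    rw [mem_filter, mem_Ico] at ha
    obtain ⟨h1, k, hk⟩ := ha
    have hak : a = u * m + q' * (u * k - v * a) := by
      linear_combination (-a) * hdet + u * hk
    refine ⟨u * k - v * a, ?_, hak.symm⟩
    rw [mem_Ico, hle, ← not_le, hle, not_le, ← hak]
    exact h1
  · intro t _
    have : ((u * m + q' * t) * r' - m) / (q' : ℤ) = v * m + r' * t := by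
      have h : (u * m + q' * t) * r' - m = q' * (v * m + r' * t) := by
        linear_combination m * hdet
      rw [h, Int.mul_ediv_cancel_left _ hq0.ne']
    rw [this]

lemma pair_count (q' r' d Q : ℕ) (hq' : 0 < q') (hr' : 0 < r') (hd : 0 < d) (hQ : 0 < Q)
    (hcop : Nat.Coprime q' r') (F G : ℤ → ℝ)
    (hF : ∀ x, F (x + Q) = F x) (hG : ∀ x, G (x + Q) = G x)
    (hF' : ∀ x, F (x + (d * q' : ℕ)) = F x) (hG' : ∀ x, G (x + (d * r' : ℕ)) = G x)
    (a₀ m₀ : ℤ) (j : ℕ) :
    (Q : ℝ) * ∑ m ∈ Ico m₀ (m₀ + (j * Q : ℕ)),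
      ∑ a ∈ Ico a₀ (a₀ + 2 * (d * q' : ℕ)) with (q' : ℤ) ∣ a * r' - m,
        F a * G ((a * r' - m) / q') =
    2 * d * j * ((∑ a ∈ Ico (0 : ℤ) Q, F a) * (∑ b ∈ Ico (0 : ℤ) Q, G b)) := by
  -- Bezout
  obtain ⟨u, v, hdet⟩ : ∃ u v : ℤ, u * r' - v * q' = 1 := by
    have h : IsCoprime (r' : ℤ) (q' : ℤ) := by
      rw [Nat.isCoprime_iff_coprime]; exact hcop.symm
    obtain ⟨x, y, hxy⟩ := h
    exact ⟨x, -y, by linear_combination hxy⟩
  have h1 : ∀ m : ℤ, (Q : ℝ) * ∑ a ∈ Ico a₀ (a₀ + 2 * (d * q' : ℕ)) with (q' : ℤ) ∣ a * r' - m,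
        F a * G ((a * r' - m) / q') =
      2 * d * ∑ t ∈ Ico (0 : ℤ) Q, F (u * m + q' * t) * G (v * m + r' * t) := by
    intro m
    rw [inner_param q' r' d hq' u v hdet a₀ m (fun a b => F a * G b)]
    set H : ℤ → ℝ := fun t => F (u * m + q' * t) * G (v * m + r' * t) with hH
    have hHd : ∀ t, H (t + d) = H t := by
      intro t
      simp only [hH]
      have e1 : u * m + (q' : ℤ) * (t + d) = (u * m + q' * t) + (d * q' : ℕ) := by push_cast; ring
      have e2 : v * m + (r' : ℤ) * (t + d) = (v * m + r' * t) + (d * r' : ℕ) := by push_cast; ring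
      rw [e1, e2, hF', hG']
    have hFQ : ∀ (k : ℕ) (x : ℤ), F (x + k * Q) = F x := by
      intro k
      induction k with
      | zero => intro x; simp
      | succ k ih =>
        intro x
        have : x + ((k + 1 : ℕ) : ℤ) * (Q : ℤ) = (x + k * Q) + Q := by push_cast; ring
        rw [this, hF, ih]
    have hGQ : ∀ (k : ℕ) (x : ℤ), G (x + k * Q) = G x := by
      intro k
      induction k with
      | zero => intro x; simp
      | succ k ih =>
        intro x
        have : x + ((k + 1 : ℕ) : ℤ) * (Q : ℤ) = (x + k * Q) + Q := by push_cast; ring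
        rw [this, hG, ih]
    have hHQ : ∀ t, H (t + Q) = H t := by
      intro t
      simp only [hH]
      have e1 : u * m + (q' : ℤ) * (t + Q) = (u * m + q' * t) + q' * Q := by ring
      have e2 : v * m + (r' : ℤ) * (t + Q) = (v * m + r' * t) + r' * Q := by ring
      rw [e1, e2, hFQ, hGQ]
    have e1 := sum_period_mul H d hHd (-((u * m - a₀) / (q' : ℤ))) 2
    have e1' : ∑ t ∈ Ico (-((u * m - a₀) / (q' : ℤ))) (-((u * m - a₀) / (q' : ℤ)) + 2 * (d : ℕ)), H t
        = 2 * ∑ x ∈ Ico (0 : ℤ) d, H x := by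
      rw [← Nat.cast_ofNat (R := ℝ), ← e1]
      push_cast
      rfl
    have e2 := sum_period_mul H d hHd 0 Q
    have e3 := sum_period_mul H Q hHQ 0 d
    have e4 : ((Q : ℕ) : ℝ) * ∑ x ∈ Ico (0 : ℤ) d, H x = (d : ℝ) * ∑ x ∈ Ico (0 : ℤ) Q, H x := by
      rw [← e2, ← e3, mul_comm Q d]
    show (Q : ℝ) * ∑ t ∈ Ico (-((u * m - a₀) / (q' : ℤ))) (-((u * m - a₀) / (q' : ℤ)) + 2 * (d : ℕ)), H t = _
    rw [e1']
    linear_combination 2 * e4
  rw [Finset.mul_sum, Finset.sum_congr rfl (fun m _ => h1 m), ← Finset.mul_sum]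
  -- sum over m
  have hFQ : ∀ (k : ℤ) (x : ℤ), F (x + k * Q) = F x := by
    intro k x
    have : NeZero Q := ⟨hQ.ne'⟩
    rw [period_val Q F hF (x + k * Q), period_val Q F hF x]
    simp
  have hGQ : ∀ (k : ℤ) (x : ℤ), G (x + k * Q) = G x := by
    intro k x
    have : NeZero Q := ⟨hQ.ne'⟩
    rw [period_val Q G hG (x + k * Q), period_val Q G hG x]
    simp
  have h2 := sum_period_mul (fun m => ∑ t ∈ Ico (0 : ℤ) Q, F (u * m + q' * t) * G (v * m + r' * t)) Q
    (by
      intro m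
      refine Finset.sum_congr rfl fun t _ => ?_
      have e1 : u * (m + Q) + (q' : ℤ) * t = (u * m + q' * t) + u * Q := by ring
      have e2 : v * (m + Q) + (r' : ℤ) * t = (v * m + r' * t) + v * Q := by ring
      rw [e1, e2, hFQ, hGQ]) m₀ j
  rw [h2, sum_unimodular Q hQ F G hF hG u v q' r' hdet]
  ring

end Vale.Agent.P028
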