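import Vale.Agent.Lib.P028.Local

/-!
From the second moment bound to full measure.
-/

open Finset MeasureTheory

namespace Vale.Agent.P028

lemma cs_abstract {α : Type*} [MeasurableSpace α] (μ : Measure α) [IsFiniteMeasure μ]
    (Q : Finset ℕ) (E : ℕ → Set α) (hE : ∀ i ∈ Q, MeasurableSet (E i)) (t : ℝ) (ht : 0 < t) :
    ∑ i ∈ Q, μ.real (E i) ≤
      (t / 2) * μ.real Set.univ + (1 / (2 * t)) * ∑ i ∈ Q, ∑ j ∈ Q, μ.real (E i ∩ E j) := by
  set f : ℕ → α → ℝ := fun i => (E i).indicator (fun _ => (1 : ℝ)) with hf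
  have hint : ∀ i ∈ Q, Integrable (f i) μ := fun i hi =>
    (integrable_const (1 : ℝ)).indicator (hE i hi)
  have hint2 : ∀ i ∈ Q, ∀ j ∈ Q, Integrable (fun x => f i x * f j x) μ := by
    intro i hi j hj
    have : (fun x => f i x * f j x) = (E i ∩ E j).indicator (fun _ => (1 : ℝ)) := by
      funext x
      simp only [hf]
      by_cases h1 : x ∈ E i <;> by_cases h2 : x ∈ E j <;> simp [h1, h2]
    rw [this]
    exact (integrable_const (1 : ℝ)).indicator ((hE i hi).inter (hE j hj))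
  have e1 : ∫ x, ∑ i ∈ Q, f i x ∂μ = ∑ i ∈ Q, μ.real (E i) := by
    rw [integral_finsetSum _ hint]
    refine Finset.sum_congr rfl fun i hi => ?_
    simp only [hf]
    rw [integral_indicator (hE i hi)]
    simp
  have e2 : ∫ x, ∑ i ∈ Q, ∑ j ∈ Q, f i x * f j x ∂μ = ∑ i ∈ Q, ∑ j ∈ Q, μ.real (E i ∩ E j) := by
    rw [integral_finsetSum _ (fun i hi => integrable_finsetSum _ (fun j hj => hint2 i hi j hj))]
    refine Finset.sum_congr rfl fun i hi => ?_
    rw [integral_finsetSum _ (fun j hj => hint2 i hi j hj)]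
    refine Finset.sum_congr rfl fun j hj => ?_
    have : (fun x => f i x * f j x) = (E i ∩ E j).indicator (fun _ => (1 : ℝ)) := by
      funext x
      simp only [hf]
      by_cases h1 : x ∈ E i <;> by_cases h2 : x ∈ E j <;> simp [h1, h2]
    rw [this, integral_indicator ((hE i hi).inter (hE j hj))]
    simp
  have e3 : ∫ _x, (t / 2 : ℝ) ∂μ = (t / 2) * μ.real Set.univ := by
    rw [integral_const, smul_eq_mul, mul_comm]
  rw [← e1, ← e2, ← e3]
  rw [← integral_const_mul, ← integral_add (integrable_const _)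
    ((integrable_finsetSum _ (fun i hi => integrable_finsetSum _
      (fun j hj => hint2 i hi j hj))).const_mul _)]
  apply integral_mono (integrable_finsetSum _ hint)
  · exact (integrable_const _).add ((integrable_finsetSum _ (fun i hi => integrable_finsetSum _
      (fun j hj => hint2 i hi j hj))).const_mul _)
  · intro x
    simp only []
    rw [← Finset.sum_mul_sum]
    set F := ∑ i ∈ Q, f i x
    have : 0 ≤ (F - t) ^ 2 := sq_nonneg _
    have h2 : t / 2 + 1 / (2 * t) * (F * F) - F = (F - t) ^ 2 / (2 * t) := by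
      field_simp; ring
    have h3 : 0 ≤ (F - t) ^ 2 / (2 * t) := by positivity
    linarith

/-- points of the unit interval which avoid all the sets from `X` on -/
def GG (γ : ℝ) (ψ : ℕ → ℝ) (X : ℕ) : Set ℝ :=
  {x | x ∈ Set.Ico (0 : ℝ) 1 ∧ ∀ q : ℕ, X ≤ q → x ∉ EE γ ψ q}

lemma GG_eq (γ : ℝ) (ψ : ℕ → ℝ) (X : ℕ) :
    GG γ ψ X = Set.Ico (0 : ℝ) 1 ∩ ⋂ q : ℕ, ⋂ _ : X ≤ q, (EE γ ψ q)ᶜ := by
  ext x
  simp [GG]

lemma GG_meas (γ : ℝ) (ψ : ℕ → ℝ) {X : ℕ} (hX : 0 < X) : MeasurableSet (GG γ ψ X) := by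
  rw [GG_eq]
  refine measurableSet_Ico.inter ?_
  refine MeasurableSet.iInter fun q => MeasurableSet.iInter fun hq => ?_
  exact (EE_meas γ ψ (by omega)).compl

/-- the main measure theoretic step -/
theorem GG_null (γ : ℝ) (ψ : ℕ → ℝ) (hψ : ∀ q, 0 ≤ ψ q) (hψ1 : ∀ q : ℕ, (q : ℝ) * ψ q ≤ 1)
    (hdiv : ∀ (X : ℕ) (T : ℝ), ∃ Q : Finset ℕ, (∀ q ∈ Q, X ≤ q) ∧ T ≤ ∑ q ∈ Q, kap γ q * ψ q)
    (X : ℕ) (hX : 0 < X) : volume (GG γ ψ X) = 0 := by
  classical
  obtain ⟨C, hC, q₀, hq₀, hmain⟩ := main_prop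
  by_contra hpos
  have hGfin : volume (GG γ ψ X) ≠ ⊤ := by
    refine ne_top_of_le_ne_top ?_ (measure_mono (fun x (hx : x ∈ GG γ ψ X) => hx.1))
    simp
  have hδ0 : 0 < volume.real (GG γ ψ X) := by
    rw [measureReal_def]
    exact ENNReal.toReal_pos hpos hGfin
  -- compact subset
  obtain ⟨K, hKG, hKc, hKv⟩ := (GG_meas γ ψ hX).exists_lt_isCompact_of_ne_top hGfin
    (pos_iff_ne_zero.mpr hpos)
  have hKfin : volume K ≠ ⊤ := ne_top_of_le_ne_top hGfin (measure_mono hKG)
  set δ : ℝ := volume.real K with hδ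
  have hδpos : 0 < δ := by
    rw [hδ, measureReal_def]
    exact ENNReal.toReal_pos hKv.ne' hKfin
  set η : ℝ := δ ^ 2 / (16 * C) with hη
  have hη0 : 0 < η := by positivity
  -- open superset
  obtain ⟨U, hKU, hUo, hUv⟩ := K.exists_isOpen_lt_add (μ := volume) hKfin
    (ε := ENNReal.ofReal η) (by simpa using hη0)
  have hUfin : volume U ≠ ⊤ := ne_top_of_lt hUv
  have hUK : volume.real (U \ K) ≤ η := by
    rw [measureReal_sdiff hKU hKc.measurableSet hUfin]
    have : volume.real U ≤ volume.real K + η := by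
      rw [measureReal_def, measureReal_def]
      have h1 := ENNReal.toReal_mono (by simp [hKfin]) hUv.le
      rwa [ENNReal.toReal_add hKfin (by simp), ENNReal.toReal_ofReal hη0.le] at h1
    linarith
  -- mesh
  obtain ⟨ε, hε0, hεU⟩ := hKc.exists_thickening_subset_open hUo hKU
  obtain ⟨N, hN⟩ := exists_nat_gt (1 / ε)
  have hN0 : 0 < N := by
    have : (0 : ℝ) < N := lt_trans (by positivity) hN
    exact_mod_cast this
  have hNR : (0 : ℝ) < N := by exact_mod_cast hN0
  have hNε : 1 / (N : ℝ) < ε := by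
    rw [div_lt_iff₀ hε0] at hN
    rw [div_lt_iff₀ hNR]
    linarith
  set I : ℕ → Set ℝ := fun i => Set.Ico ((i : ℝ) / N) (((i : ℝ) + 1) / N) with hI
  set S : Finset ℕ := (Finset.range N).filter (fun i => (I i ∩ K).Nonempty) with hS
  set V : Set ℝ := ⋃ i ∈ S, I i with hV
  have hKV : K ⊆ V := by
    intro x hx
    have hx01 : x ∈ Set.Ico (0 : ℝ) 1 := (hKG hx).1
    have hNx : 0 ≤ (N : ℝ) * x := mul_nonneg hNR.le hx01.1
    have h1 : (⌊(N : ℝ) * x⌋₊ : ℝ) ≤ N * x := Nat.floor_le hNx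
    have h2 : (N : ℝ) * x < ⌊(N : ℝ) * x⌋₊ + 1 := Nat.lt_floor_add_one _
    have hxI : x ∈ I ⌊(N : ℝ) * x⌋₊ := by
      simp only [hI, Set.mem_Ico]
      rw [div_le_iff₀ hNR, lt_div_iff₀ hNR]
      constructor <;> linarith
    simp only [hV, Set.mem_iUnion]
    refine ⟨⌊(N : ℝ) * x⌋₊, ?_, hxI⟩
    rw [hS, mem_filter, Finset.mem_range]
    refine ⟨?_, ⟨x, hxI, hx⟩⟩
    rw [Nat.floor_lt hNx]
    have := hx01.2
    nlinarith
  have hVU : V ⊆ U := by
    intro x hx
    simp only [hV, Set.mem_iUnion] at hx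
    obtain ⟨i, hiS, hxi⟩ := hx
    rw [hS, mem_filter] at hiS
    obtain ⟨y, hyi, hyK⟩ := hiS.2
    apply hεU
    rw [Metric.mem_thickening_iff]
    refine ⟨y, hyK, ?_⟩
    simp only [hI, Set.mem_Ico] at hxi hyi
    rw [Real.dist_eq, abs_lt]
    have : ((i : ℝ) + 1) / N = i / N + 1 / N := by ring
    rw [this] at hxi hyi
    constructor <;> linarith
  have hIvol : ∀ i, volume.real (I i) = 1 / N := by
    intro i
    simp only [hI]
    rw [Real.volume_real_Ico_of_le]
    · ring
    · gcongr; linarith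
  have hδS : δ ≤ #S * (1 / (N : ℝ)) := by
    have hVfin : volume V ≠ ⊤ := ne_top_of_le_ne_top hUfin (measure_mono hVU)
    calc δ ≤ volume.real V := measureReal_mono hKV hVfin
      _ ≤ ∑ i ∈ S, volume.real (I i) := measureReal_biUnion_finset_le _ _
      _ = _ := by
          rw [Finset.sum_congr rfl (fun i _ => hIvol i), Finset.sum_const, nsmul_eq_mul]
  have hImeas : ∀ i, MeasurableSet (I i) := fun i => measurableSet_Ico
  have hIdisj : ∀ i j, i ≠ j → Disjoint (I i) (I j) := by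
    intro i j hij
    rw [Set.disjoint_left]
    intro x hxi hxj
    simp only [hI, Set.mem_Ico] at hxi hxj
    rw [div_le_iff₀ hNR, lt_div_iff₀ hNR] at hxi hxj
    apply hij
    have h1 : (i : ℝ) < j + 1 := by linarith
    have h2 : (j : ℝ) < i + 1 := by linarith
    have h3 : i < j + 1 := by exact_mod_cast h1
    have h4 : j < i + 1 := by exact_mod_cast h2
    omega
  -- the finite set of moduli
  obtain ⟨q₁, hq₁, hloc⟩ := local_lower γ (1 / N) (by positivity)
  obtain ⟨Q, hQ, hQM⟩ := hdiv (max X (max q₀ q₁)) 1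
  set M := ∑ q ∈ Q, kap γ q * ψ q with hM
  have hMpos : 0 < M := by linarith
  have hQX : ∀ q ∈ Q, X ≤ q := fun q hq => (le_max_left _ _).trans (hQ q hq)
  have hQ0 : ∀ q ∈ Q, q₀ ≤ q := fun q hq =>
    (le_max_left _ _).trans ((le_max_right _ _).trans (hQ q hq))
  have hQ1 : ∀ q ∈ Q, q₁ ≤ q := fun q hq =>
    (le_max_right _ _).trans ((le_max_right _ _).trans (hQ q hq))
  -- lower bound
  set D : Set ℝ := U \ K with hD
  have hDmeas : MeasurableSet D := hUo.measurableSet.diff hKc.measurableSet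
  have hEqD : ∀ q ∈ Q, EE γ ψ q ∩ V ⊆ EE γ ψ q ∩ D := by
    intro q hq x hx
    refine ⟨hx.1, hVU hx.2, ?_⟩
    intro hxK
    exact (hKG hxK).2 q (hQX q hq) hx.1
  have hlow : ∀ q ∈ Q, δ * (kap γ q * ψ q) ≤ volume.real (EE γ ψ q ∩ D) := by
    intro q hq
    have hkψ : 0 ≤ kap γ q * ψ q := mul_nonneg (kap_pos γ q).le (hψ q)
    have hEV : EE γ ψ q ∩ V = ⋃ i ∈ S, (EE γ ψ q ∩ I i) := by
      rw [hV, Set.inter_iUnion₂]
    have hq0 : 0 < q := by have := hQX q hq; omega
    calc δ * (kap γ q * ψ q) ≤ (#S * (1 / (N : ℝ))) * (kap γ q * ψ q) := by gcongr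
      _ = ∑ i ∈ S, (1 / (N : ℝ)) * (kap γ q * ψ q) := by
          rw [Finset.sum_const, nsmul_eq_mul]; ring
      _ ≤ ∑ i ∈ S, volume.real (EE γ ψ q ∩ I i) := by
          refine Finset.sum_le_sum fun i hi => ?_
          rw [hS, mem_filter, Finset.mem_range] at hi
          have hiN : ((i : ℝ) + 1) ≤ N := by exact_mod_cast hi.1
          have h := hloc ψ hψ hψ1 q (hQ1 q hq) ((i : ℝ) / N) (((i : ℝ) + 1) / N) (by positivity)
            (by rw [div_le_one hNR]; exact hiN) (le_of_eq (by ring))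
          have e : ((i : ℝ) + 1) / N - i / N = 1 / N := by ring
          rw [e] at h
          exact h
      _ = volume.real (⋃ i ∈ S, (EE γ ψ q ∩ I i)) := by
          have hdj : Set.PairwiseDisjoint (S : Set ℕ) (fun i => EE γ ψ q ∩ I i) := by
            intro i _ j _ hij
            exact (hIdisj i j hij).mono Set.inter_subset_right Set.inter_subset_right
          rw [measureReal_biUnion_finset hdj (fun i _ => (EE_meas γ ψ hq0).inter (hImeas i))
            (fun i _ => ne_top_of_le_ne_top (EE_fin γ ψ q) (measure_mono Set.inter_subset_left))]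
      _ = volume.real (EE γ ψ q ∩ V) := by rw [hEV]
      _ ≤ volume.real (EE γ ψ q ∩ D) := measureReal_mono (hEqD q hq)
          (ne_top_of_le_ne_top (EE_fin γ ψ q) (measure_mono Set.inter_subset_left))
  -- upper bound
  have hDfin : volume D ≠ ⊤ := ne_top_of_le_ne_top hUfin (measure_mono Set.sdiff_subset)
  have : IsFiniteMeasure (volume.restrict D) := ⟨by
    rw [Measure.restrict_apply_univ]; exact lt_top_iff_ne_top.mpr hDfin⟩
  set τ : ℝ := 4 * C / δ with hτ
  have hτ0 : 0 < τ := by positivity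
  have hcs := cs_abstract (volume.restrict D) Q (fun q => EE γ ψ q)
    (fun q hq => EE_meas γ ψ (by have := hQX q hq; omega)) (τ * M) (by positivity)
  have hres : ∀ s : Set ℝ, MeasurableSet s → (volume.restrict D).real s = volume.real (s ∩ D) := by
    intro s hs
    rw [measureReal_def, measureReal_def, Measure.restrict_apply hs]
  have hup : ∑ q ∈ Q, volume.real (EE γ ψ q ∩ D) ≤ (τ * M / 2) * η +
      (1 / (2 * (τ * M))) * (C * (M ^ 2 + M)) := by
    calc ∑ q ∈ Q, volume.real (EE γ ψ q ∩ D)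
        = ∑ q ∈ Q, (volume.restrict D).real (EE γ ψ q) := by
          refine Finset.sum_congr rfl fun q hq => ?_
          rw [hres _ (EE_meas γ ψ (by have := hQX q hq; omega))]
      _ ≤ _ := hcs
      _ ≤ _ := by
          have h1 : (volume.restrict D).real Set.univ ≤ η := by
            rw [hres _ MeasurableSet.univ, Set.univ_inter]
            exact hUK
          have h2 : ∑ i ∈ Q, ∑ j ∈ Q, (volume.restrict D).real (EE γ ψ i ∩ EE γ ψ j) ≤
              C * (M ^ 2 + M) := by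
            refine le_trans ?_ (hmain γ ψ hψ hψ1 Q hQ0)
            refine Finset.sum_le_sum fun i hi => Finset.sum_le_sum fun j hj => ?_
            rw [hres _ ((EE_meas γ ψ (by have := hQX i hi; omega)).inter
              (EE_meas γ ψ (by have := hQX j hj; omega)))]
            exact measureReal_mono Set.inter_subset_left
              (ne_top_of_le_ne_top (EE_fin γ ψ i) (measure_mono Set.inter_subset_left))
          gcongr
  have hfinal : δ * M ≤ (τ * M / 2) * η + (1 / (2 * (τ * M))) * (C * (M ^ 2 + M)) := by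
    refine le_trans ?_ hup
    rw [hM, Finset.mul_sum]
    exact Finset.sum_le_sum hlow
  have hM2 : M ^ 2 + M ≤ 2 * M ^ 2 := by nlinarith
  have h1 : (1 / (2 * (τ * M))) * (C * (M ^ 2 + M)) ≤ (C / τ) * M := by
    calc (1 / (2 * (τ * M))) * (C * (M ^ 2 + M)) ≤ (1 / (2 * (τ * M))) * (C * (2 * M ^ 2)) := by
          gcongr
      _ = (C / τ) * M := by field_simp
  have h2 : C / τ = δ / 4 := by rw [hτ]; field_simp
  have h3 : (τ * M / 2) * η = (δ / 8) * M := by
    rw [hτ, hη]; field_simp; ring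
  rw [h2] at h1
  rw [h3] at hfinal
  nlinarith

end Vale.Agent.P028
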