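import Vale.Agent.Lib.P028.MainProp

/-!
Local lower bounds for the measure of the approximation sets.
-/

open Finset MeasureTheory

namespace Vale.Agent.P028

lemma two_pow_card_le {q : ℕ} (hq : 0 < q) (γ : ℝ) : 2 ^ #(PP γ q) ≤ #q.divisors := by
  rw [Nat.card_divisors hq.ne']
  calc 2 ^ #(PP γ q) ≤ 2 ^ #q.primeFactors :=
        Nat.pow_le_pow_right (by norm_num) (Finset.card_le_card (PP_sub γ q))
    _ = ∏ _p ∈ q.primeFactors, 2 := by rw [Finset.prod_const]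
    _ ≤ ∏ p ∈ q.primeFactors, (q.factorization p + 1) := by
        apply Finset.prod_le_prod'
        intro p hp
        have : 0 < q.factorization p :=
          (Nat.prime_of_mem_primeFactors hp).factorization_pos_of_dvd hq.ne'
            (Nat.dvd_of_mem_primeFactors hp)
        omega

lemma local_lower (γ δ : ℝ) (hδ : 0 < δ) : ∃ q₁ : ℕ, 2 ≤ q₁ ∧ ∀ ψ : ℕ → ℝ, (∀ q, 0 ≤ ψ q) →
    (∀ q : ℕ, (q : ℝ) * ψ q ≤ 1) → ∀ q : ℕ, q₁ ≤ q → ∀ u v : ℝ, 0 ≤ u → v ≤ 1 → δ ≤ v - u →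
    (v - u) * (kap γ q * ψ q) ≤ volume.real (EE γ ψ q ∩ Set.Ico u v) := by
  obtain ⟨C, hC1, hC⟩ := card_pow_le_w 1
  obtain ⟨C', hC1', hC'⟩ := sg_pow_le_w 1
  obtain ⟨n, hn⟩ := exists_nat_ge ((16 * C * C' / δ) ^ 32)
  refine ⟨max 2 n, le_max_left _ _, fun ψ hψ hψ1 q hq u v hu hv huv => ?_⟩
  have hq2 : 2 ≤ q := (le_max_left _ _).trans hq
  have hqn : n ≤ q := (le_max_right _ _).trans hq
  have hq0 : 0 < q := by omega
  have hqR : (0 : ℝ) < q := by exact_mod_cast hq0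
  have hψq := hψ q
  have hψ2 : ψ q ≤ 1 / 2 := by
    have h1 := hψ1 q
    have h2 : (2 : ℝ) ≤ q := by exact_mod_cast hq2
    nlinarith
  set κ := kap γ q with hκ
  have hκ0 : 0 < κ := kap_pos γ q
  have hκle : κ ≤ 1 := Finset.prod_le_one
    (fun p hp => (one_sub_inv_pos (PP_sub γ q hp)).le) (fun p _ => one_sub_inv_le)
  have hw1 := one_le_w hq0
  have hwbig : 16 * C * C' / δ ≤ w q := by
    apply le_of_pow_le_pow_left₀ (n := 32) (by norm_num) (by positivity)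
    rw [w_pow]
    exact hn.trans (by exact_mod_cast hqn)
  have h2P : (2 : ℝ) ^ #(PP γ q) ≤ C * w q := by
    have h1 := hC q hq0
    rw [pow_one] at h1
    refine le_trans ?_ h1
    exact_mod_cast two_pow_card_le hq0 γ
  have hκlow : 1 ≤ κ * (2 * C' * w q) := by
    have h1 := hC' q hq0
    rw [pow_one] at h1
    have h2 := kap_lower γ hq0
    have h3 := sg_pos hq0
    have h4 : 1 ≤ 2 * κ * sg q := by
      calc (1 : ℝ) = (sg q)⁻¹ * sg q := by field_simp
        _ ≤ 2 * κ * sg q := by gcongr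
    calc (1 : ℝ) ≤ 2 * κ * sg q := h4
      _ ≤ 2 * κ * (C' * w q) := by gcongr
      _ = _ := by ring
  -- key numerical inequality
  have hkey : 8 * κ + 4 * 2 ^ #(PP γ q) ≤ (v - u) * q * κ := by
    have hδq : 16 * C * C' * w q ^ 2 ≤ δ * q := by
      rw [div_le_iff₀ hδ] at hwbig
      calc 16 * C * C' * w q ^ 2 ≤ (w q * δ) * w q ^ 2 := by gcongr
        _ = δ * w q ^ 3 := by ring
        _ ≤ δ * w q ^ 32 := by
            gcongr
            norm_num
        _ = δ * q := by rw [w_pow]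
    have h1 : 4 * 2 ^ #(PP γ q) ≤ κ * (8 * C * C' * w q ^ 2) := by
      calc 4 * (2 : ℝ) ^ #(PP γ q) ≤ 4 * (C * w q) * 1 := by linarith
        _ ≤ 4 * (C * w q) * (κ * (2 * C' * w q)) := by gcongr
        _ = _ := by ring
    have h2 : 8 * κ ≤ κ * (8 * C * C' * w q ^ 2) := by
      have h5 : 1 ≤ C * C' * w q ^ 2 := by
        have h6 : 1 ≤ w q ^ 2 := one_le_pow₀ hw1
        have h7 : 1 ≤ C * C' := one_le_mul_of_one_le_of_one_le hC1 hC1'
        exact one_le_mul_of_one_le_of_one_le h7 h6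
      have h8 : κ * 8 * 1 ≤ κ * 8 * (C * C' * w q ^ 2) := by gcongr
      linarith
    calc 8 * κ + 4 * 2 ^ #(PP γ q) ≤ κ * (16 * C * C' * w q ^ 2) := by linarith
      _ ≤ κ * (δ * q) := by gcongr
      _ ≤ κ * ((v - u) * q) := by gcongr
      _ = _ := by ring
  -- the centres
  set U : ℤ := ⌈(q : ℝ) * u - γ + 1⌉ with hU
  set V : ℤ := ⌊(q : ℝ) * v - γ - 1⌋ with hV
  have hU1 : (q : ℝ) * u - γ + 1 ≤ U := Int.le_ceil _
  have hU2 : (U : ℝ) < (q : ℝ) * u - γ + 1 + 1 := Int.ceil_lt_add_one _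
  have hV1 : (V : ℝ) ≤ (q : ℝ) * v - γ - 1 := Int.floor_le _
  have hV2 : (q : ℝ) * v - γ - 1 < V + 1 := Int.lt_floor_add_one _
  have hVU : (q : ℝ) * (v - u) - 5 ≤ (V : ℝ) - U := by linarith
  have hqvu : 12 ≤ (q : ℝ) * (v - u) := by
    have h3 : (1 : ℝ) ≤ 2 ^ #(PP γ q) := one_le_pow₀ (by norm_num)
    have h1 : 12 * κ ≤ (q : ℝ) * (v - u) * κ := by
      nlinarith
    exact le_of_mul_le_mul_right h1 hκ0
  have hUV : U ≤ V := by
    have : (U : ℝ) ≤ V := by linarith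
    exact_mod_cast this
  set S : Finset ℤ := (Ico U V).filter
    (fun a => Phi (cB γ (sc q)) (cA γ (sc q)) (PP γ q) a) with hS
  have hleg := legendre (PP γ q) (cB γ (sc q)) (cA γ (sc q)) (PP_prime γ q) (PP_coprime γ q)
    U V hUV
  have hcard : ((V : ℝ) - U) * κ - (2 ^ (#(PP γ q) + 1) - 1) ≤ #S := by
    have h1 := (abs_le.mp hleg).1
    push_cast at h1
    have h2 : ∏ p ∈ PP γ q, (1 - 1 / (p : ℝ)) = κ := rfl
    rw [h2] at h1
    linarith
  have hsub : (⋃ a ∈ S, bl γ (ψ q) q a) ⊆ EE γ ψ q ∩ Set.Ico u v := by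
    intro x hx
    simp only [Set.mem_iUnion] at hx
    obtain ⟨a, haS, hxa⟩ := hx
    rw [hS, mem_filter, mem_Ico] at haS
    obtain ⟨⟨haU, haV⟩, hPa⟩ := haS
    have hxa' := hxa
    simp only [bl, Set.mem_ofPred_eq, abs_lt] at hxa
    have haU' : (U : ℝ) ≤ a := by exact_mod_cast haU
    have haV' : (a : ℝ) < V := by exact_mod_cast haV
    have h1 : (q : ℝ) * u < q * x := by linarith
    have h2 : (q : ℝ) * x < q * v := by linarith
    have h3 : u < x := lt_of_mul_lt_mul_left h1 hqR.le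
    have h4 : x < v := lt_of_mul_lt_mul_left h2 hqR.le
    exact ⟨⟨⟨by linarith, by linarith⟩, a, hPa, hxa'⟩, ⟨h3.le, h4⟩⟩
  have hdisj : Set.PairwiseDisjoint (S : Set ℤ) (fun a => bl γ (ψ q) q a) := by
    intro a _ b _ hab
    rw [Function.onFun, Set.disjoint_left]
    intro x hxa hxb
    simp only [bl, Set.mem_ofPred_eq, abs_lt] at hxa hxb
    apply hab
    have h1 : (a : ℝ) - b < 1 := by linarith
    have h2 : (b : ℝ) - a < 1 := by linarith
    have h3 : a - b < 1 := by exact_mod_cast h1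
    have h4 : b - a < 1 := by exact_mod_cast h2
    omega
  have hvol : volume.real (⋃ a ∈ S, bl γ (ψ q) q a) = #S * (2 * ψ q / q) := by
    rw [measureReal_biUnion_finset hdisj (fun a _ => bl_meas _ _ hq0 a)
      (fun a _ => bl_fin γ (ψ q) hq0 a)]
    rw [Finset.sum_congr rfl (fun a _ => bl_vol γ hψq hq0 a), Finset.sum_const, nsmul_eq_mul]
  have hfin : volume (EE γ ψ q ∩ Set.Ico u v) ≠ ⊤ :=
    ne_top_of_le_ne_top (EE_fin γ ψ q) (measure_mono Set.inter_subset_left)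
  calc (v - u) * (κ * ψ q) = (ψ q / q) * ((v - u) * q * κ) := by field_simp
    _ ≤ (ψ q / q) * (2 * (#S : ℝ)) := by
        apply mul_le_mul_of_nonneg_left _ (by positivity)
        have h1 : ((q : ℝ) * (v - u) - 5) * κ ≤ ((V : ℝ) - U) * κ := by gcongr
        have h2 : (2 : ℝ) ^ (#(PP γ q) + 1) = 2 * 2 ^ #(PP γ q) := by rw [pow_succ]; ring
        rw [h2] at hcard
        nlinarith
    _ = #S * (2 * ψ q / q) := by ring
    _ = volume.real (⋃ a ∈ S, bl γ (ψ q) q a) := hvol.symm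
    _ ≤ _ := measureReal_mono hsub hfin

end Vale.Agent.P028
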