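import Vale.Agent.Lib.P028.MainSum

/-!
The second moment bound.
-/

open Finset MeasureTheory

namespace Vale.Agent.P028

lemma ES_sub (γ δ : ℝ) (B A : ℤ) (P : Finset ℕ) (q : ℕ) : ES γ δ B A P q ⊆ Set.Ico (0 : ℝ) 1 :=
  fun _ hx => hx.1

lemma ES_eq (γ δ : ℝ) (B A : ℤ) (P : Finset ℕ) (q : ℕ) :
    ES γ δ B A P q = Set.Ico (0 : ℝ) 1 ∩ ⋃ a : ℤ, ⋃ _ : Phi B A P a, bl γ δ q a := by
  ext x
  simp only [ES, Set.mem_inter_iff, Set.mem_iUnion, exists_prop, Set.mem_ofPred_eq]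

lemma EE_sub (γ : ℝ) (ψ : ℕ → ℝ) (q : ℕ) : EE γ ψ q ⊆ Set.Ico (0 : ℝ) 1 := ES_sub _ _ _ _ _ _

lemma EE_meas (γ : ℝ) (ψ : ℕ → ℝ) {q : ℕ} (hq : 0 < q) : MeasurableSet (EE γ ψ q) := by
  unfold EE
  rw [ES_eq]
  refine measurableSet_Ico.inter ?_
  exact MeasurableSet.iUnion fun a => MeasurableSet.iUnion fun _ => bl_meas _ _ hq a

lemma EE_fin (γ : ℝ) (ψ : ℕ → ℝ) (q : ℕ) : volume (EE γ ψ q) ≠ ⊤ := by
  apply ne_of_lt
  calc volume (EE γ ψ q) ≤ volume (Set.Ico (0 : ℝ) 1) := measure_mono (EE_sub γ ψ q)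
    _ < ⊤ := by simp

/-- upper bound for the measure -/
lemma EE_upper (γ : ℝ) (ψ : ℕ → ℝ) (hψ : ∀ q, 0 ≤ ψ q) (hψ1 : ∀ q : ℕ, (q : ℝ) * ψ q ≤ 1)
    {q : ℕ} (hq : 2 ≤ q) : volume.real (EE γ ψ q) ≤ 4 * (kap γ q * ψ q) := by
  have hq0 : 0 < q := by omega
  have hqR : (0 : ℝ) < q := by exact_mod_cast hq0
  have hψq := hψ q
  have hψ2 : ψ q ≤ 1 / 2 := by
    have h1 := hψ1 q
    have h2 : (2 : ℝ) ≤ q := by exact_mod_cast hq
    nlinarith
  set a₀ : ℤ := ⌊-γ⌋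
  set S : Finset ℤ := (Ico a₀ (a₀ + (2 * q : ℕ))).filter
    (fun a => Phi (cB γ (sc q)) (cA γ (sc q)) (PP γ q) a) with hS
  have hcover : EE γ ψ q ⊆ ⋃ a ∈ S, bl γ (ψ q) q a := by
    rintro x ⟨⟨hx0, hx1⟩, a, hPa, ha⟩
    have ha' := ha
    simp only [bl, Set.mem_ofPred_eq] at ha
    simp only [Set.mem_iUnion]
    refine ⟨a, ?_, ha'⟩
    rw [hS, mem_filter, mem_Ico]
    refine ⟨?_, hPa⟩
    rw [abs_lt] at ha
    have hf1 := Int.floor_le (-γ)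
    have hf2 := Int.lt_floor_add_one (-γ)
    have hx0' : 0 ≤ (q : ℝ) * x := by positivity
    have hx1' : (q : ℝ) * x < q := by nlinarith
    have hdq2 : (2 : ℝ) ≤ q := by exact_mod_cast hq
    constructor
    · have : ((a₀ - 1 : ℤ) : ℝ) < a := by
        push_cast
        simp only [a₀]
        linarith
      have : a₀ - 1 < a := by exact_mod_cast this
      omega
    · have : (a : ℝ) < ((a₀ + (2 * q : ℕ) : ℤ) : ℝ) := by
        push_cast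
        simp only [a₀]
        linarith
      exact_mod_cast this
  have hfin : volume (⋃ a ∈ S, bl γ (ψ q) q a) ≠ ⊤ := by
    apply ne_of_lt
    refine (measure_biUnion_finset_le _ _).trans_lt ?_
    apply ENNReal.sum_lt_top.mpr
    intro p _
    exact lt_top_iff_ne_top.mpr (bl_fin γ (ψ q) hq0 _)
  have hprod : (∏ p ∈ PP γ q, p) ∣ 2 * q := by
    apply Dvd.dvd.mul_left
    refine (Finset.prod_dvd_prod_of_subset _ _ _ (PP_sub γ q)).trans ?_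
    exact Nat.prod_primeFactors_dvd q
  have hcount := full_period (PP γ q) (cB γ (sc q)) (cA γ (sc q)) (PP_prime γ q) (PP_coprime γ q)
    a₀ (2 * q) hprod
  calc volume.real (EE γ ψ q) ≤ volume.real (⋃ a ∈ S, bl γ (ψ q) q a) := measureReal_mono hcover hfin
    _ ≤ ∑ a ∈ S, volume.real (bl γ (ψ q) q a) := measureReal_biUnion_finset_le _ _
    _ = ∑ a ∈ S, 2 * ψ q / q := Finset.sum_congr rfl fun a _ => bl_vol γ hψq hq0 a
    _ = #S * (2 * ψ q / q) := by rw [Finset.sum_const, nsmul_eq_mul]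
    _ = ((2 * q : ℕ) * kap γ q) * (2 * ψ q / q) := by rw [hS, hcount]; rfl
    _ = _ := by push_cast; field_simp; ring

lemma VV_diag (γ : ℝ) (ψ : ℕ → ℝ) (hψ : ∀ q, 0 ≤ ψ q) (hψ1 : ∀ q : ℕ, (q : ℝ) * ψ q ≤ 1)
    {q : ℕ} (hq : 2 ≤ q) : VV γ ψ q q ≤ 4 * (kap γ q * ψ q) := by
  unfold VV
  rw [Set.inter_self]
  exact EE_upper γ ψ hψ hψ1 hq

/-- the second moment bound -/
theorem main_prop : ∃ C : ℝ, 0 < C ∧ ∃ q₀ : ℕ, 4 ≤ q₀ ∧ ∀ (γ : ℝ) (ψ : ℕ → ℝ), (∀ q, 0 ≤ ψ q) →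
    (∀ q : ℕ, (q : ℝ) * ψ q ≤ 1) → ∀ Q : Finset ℕ, (∀ q ∈ Q, q₀ ≤ q) →
    ∑ q ∈ Q, ∑ r ∈ Q, VV γ ψ q r ≤
      C * ((∑ q ∈ Q, kap γ q * ψ q) ^ 2 + ∑ q ∈ Q, kap γ q * ψ q) := by
  obtain ⟨CU, hCU, hU⟩ := sum_UU
  obtain ⟨q₀, hq₀4, hcl⟩ := classify
  refine ⟨32 * Real.exp 4 + 4 * CU + 4, by positivity, q₀, hq₀4, fun γ ψ hψ hψ1 Q hQ => ?_⟩
  set M := ∑ q ∈ Q, kap γ q * ψ q with hM
  have hkψ : ∀ q, 0 ≤ kap γ q * ψ q := fun q => mul_nonneg (kap_pos γ q).le (hψ q)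
  have hM0 : 0 ≤ M := Finset.sum_nonneg fun q _ => hkψ q
  have hpt : ∀ q ∈ Q, ∀ r ∈ Q, VV γ ψ q r ≤
      32 * Real.exp 4 * ((kap γ q * ψ q) * (kap γ r * ψ r)) + UU γ ψ q r + UU γ ψ r q +
        (if q = r then 4 * (kap γ q * ψ q) else 0) := by
    intro q hq r hr
    have h1 := UU_nonneg γ ψ hψ q r
    have h2 := UU_nonneg γ ψ hψ r q
    have h3 := hkψ q
    have h4 := hkψ r
    have h5 : 0 ≤ 32 * Real.exp 4 * ((kap γ q * ψ q) * (kap γ r * ψ r)) := by positivity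
    rcases lt_trichotomy q r with h | h | h
    · have := hcl γ ψ hψ hψ1 q r (hQ q hq) h
      rw [if_neg h.ne]
      linarith
    · subst h
      rw [if_pos rfl]
      have := VV_diag γ ψ hψ hψ1 (q := q) (by have := hQ q hq; omega)
      linarith
    · have := hcl γ ψ hψ hψ1 r q (hQ r hr) h
      rw [if_neg h.ne', VV_comm]
      linarith
  have hsumU : ∑ q ∈ Q, ∑ r ∈ Q, UU γ ψ q r ≤ 2 * CU * M := by
    calc ∑ q ∈ Q, ∑ r ∈ Q, UU γ ψ q r ≤ ∑ q ∈ Q, CU * (ψ q * (sg q)⁻¹) := by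
          refine Finset.sum_le_sum fun q hq => ?_
          exact hU γ ψ hψ hψ1 q (by have := hQ q hq; omega) Q
            (fun y hy => by have := hQ y hy; omega)
      _ ≤ ∑ q ∈ Q, CU * (ψ q * (2 * kap γ q)) := by
          refine Finset.sum_le_sum fun q hq => ?_
          have := kap_lower γ (q := q) (by have := hQ q hq; omega)
          have := hψ q
          gcongr
      _ = 2 * CU * M := by
          rw [hM, Finset.mul_sum]
          refine Finset.sum_congr rfl fun q _ => ?_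
          ring
  calc ∑ q ∈ Q, ∑ r ∈ Q, VV γ ψ q r ≤ ∑ q ∈ Q, ∑ r ∈ Q,
        (32 * Real.exp 4 * ((kap γ q * ψ q) * (kap γ r * ψ r)) + UU γ ψ q r + UU γ ψ r q +
        (if q = r then 4 * (kap γ q * ψ q) else 0)) :=
        Finset.sum_le_sum fun q hq => Finset.sum_le_sum fun r hr => hpt q hq r hr
    _ = 32 * Real.exp 4 * (M * M) + ∑ q ∈ Q, ∑ r ∈ Q, UU γ ψ q r +
        ∑ q ∈ Q, ∑ r ∈ Q, UU γ ψ r q + 4 * M := by
        simp only [Finset.sum_add_distrib]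
        congr 1
        · congr 2
          rw [hM, Finset.sum_mul_sum, Finset.mul_sum]
          refine Finset.sum_congr rfl fun q _ => ?_
          rw [Finset.mul_sum]
        · rw [hM, Finset.mul_sum]
          refine Finset.sum_congr rfl fun q hq => ?_
          rw [Finset.sum_ite_eq, if_pos hq]
    _ = 32 * Real.exp 4 * (M * M) + 2 * ∑ q ∈ Q, ∑ r ∈ Q, UU γ ψ q r + 4 * M := by
        rw [Finset.sum_comm (f := fun q r => UU γ ψ r q)]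
        ring
    _ ≤ 32 * Real.exp 4 * (M * M) + 2 * (2 * CU * M) + 4 * M := by gcongr
    _ ≤ (32 * Real.exp 4 + 4 * CU + 4) * (M ^ 2 + M) := by
        have h1 : 0 ≤ 32 * Real.exp 4 * M := by positivity
        have h2 : 0 ≤ CU * M ^ 2 := by positivity
        have h3 : 0 ≤ M ^ 2 := by positivity
        nlinarith

end Vale.Agent.P028
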