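import Vale.Agent.Lib.P028.Overlap

/-!
The quasi-independence estimate on average.
-/

open Finset MeasureTheory

namespace Vale.Agent.P028

/-- type two pairs -/
def T2 (ψ : ℕ → ℝ) (x y : ℕ) : Prop :=
  sg x ≤ sg y ∧ 1 / 2 ≤ LL ψ x y ∧ LL ψ x y < 4 ^ ⌈sg y ^ 2⌉₊

/-- type three pairs -/
def T3 (x y : ℕ) : Prop := yq x y ≤ xq x y * ((w (Nat.gcd x y))⁻¹ * (sg x ^ 2)⁻¹)

/-- far pairs -/
def TF (x y : ℕ) : Prop := xq x y * (w (Nat.gcd x y) ^ 2 * sg x ^ 4) ≤ yq x y ∧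
      yq x y ≤ xq x y * (w (Nat.gcd x y) * sg y ^ 2)

/-- near pairs with ordinary gcd -/
def TG (x y : ℕ) : Prop := yq x y ≤ xq x y * (w (Nat.gcd x y) ^ 2 * sg x ^ 4) ∧
      sg (Nat.gcd x y) ^ 2 ≤ sg x ∧ (Nat.gcd x y : ℝ) ≤ sg x ^ 80 ∧ sg x ≤ sg y

/-- near pairs with exceptional gcd -/
def TB (γ : ℝ) (x : ℕ) (A : ℤ) (B : ℕ) (y : ℕ) : Prop :=
  ((B : ℝ) ≤ w x ^ 20 ∧ |B * γ - A| ≤ (w x ^ 8)⁻¹) ∧
  (sg x ≤ sg (Nat.gcd x y) ^ 2 ∨ sg x ^ 80 ≤ (Nat.gcd x y : ℝ)) ∧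
      ∃ h : ℕ, 1 ≤ h ∧ (h : ℝ) ≤ xq x y * (w (Nat.gcd x y) ^ 2 * sg x ^ 4) ∧
        (x / Nat.gcd x y = y / Nat.gcd x y + h ∨ y / Nat.gcd x y = x / Nat.gcd x y + h) ∧
        NCc γ (2 * w (Nat.gcd x y) ^ 2 * sg x ^ 4 * (Nat.gcd x y : ℝ)⁻¹) A B h

open Classical in
/-- the error term attached to an ordered pair -/
noncomputable def UU (γ : ℝ) (ψ : ℕ → ℝ) (x y : ℕ) : ℝ :=
  32 * ψ x * (if T2 ψ x y then ψ y else 0) + 4 * ψ x * (if T3 x y then (xq x y)⁻¹ else 0) +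
  4 * ψ x * (if TF x y then (xq x y)⁻¹ else 0) + 4 * ψ x * (if TG x y then (xq x y)⁻¹ else 0) +
  4 * ψ x * (if TB γ x (cA γ (sc x)) (cB γ (sc x)) y then (xq x y)⁻¹ else 0) +
  4 * ψ x * (if TB γ x (cA γ (sc x + 1)) (cB γ (sc x + 1)) y then (xq x y)⁻¹ else 0)

lemma xq_nonneg (x y : ℕ) : 0 ≤ xq x y := Nat.cast_nonneg _

lemma UU_nonneg (γ : ℝ) (ψ : ℕ → ℝ) (hψ : ∀ q, 0 ≤ ψ q) (x y : ℕ) : 0 ≤ UU γ ψ x y := by
  classical
  unfold UU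
  have h1 := hψ x
  have h2 := hψ y
  have h3 := xq_nonneg x y
  have e1 : (0 : ℝ) ≤ (if T2 ψ x y then ψ y else 0) := by split_ifs <;> positivity
  have e2 : (0 : ℝ) ≤ (if T3 x y then (xq x y)⁻¹ else 0) := by split_ifs <;> positivity
  have e3 : (0 : ℝ) ≤ (if TF x y then (xq x y)⁻¹ else 0) := by split_ifs <;> positivity
  have e4 : (0 : ℝ) ≤ (if TG x y then (xq x y)⁻¹ else 0) := by split_ifs <;> positivity
  have e5 : (0 : ℝ) ≤ (if TB γ x (cA γ (sc x)) (cB γ (sc x)) y then (xq x y)⁻¹ else 0) := by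
    split_ifs <;> positivity
  have e6 : (0 : ℝ) ≤ (if TB γ x (cA γ (sc x + 1)) (cB γ (sc x + 1)) y then (xq x y)⁻¹ else 0) := by
    split_ifs <;> positivity
  positivity

/-- lower bounds for `UU` in each of the cases -/
lemma UU_ge (γ : ℝ) (ψ : ℕ → ℝ) (hψ : ∀ q, 0 ≤ ψ q) (x y : ℕ) :
    (T2 ψ x y → 32 * (ψ x * ψ y) ≤ UU γ ψ x y) ∧
    (T3 x y ∨ TF x y ∨ TG x y ∨ TB γ x (cA γ (sc x)) (cB γ (sc x)) y ∨
      TB γ x (cA γ (sc x + 1)) (cB γ (sc x + 1)) y → 4 * (ψ x * (xq x y)⁻¹) ≤ UU γ ψ x y) := by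
  classical
  unfold UU
  have h1 := hψ x
  have h2 := hψ y
  have h3 := xq_nonneg x y
  have e1 : (0 : ℝ) ≤ (if T2 ψ x y then ψ y else 0) := by split_ifs <;> positivity
  have e2 : (0 : ℝ) ≤ (if T3 x y then (xq x y)⁻¹ else 0) := by split_ifs <;> positivity
  have e3 : (0 : ℝ) ≤ (if TF x y then (xq x y)⁻¹ else 0) := by split_ifs <;> positivity
  have e4 : (0 : ℝ) ≤ (if TG x y then (xq x y)⁻¹ else 0) := by split_ifs <;> positivity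
  have e5 : (0 : ℝ) ≤ (if TB γ x (cA γ (sc x)) (cB γ (sc x)) y then (xq x y)⁻¹ else 0) := by
    split_ifs <;> positivity
  have e6 : (0 : ℝ) ≤ (if TB γ x (cA γ (sc x + 1)) (cB γ (sc x + 1)) y then (xq x y)⁻¹ else 0) := by
    split_ifs <;> positivity
  have f1 := mul_nonneg (mul_nonneg (by norm_num : (0 : ℝ) ≤ 32) h1) e1
  have f2 := mul_nonneg (mul_nonneg (by norm_num : (0 : ℝ) ≤ 4) h1) e2
  have f3 := mul_nonneg (mul_nonneg (by norm_num : (0 : ℝ) ≤ 4) h1) e3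
  have f4 := mul_nonneg (mul_nonneg (by norm_num : (0 : ℝ) ≤ 4) h1) e4
  have f5 := mul_nonneg (mul_nonneg (by norm_num : (0 : ℝ) ≤ 4) h1) e5
  have f6 := mul_nonneg (mul_nonneg (by norm_num : (0 : ℝ) ≤ 4) h1) e6
  constructor
  · intro hT
    have : 32 * ψ x * (if T2 ψ x y then ψ y else 0) = 32 * (ψ x * ψ y) := by
      rw [if_pos hT]; ring
    linarith
  · rintro (hT | hT | hT | hT | hT)
    · have : 4 * ψ x * (if T3 x y then (xq x y)⁻¹ else 0) = 4 * (ψ x * (xq x y)⁻¹) := by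
        rw [if_pos hT]; ring
      linarith
    · have : 4 * ψ x * (if TF x y then (xq x y)⁻¹ else 0) = 4 * (ψ x * (xq x y)⁻¹) := by
        rw [if_pos hT]; ring
      linarith
    · have : 4 * ψ x * (if TG x y then (xq x y)⁻¹ else 0) = 4 * (ψ x * (xq x y)⁻¹) := by
        rw [if_pos hT]; ring
      linarith
    · have : 4 * ψ x * (if TB γ x (cA γ (sc x)) (cB γ (sc x)) y then (xq x y)⁻¹ else 0) =
          4 * (ψ x * (xq x y)⁻¹) := by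
        rw [if_pos hT]; ring
      linarith
    · have : 4 * ψ x * (if TB γ x (cA γ (sc x + 1)) (cB γ (sc x + 1)) y then (xq x y)⁻¹ else 0) =
          4 * (ψ x * (xq x y)⁻¹) := by
        rw [if_pos hT]; ring
      linarith

lemma sum_UU : ∃ C : ℝ, 0 < C ∧ ∀ (γ : ℝ) (ψ : ℕ → ℝ), (∀ q, 0 ≤ ψ q) →
    (∀ q : ℕ, (q : ℝ) * ψ q ≤ 1) → ∀ x : ℕ, 0 < x → ∀ Q : Finset ℕ, (∀ y ∈ Q, 0 < y) →
    ∑ y ∈ Q, UU γ ψ x y ≤ C * (ψ x * (sg x)⁻¹) := by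
  classical
  obtain ⟨C2, hC2, h2⟩ := sum_two
  obtain ⟨C3, hC3, h3⟩ := sum_three
  obtain ⟨CF, hCF, hF⟩ := sum_far
  obtain ⟨CG, hCG, hG⟩ := sum_good
  obtain ⟨CB, hCB, hB⟩ := sum_bad
  refine ⟨32 * C2 + 4 * C3 + 4 * CF + 4 * CG + 4 * CB + 4 * CB, by positivity,
    fun γ ψ hψ hψ1 x hx Q hQ => ?_⟩
  have hψx := hψ x
  have hsx := one_le_sg hx
  have hQf : ∀ (p : ℕ → Prop), ∀ y ∈ Q.filter p, 0 < y := fun p y hy =>
    hQ y (Finset.mem_filter.mp hy).1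
  have s2 : ∑ y ∈ Q, (if T2 ψ x y then ψ y else 0) ≤ C2 * (sg x)⁻¹ := by
    rw [← Finset.sum_filter]
    exact h2 ψ hψ hψ1 x hx _ (hQf _) (fun y hy => (Finset.mem_filter.mp hy).2)
  have s3 : ∑ y ∈ Q, (if T3 x y then (xq x y)⁻¹ else 0) ≤ C3 * (sg x)⁻¹ := by
    rw [← Finset.sum_filter]
    exact h3 x hx _ (hQf _) (fun y hy => (Finset.mem_filter.mp hy).2)
  have sF : ∑ y ∈ Q, (if TF x y then (xq x y)⁻¹ else 0) ≤ CF * (sg x)⁻¹ := by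
    rw [← Finset.sum_filter]
    exact hF x hx _ (hQf _) (fun y hy => (Finset.mem_filter.mp hy).2)
  have sG : ∑ y ∈ Q, (if TG x y then (xq x y)⁻¹ else 0) ≤ CG * (sg x)⁻¹ := by
    rw [← Finset.sum_filter]
    exact hG x hx _ (hQf _) (fun y hy => (Finset.mem_filter.mp hy).2)
  have sB : ∀ j : ℕ, ∑ y ∈ Q, (if TB γ x (cA γ j) (cB γ j) y then (xq x y)⁻¹ else 0) ≤
      CB * (sg x)⁻¹ := by
    intro j
    rw [← Finset.sum_filter]
    rcases (Q.filter (fun y => TB γ x (cA γ j) (cB γ j) y)).eq_empty_or_nonempty with he | ⟨y, hy⟩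
    · rw [he, Finset.sum_empty]; positivity
    · have hy' := (Finset.mem_filter.mp hy).2.1
      exact hB γ x hx (cA γ j) (cB γ j) (cB_pos γ j) (cAB γ j) hy'.1 hy'.2 _ (hQf _)
        (fun y hy => (Finset.mem_filter.mp hy).2.2)
  have sB0 := sB (sc x)
  have sB1 := sB (sc x + 1)
  unfold UU
  rw [Finset.sum_add_distrib, Finset.sum_add_distrib, Finset.sum_add_distrib,
    Finset.sum_add_distrib, Finset.sum_add_distrib, ← Finset.mul_sum, ← Finset.mul_sum,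
    ← Finset.mul_sum, ← Finset.mul_sum, ← Finset.mul_sum, ← Finset.mul_sum]
  calc _ ≤ 32 * ψ x * (C2 * (sg x)⁻¹) + 4 * ψ x * (C3 * (sg x)⁻¹) + 4 * ψ x * (CF * (sg x)⁻¹) +
        4 * ψ x * (CG * (sg x)⁻¹) + 4 * ψ x * (CB * (sg x)⁻¹) + 4 * ψ x * (CB * (sg x)⁻¹) := by
        gcongr
    _ = _ := by ring

/-- the threshold beyond which near pairs have comparable scales -/
lemma exists_threshold : ∃ q₀ : ℕ, 4 ≤ q₀ ∧ ∀ x : ℕ, q₀ ≤ x → sg x ^ 4 ≤ w x ^ 6 := by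
  obtain ⟨C, hC1, hC⟩ := sg_pow_le_w 4
  obtain ⟨n, hn⟩ := exists_nat_ge (C ^ 32)
  refine ⟨max 4 n, le_max_left _ _, fun x hx => ?_⟩
  have hx4 : 4 ≤ x := (le_max_left _ _).trans hx
  have hxn : n ≤ x := (le_max_right _ _).trans hx
  have hw1 := one_le_w (by omega : 1 ≤ x)
  have hCw : C ≤ w x := by
    apply le_of_pow_le_pow_left₀ (n := 32) (by norm_num) (by positivity)
    rw [w_pow]
    calc C ^ 32 ≤ n := hn
      _ ≤ (x : ℝ) := by exact_mod_cast hxn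
  calc sg x ^ 4 ≤ C * w x := hC x (by omega)
    _ ≤ w x * w x := by gcongr
    _ = w x ^ 2 := by ring
    _ ≤ w x ^ 6 := by
        apply pow_le_pow_right₀ hw1
        norm_num

lemma NCc_mono {γ Z Z' : ℝ} {A : ℤ} {B h : ℕ} (hZ : Z ≤ Z') (hN : NCc γ Z A B h) :
    NCc γ Z' A B h := by
  obtain ⟨m, h1, h2⟩ := hN
  exact ⟨m, lt_of_lt_of_le h1 hZ, h2⟩

lemma near_one (γ : ℝ) (ψ : ℕ → ℝ) {q r d : ℕ} (hq4 : 4 ≤ q) (hqr : q < r)
    (hthr : sg q ^ 4 ≤ w q ^ 6) (hd : d = Nat.gcd q r) (hd0 : 0 < d)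
    (hqR : (d : ℝ) * ((q / d : ℕ) : ℝ) = q) (hrR : (d : ℝ) * ((r / d : ℕ) : ℝ) = r)
    (hlt : q / d < r / d) (hq'R : (0 : ℝ) < ((q / d : ℕ) : ℝ))
    (hr'R : (0 : ℝ) < ((r / d : ℕ) : ℝ))
    (hLbound : LL ψ q r ≤ (d : ℝ)⁻¹ * (((q / d : ℕ) : ℝ) / ((r / d : ℕ) : ℝ) +
      ((r / d : ℕ) : ℝ) / ((q / d : ℕ) : ℝ)))
    (hNC : NCc γ (LL ψ q r) (cA γ (sc r)) (cB γ (sc r)) (r / d - q / d))
    (hfar : ((r / d : ℕ) : ℝ) ≤ ((q / d : ℕ) : ℝ) * (w d ^ 2 * sg q ^ 4))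
    (hbad : sg q ≤ sg d ^ 2 ∨ sg q ^ 80 ≤ (d : ℝ)) :
    TB γ q (cA γ (sc q)) (cB γ (sc q)) r ∨ TB γ q (cA γ (sc q + 1)) (cB γ (sc q + 1)) r := by
  have hq0 : 0 < q := by omega
  have hsq := one_le_sg hq0
  have hltR : ((q / d : ℕ) : ℝ) < ((r / d : ℕ) : ℝ) := by exact_mod_cast hlt
  have hdR : (0 : ℝ) < d := by exact_mod_cast hd0
  have hwd := one_le_w hd0
  have hsub : ((r / d - q / d : ℕ) : ℝ) = ((r / d : ℕ) : ℝ) - ((q / d : ℕ) : ℝ) :=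
    Nat.cast_sub hlt.le
  have hxqr : xq q r = ((q / d : ℕ) : ℝ) := by rw [hd]; rfl
  set q' : ℝ := ((q / d : ℕ) : ℝ)
  set r' : ℝ := ((r / d : ℕ) : ℝ)
  have hdiv1 : q' / r' ≤ 1 := by rw [div_le_one hr'R]; exact hltR.le
  have hdq : d ≤ q := Nat.le_of_dvd hq0 (by rw [hd]; exact Nat.gcd_dvd_left q r)
  have hwdq : w d ≤ w q := w_mono hdq
  have hwq := one_le_w hq0
  have hrle : (r : ℝ) ≤ w q ^ 40 := by
    calc (r : ℝ) = d * r' := hrR.symm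
      _ ≤ d * (q' * (w d ^ 2 * sg q ^ 4)) := by gcongr
      _ = (d * q') * (w d ^ 2 * sg q ^ 4) := by ring
      _ = (q : ℝ) * (w d ^ 2 * sg q ^ 4) := by rw [hqR]
      _ ≤ (q : ℝ) * (w q ^ 2 * w q ^ 6) := by gcongr
      _ = w q ^ 32 * (w q ^ 2 * w q ^ 6) := by rw [w_pow]
      _ = w q ^ 40 := by ring
  have hrlt : r < q ^ 2 := by
    have hwq1 : 1 < w q := by
      by_contra hcon
      rw [not_lt] at hcon
      have h1 : w q ^ 32 ≤ 1 := pow_le_one₀ (w_nonneg q) hcon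
      rw [w_pow] at h1
      have h2 : (4 : ℝ) ≤ q := by exact_mod_cast hq4
      linarith
    have : (r : ℝ) < (q : ℝ) ^ 2 := by
      calc (r : ℝ) ≤ w q ^ 40 := hrle
        _ < w q ^ 64 := pow_lt_pow_right₀ hwq1 (by norm_num)
        _ = (w q ^ 32) ^ 2 := by rw [← pow_mul]
        _ = (q : ℝ) ^ 2 := by rw [w_pow q]
    exact_mod_cast this
  have hsc : sc r = sc q ∨ sc r = sc q + 1 := by
    have h1 := sc_mono hqr.le
    have h2 := sc_le_succ hrlt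
    omega
  have hTB : TB γ q (cA γ (sc r)) (cB γ (sc r)) r := by
    unfold TB
    rw [hxqr, ← hd]
    refine ⟨⟨den_le γ (by omega) hrle, theta_le γ hq0 hqr.le⟩, hbad, r / d - q / d, by omega, ?_,
      Or.inr (by omega), ?_⟩
    · rw [hsub]
      linarith
    · apply NCc_mono _ hNC
      refine hLbound.trans ?_
      have hdiv3 : r' / q' ≤ w d ^ 2 * sg q ^ 4 := by
        rw [div_le_iff₀ hq'R]; linarith
      have h1 : 1 ≤ w d ^ 2 * sg q ^ 4 := by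
        have := one_le_pow₀ hwd (n := 2)
        have := one_le_pow₀ hsq (n := 4)
        nlinarith
      have h2 : q' / r' + r' / q' ≤ w d ^ 2 * sg q ^ 4 + w d ^ 2 * sg q ^ 4 := by linarith
      calc (d : ℝ)⁻¹ * (q' / r' + r' / q') ≤ (d : ℝ)⁻¹ * (w d ^ 2 * sg q ^ 4 + w d ^ 2 * sg q ^ 4) := by
            gcongr
        _ = _ := by ring
  rcases hsc with hsc | hsc
  · rw [hsc] at hTB
    exact Or.inl hTB
  · rw [hsc] at hTB
    exact Or.inr hTB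

lemma near_two (γ : ℝ) (ψ : ℕ → ℝ) {q r d : ℕ} (hq4 : 4 ≤ q) (hqr : q < r)
    (hd : d = Nat.gcd r q) (hd0 : 0 < d)
    (hlt : q / d < r / d) (hq'R : (0 : ℝ) < ((q / d : ℕ) : ℝ))
    (hr'R : (0 : ℝ) < ((r / d : ℕ) : ℝ))
    (hLbound : LL ψ q r ≤ (d : ℝ)⁻¹ * (((q / d : ℕ) : ℝ) / ((r / d : ℕ) : ℝ) +
      ((r / d : ℕ) : ℝ) / ((q / d : ℕ) : ℝ)))
    (hNC : NCc γ (LL ψ q r) (cA γ (sc r)) (cB γ (sc r)) (r / d - q / d))
    (hreg : ((r / d : ℕ) : ℝ) < ((q / d : ℕ) : ℝ) * (w d * sg r ^ 2))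
    (hbad : sg r ≤ sg d ^ 2 ∨ sg r ^ 80 ≤ (d : ℝ)) :
    TB γ r (cA γ (sc r)) (cB γ (sc r)) q := by
  have hr0 : 0 < r := by omega
  have hsr := one_le_sg hr0
  have hltR : ((q / d : ℕ) : ℝ) < ((r / d : ℕ) : ℝ) := by exact_mod_cast hlt
  have hdR : (0 : ℝ) < d := by exact_mod_cast hd0
  have hwd := one_le_w hd0
  have hsub : ((r / d - q / d : ℕ) : ℝ) = ((r / d : ℕ) : ℝ) - ((q / d : ℕ) : ℝ) :=
    Nat.cast_sub hlt.le
  have hxrq : xq r q = ((r / d : ℕ) : ℝ) := by rw [hd]; rfl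
  set q' : ℝ := ((q / d : ℕ) : ℝ)
  set r' : ℝ := ((r / d : ℕ) : ℝ)
  have hdiv1 : q' / r' ≤ 1 := by rw [div_le_one hr'R]; exact hltR.le
  have hdiv2 : r' / q' ≤ w d * sg r ^ 2 := by
    rw [div_le_iff₀ hq'R]; linarith
  have hwr := one_le_w hr0
  have hrle : (r : ℝ) ≤ w r ^ 40 := by
    calc (r : ℝ) = w r ^ 32 := (w_pow r).symm
      _ ≤ w r ^ 40 := pow_le_pow_right₀ hwr (by norm_num)
  have hone : 1 ≤ w d ^ 2 * sg r ^ 4 := by
    have := one_le_pow₀ hwd (n := 2)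
    have := one_le_pow₀ hsr (n := 4)
    nlinarith
  unfold TB
  rw [hxrq, ← hd]
  refine ⟨⟨den_le γ (by omega) hrle, theta_le γ hr0 le_rfl⟩, hbad, r / d - q / d, by omega, ?_,
    Or.inl (by omega), ?_⟩
  · rw [hsub]
    calc r' - q' ≤ r' * 1 := by linarith
      _ ≤ r' * (w d ^ 2 * sg r ^ 4) := by gcongr
  · apply NCc_mono _ hNC
    refine hLbound.trans ?_
    have h1 : w d * sg r ^ 2 ≤ w d ^ 2 * sg r ^ 4 := by
      have e1 : w d ≤ w d ^ 2 := by nlinarith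
      have e2 : sg r ^ 2 ≤ sg r ^ 4 := pow_le_pow_right₀ hsr (by norm_num)
      gcongr
    have h2 : q' / r' + r' / q' ≤ w d ^ 2 * sg r ^ 4 + w d ^ 2 * sg r ^ 4 := by linarith
    calc (d : ℝ)⁻¹ * (q' / r' + r' / q') ≤ (d : ℝ)⁻¹ * (w d ^ 2 * sg r ^ 4 + w d ^ 2 * sg r ^ 4) := by
          gcongr
      _ = _ := by ring

/-- the classification of pairs -/
lemma classify : ∃ q₀ : ℕ, 4 ≤ q₀ ∧ ∀ (γ : ℝ) (ψ : ℕ → ℝ), (∀ q, 0 ≤ ψ q) →
    (∀ q : ℕ, (q : ℝ) * ψ q ≤ 1) → ∀ q r : ℕ, q₀ ≤ q → q < r →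
    VV γ ψ q r ≤ 32 * Real.exp 4 * ((kap γ q * ψ q) * (kap γ r * ψ r)) +
      UU γ ψ q r + UU γ ψ r q := by
  obtain ⟨q₀, hq₀4, hq₀⟩ := exists_threshold
  refine ⟨q₀, hq₀4, fun γ ψ hψ hψ1 q r hq hqr => ?_⟩
  have hq0 : 0 < q := by omega
  have hr0 : 0 < r := by omega
  have hUqr := UU_nonneg γ ψ hψ q r
  have hUrq := UU_nonneg γ ψ hψ r q
  have hkq := kap_pos γ q
  have hkr := kap_pos γ r
  have hψq := hψ q
  have hψr := hψ r
  have hK : 0 ≤ 32 * Real.exp 4 * ((kap γ q * ψ q) * (kap γ r * ψ r)) := by positivity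
  obtain ⟨gqr2, gqr⟩ := UU_ge γ ψ hψ q r
  obtain ⟨grq2, grq⟩ := UU_ge γ ψ hψ r q
  have hsq := one_le_sg hq0
  have hsr := one_le_sg hr0
  -- large length
  by_cases hbig : (4 : ℝ) ^ ⌈(max (sg q) (sg r)) ^ 2⌉₊ ≤ LL ψ q r
  · have hmax0 : 0 ≤ max (sg q) (sg r) := by
      apply le_max_of_le_left; linarith
    have h1 : sg q ^ 2 ≤ (⌈(max (sg q) (sg r)) ^ 2⌉₊ : ℝ) :=
      (pow_le_pow_left₀ (by linarith) (le_max_left _ _) 2).trans (Nat.le_ceil _)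
    have h2 : sg r ^ 2 ≤ (⌈(max (sg q) (sg r)) ^ 2⌉₊ : ℝ) :=
      (pow_le_pow_left₀ (by linarith) (le_max_right _ _) 2).trans (Nat.le_ceil _)
    have := VV_sieve γ ψ hψ hψ1 (by omega : 2 ≤ q) hr0 _ h1 h2 hbig
    linarith
  rw [not_le] at hbig
  -- middle length
  by_cases hmid : 1 / 2 ≤ LL ψ q r
  · have hV := VV_big γ ψ hψ hψ1 (by omega : 2 ≤ q) hr0 hmid
    rcases le_total (sg q) (sg r) with hs | hs
    · rw [max_eq_right hs] at hbig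
      have := gqr2 ⟨hs, hmid, hbig⟩
      linarith
    · rw [max_eq_left hs] at hbig
      rw [LL_comm] at hbig hmid
      have := grq2 ⟨hs, hmid, hbig⟩
      linarith
  rw [not_le] at hmid
  obtain ⟨hNC, hVq, hVr⟩ := VV_small γ ψ hψ hψ1 (by omega : 2 ≤ q) hqr hmid.le
  rcases hNC with hNC | hNC
  · linarith
  -- small length
  have hd' : Nat.gcd r q = Nat.gcd q r := Nat.gcd_comm r q
  have hd0 : 0 < Nat.gcd q r := Nat.gcd_pos_of_pos_left _ (by omega)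
  have hqd : Nat.gcd q r * (q / Nat.gcd q r) = q := Nat.mul_div_cancel' (Nat.gcd_dvd_left q r)
  have hrd : Nat.gcd q r * (r / Nat.gcd q r) = r := Nat.mul_div_cancel' (Nat.gcd_dvd_right q r)
  have hq'0 : 0 < q / Nat.gcd q r :=
    Nat.div_pos (Nat.le_of_dvd hq0 (Nat.gcd_dvd_left q r)) hd0
  have hr'0 : 0 < r / Nat.gcd q r :=
    Nat.div_pos (Nat.le_of_dvd hr0 (Nat.gcd_dvd_right q r)) hd0
  generalize hd : Nat.gcd q r = d at *
  have hlt : q / d < r / d := by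
    by_contra hcon
    rw [not_lt] at hcon
    have : d * (r / d) ≤ d * (q / d) := Nat.mul_le_mul_left d hcon
    rw [hqd, hrd] at this
    omega
  have hdR : (0 : ℝ) < d := by exact_mod_cast hd0
  have hxqr : xq q r = ((q / d : ℕ) : ℝ) := by unfold xq; rw [hd]
  have hyqr : yq q r = ((r / d : ℕ) : ℝ) := by unfold yq; rw [hd]
  have hxrq : xq r q = ((r / d : ℕ) : ℝ) := by unfold xq; rw [hd']
  have hyrq : yq r q = ((q / d : ℕ) : ℝ) := by unfold yq; rw [hd']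
  have hq'R : (0 : ℝ) < ((q / d : ℕ) : ℝ) := by exact_mod_cast hq'0
  have hr'R : (0 : ℝ) < ((r / d : ℕ) : ℝ) := by exact_mod_cast hr'0
  have hltR : ((q / d : ℕ) : ℝ) < ((r / d : ℕ) : ℝ) := by exact_mod_cast hlt
  have hqR : (d : ℝ) * ((q / d : ℕ) : ℝ) = q := by exact_mod_cast hqd
  have hrR : (d : ℝ) * ((r / d : ℕ) : ℝ) = r := by exact_mod_cast hrd
  have hwd := one_le_w hd0
  have hVr' : VV γ ψ q r ≤ 4 * (ψ r * (xq r q)⁻¹) := by rw [hxrq, ← hyqr]; exact hVr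
  by_cases hreg : ((q / d : ℕ) : ℝ) ≤ ((r / d : ℕ) : ℝ) * ((w d)⁻¹ * (sg r ^ 2)⁻¹)
  · have hT3 : T3 r q := by
      unfold T3
      rw [hxrq, hyrq, hd']
      exact hreg
    have := grq (Or.inl hT3)
    linarith
  rw [not_le] at hreg
  have hreg' : ((r / d : ℕ) : ℝ) < ((q / d : ℕ) : ℝ) * (w d * sg r ^ 2) := by
    have hw0 : w d ≠ 0 := by positivity
    have hs0 : sg r ≠ 0 := by positivity
    calc ((r / d : ℕ) : ℝ)
        = ((r / d : ℕ) : ℝ) * ((w d)⁻¹ * (sg r ^ 2)⁻¹) * (w d * sg r ^ 2) := by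
          field_simp
      _ < _ := by gcongr
  -- bound for the length
  have hLbound : LL ψ q r ≤ (d : ℝ)⁻¹ * (((q / d : ℕ) : ℝ) / ((r / d : ℕ) : ℝ) +
      ((r / d : ℕ) : ℝ) / ((q / d : ℕ) : ℝ)) := by
    have e1 : ψ r ≤ 1 / (d * ((r / d : ℕ) : ℝ)) := by
      rw [le_div_iff₀ (by positivity), hrR, mul_comm]; exact hψ1 r
    have e2 : ψ q ≤ 1 / (d * ((q / d : ℕ) : ℝ)) := by
      rw [le_div_iff₀ (by positivity), hqR, mul_comm]; exact hψ1 q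
    calc LL ψ q r = ((q / d : ℕ) : ℝ) * ψ r + ((r / d : ℕ) : ℝ) * ψ q := by
          unfold LL; rw [hd]
      _ ≤ ((q / d : ℕ) : ℝ) * (1 / (d * ((r / d : ℕ) : ℝ))) +
          ((r / d : ℕ) : ℝ) * (1 / (d * ((q / d : ℕ) : ℝ))) := by gcongr
      _ = _ := by field_simp
  rcases le_total (sg q) (sg r) with hs | hs
  · -- `x = q`, `y = r`
    by_cases hfar : ((q / d : ℕ) : ℝ) * (w d ^ 2 * sg q ^ 4) ≤ ((r / d : ℕ) : ℝ)
    · have hTF : TF q r := by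
        unfold TF
        rw [hxqr, hyqr, hd]
        exact ⟨hfar, hreg'.le⟩
      have := gqr (Or.inr (Or.inl hTF))
      linarith
    rw [not_le] at hfar
    by_cases hgood : sg d ^ 2 ≤ sg q ∧ (d : ℝ) ≤ sg q ^ 80
    · have hTG : TG q r := by
        unfold TG
        rw [hxqr, hyqr, hd]
        exact ⟨hfar.le, hgood.1, hgood.2, hs⟩
      have := gqr (Or.inr (Or.inr (Or.inl hTG)))
      linarith
    have hbad : sg q ≤ sg d ^ 2 ∨ sg q ^ 80 ≤ (d : ℝ) := by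
      by_contra hcon
      rw [not_or, not_le, not_le] at hcon
      exact hgood ⟨hcon.1.le, hcon.2.le⟩
    have hTB := near_one γ ψ (by omega : 4 ≤ q) hqr (hq₀ q hq) hd.symm hd0 hqR hrR hlt hq'R hr'R
      hLbound hNC hfar.le hbad
    have : 4 * (ψ q * (xq q r)⁻¹) ≤ UU γ ψ q r := gqr (Or.inr (Or.inr (Or.inr hTB)))
    linarith
  · -- `x = r`, `y = q`
    by_cases hgood : sg d ^ 2 ≤ sg r ∧ (d : ℝ) ≤ sg r ^ 80
    · have hTG : TG r q := by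
        unfold TG
        rw [hxrq, hyrq, hd']
        refine ⟨?_, hgood.1, hgood.2, hs⟩
        have hone : 1 ≤ w d ^ 2 * sg r ^ 4 := by
          have := one_le_pow₀ hwd (n := 2)
          have := one_le_pow₀ hsr (n := 4)
          nlinarith
        calc ((q / d : ℕ) : ℝ) ≤ ((r / d : ℕ) : ℝ) * 1 := by linarith
          _ ≤ _ := by gcongr
      have := grq (Or.inr (Or.inr (Or.inl hTG)))
      linarith
    have hbad : sg r ≤ sg d ^ 2 ∨ sg r ^ 80 ≤ (d : ℝ) := by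
      by_contra hcon
      rw [not_or, not_le, not_le] at hcon
      exact hgood ⟨hcon.1.le, hcon.2.le⟩
    have hTB := near_two γ ψ (by omega : 4 ≤ q) hqr hd'.symm hd0 hlt hq'R hr'R
      hLbound hNC hreg' hbad
    have := grq (Or.inr (Or.inr (Or.inr (Or.inl hTB))))
    linarith

end Vale.Agent.P028
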