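import Vale.Agent.Lib.P028.Pair

/-!
Counting the multipliers `h` for which a non exact coincidence is possible.
-/

open Finset

namespace Vale.Agent.P028

/-- elements of a finite set in one residue class are well spread -/
lemma card_ap_le (S : Finset ℕ) (hne : S.Nonempty) (B : ℕ) (hB : 0 < B)
    (hc : ∀ x ∈ S, ∀ y ∈ S, (B : ℤ) ∣ (x : ℤ) - y) :
    (#S - 1) * B ≤ S.max' hne - S.min' hne := by
  have hcard : #S ≤ (S.max' hne - S.min' hne) / B + 1 := by
    have hmin := S.min'_mem hne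
    have : #S ≤ #(Finset.range ((S.max' hne - S.min' hne) / B + 1)) := by
      apply Finset.card_le_card_of_injOn (fun h => (h - S.min' hne) / B)
      · intro h hh
        have h1 := S.le_max' h hh
        simp only [Finset.coe_range, Set.mem_Iio]
        exact Nat.lt_succ_of_le (Nat.div_le_div_right (Nat.sub_le_sub_right h1 _))
      · intro h hh h' hh' heq
        simp only at heq
        have e1 : S.min' hne ≤ h := S.min'_le h hh
        have e2 : S.min' hne ≤ h' := S.min'_le h' hh'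
        have d1 : B ∣ h - S.min' hne := by
          have := hc h hh _ hmin
          zify [e1]
          exact this
        have d2 : B ∣ h' - S.min' hne := by
          have := hc h' hh' _ hmin
          zify [e2]
          exact this
        obtain ⟨k1, hk1⟩ := d1
        obtain ⟨k2, hk2⟩ := d2
        rw [hk1, hk2, Nat.mul_div_cancel_left _ hB, Nat.mul_div_cancel_left _ hB] at heq
        subst heq
        omega
    simpa using this
  calc (#S - 1) * B ≤ ((S.max' hne - S.min' hne) / B) * B := by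
        apply Nat.mul_le_mul_right
        exact Nat.sub_le_iff_le_add.mpr hcard
    _ ≤ _ := Nat.div_mul_le_self _ _

/-- nonzero integers of absolute value `< T` -/
lemma card_nonzero_le (S : Finset ℤ) (T : ℝ) (hT : 0 ≤ T)
    (h : ∀ n ∈ S, n ≠ 0 ∧ |(n : ℝ)| < T) : (#S : ℝ) ≤ 2 * T := by
  set K : ℕ := ⌊T⌋₊
  have hsub : S ⊆ (Icc (1 : ℤ) K) ∪ (Icc (-(K : ℤ)) (-1)) := by
    intro n hn
    obtain ⟨h0, h1⟩ := h n hn
    have h2 : n.natAbs ≤ K := by
      apply Nat.le_floor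
      have : ((n.natAbs : ℕ) : ℝ) = |(n : ℝ)| := by
        rw [Nat.cast_natAbs, Int.cast_abs]
      rw [this]
      exact h1.le
    rw [Finset.mem_union, Finset.mem_Icc, Finset.mem_Icc]
    omega
  have h1 := (Finset.card_le_card hsub).trans (Finset.card_union_le _ _)
  rw [Int.card_Icc, Int.card_Icc] at h1
  have h2 : #S ≤ 2 * K := by omega
  have h3 : (K : ℝ) ≤ T := Nat.floor_le hT
  have h4 : (#S : ℝ) ≤ 2 * K := by exact_mod_cast h2
  linarith

/-- the counting lemma -/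
lemma nc_count (γ Z : ℝ) (hZ : 0 ≤ Z) (A : ℤ) (B : ℕ) (hB : 0 < B) (hAB : IsCoprime A (B : ℤ))
    (H : ℝ) (hH : 0 ≤ H) (S : Finset ℕ)
    (hS : ∀ h ∈ S, 1 ≤ h ∧ (h : ℝ) ≤ H ∧
      ∃ m : ℤ, |(m : ℝ) + γ * h| < Z ∧ (B : ℤ) * m + A * h ≠ 0) :
    (#S : ℝ) ≤ 6 * Z * H + 2 * B * Z + 2 * |B * γ - A| * H := by
  classical
  set θ : ℝ := |B * γ - A|
  have hθ : 0 ≤ θ := abs_nonneg _
  have hBR : (0 : ℝ) < B := by exact_mod_cast hB
  have hnn : 0 ≤ 6 * Z * H + 2 * B * Z + 2 * θ * H := by positivity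
  have hS' : ∀ h, ∃ m : ℤ, h ∈ S → 1 ≤ h ∧ (h : ℝ) ≤ H ∧
      |(m : ℝ) + γ * h| < Z ∧ (B : ℤ) * m + A * h ≠ 0 := by
    intro h
    by_cases hh : h ∈ S
    · obtain ⟨h1, h2, m, h3, h4⟩ := hS h hh
      exact ⟨m, fun _ => ⟨h1, h2, h3, h4⟩⟩
    · exact ⟨0, fun h' => absurd h' hh⟩
  choose m hm using hS'
  set f : ℕ → ℤ := fun h => (B : ℤ) * m h + A * h
  set T : Finset ℤ := S.image f
  rcases S.eq_empty_or_nonempty with h0 | hne
  · rw [h0]; simpa using hnn
  have hTne : T.Nonempty := hne.image f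
  have hTcard : (#T : ℝ) ≤ 2 * (B * Z + θ * H) := by
    apply card_nonzero_le _ _ (by positivity)
    intro n hn
    obtain ⟨h, hh, rfl⟩ := Finset.mem_image.mp hn
    obtain ⟨h1, h2, h3, h4⟩ := hm h hh
    refine ⟨h4, ?_⟩
    have e : ((f h : ℤ) : ℝ) = B * ((m h : ℝ) + γ * h) - (B * γ - A) * h := by
      simp only [f]; push_cast; ring
    rw [e]
    calc |(B : ℝ) * ((m h : ℝ) + γ * h) - (B * γ - A) * h|
        ≤ |(B : ℝ) * ((m h : ℝ) + γ * h)| + |(B * γ - A) * h| := abs_sub _ _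
      _ = B * |(m h : ℝ) + γ * h| + θ * h := by
          rw [abs_mul, abs_mul, abs_of_pos hBR, Nat.abs_cast]
      _ < B * Z + θ * H := by
          have e1 : (B : ℝ) * |(m h : ℝ) + γ * h| < B * Z := by gcongr
          have e2 : θ * h ≤ θ * H := by gcongr
          linarith
  -- maximal fibre
  obtain ⟨n₀, hn₀, hmax⟩ := Finset.exists_max_image T (fun n => #{h ∈ S | f h = n}) hTne
  set F : Finset ℕ := {h ∈ S | f h = n₀} with hF
  have hFne : F.Nonempty := by
    obtain ⟨h, hh, hfh⟩ := Finset.mem_image.mp hn₀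
    exact ⟨h, by rw [hF, mem_filter]; exact ⟨hh, hfh⟩⟩
  have hcard : #S ≤ #F * #T :=
    Finset.card_le_mul_card_image_of_maps_to (fun h hh => Finset.mem_image_of_mem f hh) _
      (fun n hn => hmax n hn)
  have hcong : ∀ x ∈ F, ∀ y ∈ F, (B : ℤ) ∣ (x : ℤ) - y := by
    intro x hx y hy
    rw [hF, mem_filter] at hx hy
    have h1 : (B : ℤ) * m x + A * x = B * m y + A * y := hx.2.trans hy.2.symm
    have h2 : (B : ℤ) ∣ A * ((x : ℤ) - y) := ⟨m y - m x, by linear_combination h1⟩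
    exact hAB.symm.dvd_of_dvd_mul_left h2
  have hsp := card_ap_le F hFne B hB hcong
  have hFpos : 1 ≤ #F := hFne.card_pos
  set a := F.max' hFne
  set b := F.min' hFne
  have ha : a ∈ F := F.max'_mem hFne
  have hb : b ∈ F := F.min'_mem hFne
  have hba : b ≤ a := F.min'_le a ha
  have hspR : ((#F : ℝ) - 1) * B ≤ (a : ℝ) - b := by
    have h1 : (((#F - 1) * B : ℕ) : ℝ) ≤ ((a - b : ℕ) : ℝ) := by exact_mod_cast hsp
    rw [Nat.cast_mul, Nat.cast_sub hFpos, Nat.cast_sub hba] at h1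
    simpa using h1
  rw [hF, mem_filter] at ha hb
  obtain ⟨ha1, ha2, ha3, ha4⟩ := hm a ha.1
  obtain ⟨hb1, hb2, hb3, hb4⟩ := hm b hb.1
  have hc1 : ((#F : ℝ) - 1) * B ≤ H := by
    have : (0 : ℝ) ≤ b := Nat.cast_nonneg b
    linarith
  have hc2 : θ * ((#F : ℝ) - 1) ≤ 2 * Z := by
    have hEq : (B * γ - A) * ((a : ℝ) - b) = B * (((m a : ℝ) + γ * a) - ((m b : ℝ) + γ * b)) := by
      have h1 : (B : ℤ) * m a + A * a = B * m b + A * b := ha.2.trans hb.2.symm
      have h2 : (B : ℝ) * m a + A * a = B * m b + A * b := by exact_mod_cast h1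
      linear_combination -h2
    have h3 : θ * ((a : ℝ) - b) ≤ B * (2 * Z) := by
      have hab : |(a : ℝ) - b| = (a : ℝ) - b := abs_of_nonneg (by
        have : (b : ℝ) ≤ a := by exact_mod_cast hba
        linarith)
      calc θ * ((a : ℝ) - b) = |(B * γ - A) * ((a : ℝ) - b)| := by rw [abs_mul, hab]
        _ = |B * (((m a : ℝ) + γ * a) - ((m b : ℝ) + γ * b))| := by rw [hEq]
        _ = B * |((m a : ℝ) + γ * a) - ((m b : ℝ) + γ * b)| := by
            rw [abs_mul, abs_of_pos hBR]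
        _ ≤ B * (|(m a : ℝ) + γ * a| + |(m b : ℝ) + γ * b|) := by
            gcongr; exact abs_sub _ _
        _ ≤ B * (2 * Z) := by gcongr; linarith
    have h4 : (θ * ((#F : ℝ) - 1)) * B ≤ (2 * Z) * B := by
      calc (θ * ((#F : ℝ) - 1)) * B = θ * (((#F : ℝ) - 1) * B) := by ring
        _ ≤ θ * ((a : ℝ) - b) := by gcongr
        _ ≤ B * (2 * Z) := h3
        _ = _ := by ring
    exact le_of_mul_le_mul_right h4 hBR
  have hSR : (#S : ℝ) ≤ #F * #T := by exact_mod_cast hcard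
  set c : ℝ := (#F : ℝ) - 1
  have hc0 : 0 ≤ c := by
    have : (1 : ℝ) ≤ #F := by exact_mod_cast hFpos
    simp only [c]; linarith
  have hFc : (#F : ℝ) = c + 1 := by simp [c]
  calc (#S : ℝ) ≤ #F * #T := hSR
    _ ≤ (c + 1) * (2 * (B * Z + θ * H)) := by rw [hFc]; gcongr
    _ = 2 * Z * (c * B) + 2 * H * (θ * c) + 2 * B * Z + 2 * θ * H := by ring
    _ ≤ 2 * Z * H + 2 * H * (2 * Z) + 2 * B * Z + 2 * θ * H := by gcongr
    _ = _ := by ring

end Vale.Agent.P028
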