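import Vale.Agent.Lib.P028.Centers

/-!
Overlap bounds for the modified sets.
-/

open Finset MeasureTheory

namespace Vale.Agent.P028

/-- measure of the overlap -/
noncomputable def VV (γ : ℝ) (ψ : ℕ → ℝ) (x y : ℕ) : ℝ := volume.real (EE γ ψ x ∩ EE γ ψ y)

lemma VV_comm (γ : ℝ) (ψ : ℕ → ℝ) (x y : ℕ) : VV γ ψ x y = VV γ ψ y x := by
  unfold VV; rw [Set.inter_comm]

lemma VV_nonneg (γ : ℝ) (ψ : ℕ → ℝ) (x y : ℕ) : 0 ≤ VV γ ψ x y := measureReal_nonneg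

/-- the indicator function of the retained residues -/
noncomputable def FF (γ : ℝ) (q : ℕ) (a : ℤ) : ℝ :=
  ind (Phi (cB γ (sc q)) (cA γ (sc q)) (PP γ q) a)

lemma VV_base (γ : ℝ) (ψ : ℕ → ℝ) (hψ : ∀ q, 0 ≤ ψ q) (hψ1 : ∀ q : ℕ, (q : ℝ) * ψ q ≤ 1)
    {q r : ℕ} (hq : 2 ≤ q) (hr : 0 < r) :
    VV γ ψ q r ≤ min (2 * ψ q / q) (2 * ψ r / r) *
      NN γ (LL ψ q r) (q / Nat.gcd q r) (r / Nat.gcd q r) (Nat.gcd q r) (FF γ q) (FF γ r) := by
  set d := Nat.gcd q r with hd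
  have hd0 : 0 < d := Nat.gcd_pos_of_pos_left _ (by omega)
  have hqd : d * (q / d) = q := Nat.mul_div_cancel' (Nat.gcd_dvd_left q r)
  have hrd : d * (r / d) = r := Nat.mul_div_cancel' (Nat.gcd_dvd_right q r)
  have hq'0 : 0 < q / d := Nat.div_pos (Nat.le_of_dvd (by omega) (Nat.gcd_dvd_left q r)) hd0
  have hr'0 : 0 < r / d := Nat.div_pos (Nat.le_of_dvd hr (Nat.gcd_dvd_right q r)) hd0
  have hψq : ψ q ≤ 1 / 2 := by
    have h1 := hψ1 q
    have h2 : (2 : ℝ) ≤ q := by exact_mod_cast hq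
    have h3 := hψ q
    nlinarith
  have h := overlap_le γ (ψ q) (ψ r) (hψ q) (hψ r) hψq (cB γ (sc q)) (cA γ (sc q))
    (cB γ (sc r)) (cA γ (sc r)) (PP γ q) (PP γ r) (q / d) (r / d) d hq'0 hr'0
    (by rw [hqd]; exact hq)
  rw [hqd, hrd] at h
  unfold VV EE
  refine h.trans (le_of_eq ?_)
  have hL : ((r / d : ℕ) : ℝ) * ψ q + ((q / d : ℕ) : ℝ) * ψ r = LL ψ q r := by
    unfold LL
    rw [← hd]
    ring
  rw [hL]
  rfl

lemma FF_nonneg (γ : ℝ) (q : ℕ) (a : ℤ) : 0 ≤ FF γ q a := ind_nonneg _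

lemma FF_le_one (γ : ℝ) (q : ℕ) (a : ℤ) : FF γ q a ≤ 1 := ind_le_one _

/-- arithmetic of the prefactor -/
lemma prefactor_le (ψ : ℕ → ℝ) (hψ : ∀ q, 0 ≤ ψ q) {q r : ℕ} (hq : 0 < q) (hr : 0 < r) :
    min (2 * ψ q / q) (2 * ψ r / r) * ((Nat.gcd q r : ℝ) * LL ψ q r) ≤ 4 * (ψ q * ψ r) := by
  set d := Nat.gcd q r with hd
  have hqR : (0 : ℝ) < q := by exact_mod_cast hq
  have hrR : (0 : ℝ) < r := by exact_mod_cast hr
  have hqd : (d : ℝ) * ((q / d : ℕ) : ℝ) = q := by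
    exact_mod_cast Nat.mul_div_cancel' (Nat.gcd_dvd_left q r)
  have hrd : (d : ℝ) * ((r / d : ℕ) : ℝ) = r := by
    exact_mod_cast Nat.mul_div_cancel' (Nat.gcd_dvd_right q r)
  have hψq := hψ q
  have hψr := hψ r
  have e : (d : ℝ) * LL ψ q r = q * ψ r + r * ψ q := by
    unfold LL
    rw [← hd, mul_add, ← mul_assoc, ← mul_assoc, hqd, hrd]
  rw [e, mul_add]
  have h1 : min (2 * ψ q / q) (2 * ψ r / r) * (q * ψ r) ≤ 2 * (ψ q * ψ r) := by
    calc min (2 * ψ q / q) (2 * ψ r / r) * (q * ψ r) ≤ (2 * ψ q / q) * (q * ψ r) := by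
          gcongr; exact min_le_left _ _
      _ = 2 * (ψ q * ψ r) := by field_simp
  have h2 : min (2 * ψ q / q) (2 * ψ r / r) * (r * ψ q) ≤ 2 * (ψ q * ψ r) := by
    calc min (2 * ψ q / q) (2 * ψ r / r) * (r * ψ q) ≤ (2 * ψ r / r) * (r * ψ q) := by
          gcongr; exact min_le_right _ _
      _ = 2 * (ψ q * ψ r) := by field_simp
  linarith

lemma min_nonneg' (ψ : ℕ → ℝ) (hψ : ∀ q, 0 ≤ ψ q) (q r : ℕ) :
    0 ≤ min (2 * ψ q / q) (2 * ψ r / r) := by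
  have := hψ q
  have := hψ r
  apply le_min <;> positivity

lemma cop_div {q r : ℕ} (hq : 0 < q) :
    Nat.Coprime (q / Nat.gcd q r) (r / Nat.gcd q r) :=
  Nat.coprime_div_gcd_div_gcd (Nat.gcd_pos_of_pos_left _ hq)

lemma VV_big (γ : ℝ) (ψ : ℕ → ℝ) (hψ : ∀ q, 0 ≤ ψ q) (hψ1 : ∀ q : ℕ, (q : ℝ) * ψ q ≤ 1)
    {q r : ℕ} (hq : 2 ≤ q) (hr : 0 < r) (hL : 1 / 2 ≤ LL ψ q r) :
    VV γ ψ q r ≤ 32 * (ψ q * ψ r) := by
  have hq0 : 0 < q := by omega
  have hd0 : 0 < Nat.gcd q r := Nat.gcd_pos_of_pos_left _ hq0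
  have hq'0 : 0 < q / Nat.gcd q r :=
    Nat.div_pos (Nat.le_of_dvd hq0 (Nat.gcd_dvd_left q r)) hd0
  have h1 := VV_base γ ψ hψ hψ1 hq hr
  have h2 := NN_le_big γ (LL ψ q r) hL (q / Nat.gcd q r) (r / Nat.gcd q r) (Nat.gcd q r) hq'0
    (cop_div hq0) (FF γ q) (FF γ r) (FF_nonneg γ q) (FF_le_one γ q) (FF_le_one γ r)
  have h3 := prefactor_le ψ hψ hq0 hr
  have h4 := min_nonneg' ψ hψ q r
  calc VV γ ψ q r ≤ min (2 * ψ q / q) (2 * ψ r / r) *
        (8 * ((Nat.gcd q r : ℝ) * LL ψ q r)) := h1.trans (by gcongr)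
    _ = 8 * (min (2 * ψ q / q) (2 * ψ r / r) * ((Nat.gcd q r : ℝ) * LL ψ q r)) := by ring
    _ ≤ 8 * (4 * (ψ q * ψ r)) := by gcongr
    _ = _ := by ring

lemma phi_periodic (B A : ℤ) (P : Finset ℕ) (Q : ℕ) (hP : ∀ p ∈ P, p ∣ Q) (a : ℤ) :
    Phi B A P (a + Q) ↔ Phi B A P a := by
  unfold Phi
  refine forall₂_congr fun p hp => not_congr ?_
  have h : (p : ℤ) ∣ B * Q := (Int.natCast_dvd_natCast.mpr (hP p hp)).mul_left B
  have e : B * (a + Q) + A = (B * a + A) + B * Q := by ring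
  rw [e]
  exact (dvd_add_left h)

/-- truncated density -/
lemma trunc_density (γ : ℝ) {q : ℕ} (hq : 0 < q) (y : ℕ) (hy : sg q ^ 2 ≤ y) :
    (∑ a ∈ Ico (0 : ℤ) (primorial y : ℕ),
      ind (Phi (cB γ (sc q)) (cA γ (sc q)) ((PP γ q).filter (fun p => p ≤ y)) a)) / (primorial y : ℕ)
      ≤ Real.exp 2 * kap γ q := by
  classical
  set P := (PP γ q).filter (fun p => p ≤ y) with hP
  have hQ0 : 0 < primorial y := primorial_pos y
  have hQR : (0 : ℝ) < (primorial y : ℕ) := by exact_mod_cast hQ0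
  have hPsub : P ⊆ PP γ q := Finset.filter_subset _ _
  have hprod : (∏ p ∈ P, p) ∣ primorial y := by
    unfold primorial
    apply Finset.prod_dvd_prod_of_subset
    intro p hp
    rw [hP, mem_filter] at hp
    rw [mem_filter]
    refine ⟨?_, PP_prime γ q p hp.1⟩
    simp
    omega
  have h := full_period P (cB γ (sc q)) (cA γ (sc q)) (fun p hp => PP_prime γ q p (hPsub hp))
    (fun p hp => PP_coprime γ q p (hPsub hp)) 0 (primorial y) hprod
  rw [zero_add] at h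
  have hsum : ∑ a ∈ Ico (0 : ℤ) (primorial y : ℕ), ind (Phi (cB γ (sc q)) (cA γ (sc q)) P a) =
      (primorial y : ℕ) * ∏ p ∈ P, (1 - 1 / (p : ℝ)) := by
    rw [← h]
    simp only [ind]
    rw [Finset.sum_boole]
  rw [hsum, mul_div_cancel_left₀ _ hQR.ne']
  -- comparison with the full product
  have hsplit : kap γ q = (∏ p ∈ P, (1 - 1 / (p : ℝ))) *
      ∏ p ∈ (PP γ q).filter (fun p => ¬ p ≤ y), (1 - 1 / (p : ℝ)) := by
    unfold kap
    rw [hP, Finset.prod_filter_mul_prod_filter_not]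
  have htail := tail_prod hq (S := (PP γ q).filter (fun p => ¬ p ≤ y))
    ((Finset.filter_subset _ _).trans (PP_sub γ q)) (by
      intro p hp
      rw [mem_filter, not_le] at hp
      refine hy.trans ?_
      exact_mod_cast hp.2.le)
  have hP0 : 0 ≤ ∏ p ∈ P, (1 - 1 / (p : ℝ)) :=
    Finset.prod_nonneg fun p hp => (one_sub_inv_pos (PP_sub γ q (hPsub hp))).le
  calc ∏ p ∈ P, (1 - 1 / (p : ℝ)) = Real.exp 2 * ((∏ p ∈ P, (1 - 1 / (p : ℝ))) * Real.exp (-2)) := by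
        rw [Real.exp_neg]; field_simp
    _ ≤ Real.exp 2 * kap γ q := by
        rw [hsplit]; gcongr

lemma VV_sieve (γ : ℝ) (ψ : ℕ → ℝ) (hψ : ∀ q, 0 ≤ ψ q) (hψ1 : ∀ q : ℕ, (q : ℝ) * ψ q ≤ 1)
    {q r : ℕ} (hq : 2 ≤ q) (hr : 0 < r) (y : ℕ) (hyq : sg q ^ 2 ≤ y) (hyr : sg r ^ 2 ≤ y)
    (hL : (4 : ℝ) ^ y ≤ LL ψ q r) :
    VV γ ψ q r ≤ 32 * Real.exp 4 * ((kap γ q * ψ q) * (kap γ r * ψ r)) := by
  have hq0 : 0 < q := by omega
  set d := Nat.gcd q r with hd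
  have hd0 : 0 < d := Nat.gcd_pos_of_pos_left _ hq0
  have hqd : d * (q / d) = q := Nat.mul_div_cancel' (Nat.gcd_dvd_left q r)
  have hrd : d * (r / d) = r := Nat.mul_div_cancel' (Nat.gcd_dvd_right q r)
  have hq'0 : 0 < q / d := Nat.div_pos (Nat.le_of_dvd hq0 (Nat.gcd_dvd_left q r)) hd0
  have hr'0 : 0 < r / d := Nat.div_pos (Nat.le_of_dvd hr (Nat.gcd_dvd_right q r)) hd0
  have h1 := VV_base γ ψ hψ hψ1 hq hr
  set Pq := (PP γ q).filter (fun p => p ≤ y) with hPq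
  set Pr := (PP γ r).filter (fun p => p ≤ y) with hPr
  have hmono : ∀ (B A : ℤ) (P P' : Finset ℕ), P' ⊆ P → ∀ a, ind (Phi B A P a) ≤ ind (Phi B A P' a) := by
    intro B A P P' hsub a
    unfold ind
    by_cases h : Phi B A P a
    · have h' : Phi B A P' a := fun p hp => h p (hsub hp)
      rw [if_pos h, if_pos h']
    · rw [if_neg h]
      split_ifs <;> norm_num
  have hper : ∀ (B A : ℤ) (P : Finset ℕ) (Q : ℕ), (∀ p ∈ P, p ∣ Q) → ∀ a : ℤ,
      ind (Phi B A P (a + Q)) = ind (Phi B A P a) := by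
    intro B A P Q h a
    unfold ind
    have := phi_periodic B A P Q h a
    by_cases h' : Phi B A P a
    · rw [if_pos h', if_pos (this.mpr h')]
    · rw [if_neg h', if_neg (fun h'' => h' (this.mp h''))]
  have hdvdQ : ∀ (s : ℕ), ∀ p ∈ (PP γ s).filter (fun p => p ≤ y), p ∣ primorial y := by
    intro s p hp
    rw [mem_filter] at hp
    unfold primorial
    apply Finset.dvd_prod_of_mem (fun p => p)
    rw [mem_filter]
    refine ⟨?_, PP_prime γ s p hp.1⟩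
    simp
    omega
  have hdvds : ∀ (s : ℕ), ∀ p ∈ (PP γ s).filter (fun p => p ≤ y), p ∣ s := by
    intro s p hp
    rw [mem_filter] at hp
    exact Nat.dvd_of_mem_primeFactors (PP_sub γ s hp.1)
  have h2 := NN_le_sieve γ (LL ψ q r) (q / d) (r / d) d (primorial y) hq'0 hr'0 hd0
    (primorial_pos y)
    (by
      calc ((primorial y : ℕ) : ℝ) ≤ (4 : ℝ) ^ y := by exact_mod_cast primorial_le_four_pow y
        _ ≤ _ := hL)
    (cop_div hq0) (FF γ q) (FF γ r)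
    (fun a => ind (Phi (cB γ (sc q)) (cA γ (sc q)) Pq a))
    (fun a => ind (Phi (cB γ (sc r)) (cA γ (sc r)) Pr a))
    (FF_nonneg γ q) (FF_nonneg γ r)
    (fun a => hmono _ _ _ _ (Finset.filter_subset _ _) a)
    (fun a => hmono _ _ _ _ (Finset.filter_subset _ _) a)
    (fun a => hper _ _ _ _ (hdvdQ q) a) (fun a => hper _ _ _ _ (hdvdQ r) a)
    (by rw [hqd]; exact fun a => hper _ _ _ _ (hdvds q) a)
    (by rw [hrd]; exact fun a => hper _ _ _ _ (hdvds r) a)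
  have tq := trunc_density γ hq0 y hyq
  have tr := trunc_density γ hr y hyr
  have h3 := prefactor_le ψ hψ hq0 hr
  have h4 := min_nonneg' ψ hψ q r
  rw [← hd] at h3
  have hLnn : 0 ≤ LL ψ q r := le_trans (by positivity) hL
  have kq := kap_pos γ q
  have kr := kap_pos γ r
  have hnn : ∀ (s : ℕ), 0 ≤ (∑ a ∈ Ico (0 : ℤ) (primorial y : ℕ),
      ind (Phi (cB γ (sc s)) (cA γ (sc s)) ((PP γ s).filter (fun p => p ≤ y)) a)) /
        (primorial y : ℕ) := by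
    intro s
    apply div_nonneg _ (Nat.cast_nonneg _)
    exact Finset.sum_nonneg fun a _ => ind_nonneg _
  have hnq := hnn q
  have hnr := hnn r
  rw [← hPq] at tq hnq
  rw [← hPr] at tr hnr
  have hψq := hψ q
  have hψr := hψ r
  calc VV γ ψ q r ≤ min (2 * ψ q / q) (2 * ψ r / r) *
        (8 * ((d : ℝ) * LL ψ q r) * ((Real.exp 2 * kap γ q) * (Real.exp 2 * kap γ r))) := by
        refine h1.trans ?_
        gcongr
        refine h2.trans ?_
        gcongr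
    _ = 8 * (Real.exp 2 * Real.exp 2) * (kap γ q * kap γ r) *
        (min (2 * ψ q / q) (2 * ψ r / r) * ((d : ℝ) * LL ψ q r)) := by ring
    _ ≤ 8 * (Real.exp 2 * Real.exp 2) * (kap γ q * kap γ r) * (4 * (ψ q * ψ r)) := by gcongr
    _ = _ := by
        rw [← Real.exp_add]
        norm_num
        ring

/-- small length: only near coincidences which are not exact contribute -/
lemma VV_small (γ : ℝ) (ψ : ℕ → ℝ) (hψ : ∀ q, 0 ≤ ψ q) (hψ1 : ∀ q : ℕ, (q : ℝ) * ψ q ≤ 1)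
    {q r : ℕ} (hq : 2 ≤ q) (hqr : q < r) (hL : LL ψ q r ≤ 1 / 2) :
    (VV γ ψ q r ≤ 0 ∨ NCc γ (LL ψ q r) (cA γ (sc r)) (cB γ (sc r))
      (r / Nat.gcd q r - q / Nat.gcd q r)) ∧
    VV γ ψ q r ≤ 4 * (ψ q * (xq q r)⁻¹) ∧ VV γ ψ q r ≤ 4 * (ψ r * (yq q r)⁻¹) := by
  classical
  have hq0 : 0 < q := by omega
  have hr : 0 < r := by omega
  set d := Nat.gcd q r with hd
  have hd0 : 0 < d := Nat.gcd_pos_of_pos_left _ hq0
  have hqd : d * (q / d) = q := Nat.mul_div_cancel' (Nat.gcd_dvd_left q r)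
  have hrd : d * (r / d) = r := Nat.mul_div_cancel' (Nat.gcd_dvd_right q r)
  have hq'0 : 0 < q / d := Nat.div_pos (Nat.le_of_dvd hq0 (Nat.gcd_dvd_left q r)) hd0
  have hr'0 : 0 < r / d := Nat.div_pos (Nat.le_of_dvd hr (Nat.gcd_dvd_right q r)) hd0
  have hlt : q / d < r / d := by
    by_contra hcon
    rw [not_lt] at hcon
    have : d * (r / d) ≤ d * (q / d) := Nat.mul_le_mul_left d hcon
    rw [hqd, hrd] at this
    omega
  have hdR : (0 : ℝ) < d := by exact_mod_cast hd0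
  have hq'R : (0 : ℝ) < ((q / d : ℕ) : ℝ) := by exact_mod_cast hq'0
  have hr'R : (0 : ℝ) < ((r / d : ℕ) : ℝ) := by exact_mod_cast hr'0
  have hqR : (d : ℝ) * ((q / d : ℕ) : ℝ) = q := by exact_mod_cast hqd
  have hrR : (d : ℝ) * ((r / d : ℕ) : ℝ) = r := by exact_mod_cast hrd
  have h1 := VV_base γ ψ hψ hψ1 hq hr
  rw [← hd] at h1
  have h2 := NN_le_small γ (LL ψ q r) hL (q / d) (r / d) d hq'0 hlt hd0 (cop_div hq0)
    (FF γ q) (FF_nonneg γ q) (FF_le_one γ q) (cB γ (sc r)) (cA γ (sc r)) (cAB γ (sc r)) (PP γ r)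
    (by
      intro p hp hpr hpB
      rw [hrd] at hpr
      unfold PP
      rw [mem_filter, Nat.mem_primeFactors]
      exact ⟨⟨hp, hpr, by omega⟩, hpB⟩)
  have h4 := min_nonneg' ψ hψ q r
  have hFF : NN γ (LL ψ q r) (q / d) (r / d) d (FF γ q) (FF γ r) ≤ 2 * d * (
        if ∃ m : ℤ, |(m : ℝ) + γ * (((r / d : ℕ) : ℝ) - ((q / d : ℕ) : ℝ))| < LL ψ q r ∧
          (cB γ (sc r) : ℤ) * m + cA γ (sc r) * (((r / d : ℕ) : ℤ) - ((q / d : ℕ) : ℤ)) ≠ 0
        then 1 else 0) := by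
    convert h2 using 2
    rfl
  have hψq := hψ q
  have hψr := hψ r
  have hNN2 : NN γ (LL ψ q r) (q / d) (r / d) d (FF γ q) (FF γ r) ≤ 2 * d := by
    refine hFF.trans ?_
    split_ifs
    · linarith
    · linarith
  refine ⟨?_, ?_, ?_⟩
  · by_cases hex : ∃ m : ℤ, |(m : ℝ) + γ * (((r / d : ℕ) : ℝ) - ((q / d : ℕ) : ℝ))| < LL ψ q r ∧
          (cB γ (sc r) : ℤ) * m + cA γ (sc r) * (((r / d : ℕ) : ℤ) - ((q / d : ℕ) : ℤ)) ≠ 0
    · right
      obtain ⟨m, hm1, hm2⟩ := hex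
      refine ⟨m, ?_, ?_⟩
      · rw [Nat.cast_sub hlt.le]
        exact hm1
      · rw [Nat.cast_sub hlt.le]
        exact hm2
    · left
      rw [if_neg hex, mul_zero] at hFF
      refine h1.trans ?_
      calc _ ≤ min (2 * ψ q / q) (2 * ψ r / r) * 0 := by gcongr
        _ = 0 := mul_zero _
  · calc VV γ ψ q r ≤ (2 * ψ q / q) * (2 * d) := by
          refine h1.trans ?_
          calc _ ≤ min (2 * ψ q / q) (2 * ψ r / r) * (2 * d) := by gcongr
            _ ≤ _ := by gcongr; exact min_le_left _ _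
      _ = _ := by
          have : xq q r = ((q / d : ℕ) : ℝ) := rfl
          rw [this, ← hqR]
          field_simp
          ring
  · calc VV γ ψ q r ≤ (2 * ψ r / r) * (2 * d) := by
          refine h1.trans ?_
          calc _ ≤ min (2 * ψ q / q) (2 * ψ r / r) * (2 * d) := by gcongr
            _ ≤ _ := by gcongr; exact min_le_right _ _
      _ = _ := by
          have : yq q r = ((r / d : ℕ) : ℝ) := rfl
          rw [this, ← hrR]
          field_simp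
          ring

end Vale.Agent.P028
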