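import Vale.Agent.Lib.P028.PairSieve

/-!
Overlaps of the approximation sets.
-/

open Finset MeasureTheory

namespace Vale.Agent.P028

/-- the set of `x` with `|q x - a - γ| < δ` -/
def bl (γ δ : ℝ) (q : ℕ) (a : ℤ) : Set ℝ := {x : ℝ | |(q : ℝ) * x - a - γ| < δ}

lemma bl_eq (γ δ : ℝ) {q : ℕ} (hq : 0 < q) (a : ℤ) :
    bl γ δ q a = Set.Ioo (((a : ℝ) + γ - δ) / q) (((a : ℝ) + γ + δ) / q) := by
  have hqR : (0 : ℝ) < q := by exact_mod_cast hq
  ext x
  simp only [bl, Set.mem_ofPred_eq, Set.mem_Ioo, div_lt_iff₀ hqR, lt_div_iff₀ hqR, abs_lt]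
  constructor
  · rintro ⟨h1, h2⟩; constructor <;> linarith
  · rintro ⟨h1, h2⟩; constructor <;> linarith

lemma bl_vol (γ : ℝ) {δ : ℝ} (hδ : 0 ≤ δ) {q : ℕ} (hq : 0 < q) (a : ℤ) :
    volume.real (bl γ δ q a) = 2 * δ / q := by
  have hqR : (0 : ℝ) < q := by exact_mod_cast hq
  rw [bl_eq γ δ hq, Real.volume_real_Ioo_of_le]
  · field_simp; ring
  · apply div_le_div_of_nonneg_right _ hqR.le
    linarith

lemma bl_meas (γ δ : ℝ) {q : ℕ} (hq : 0 < q) (a : ℤ) : MeasurableSet (bl γ δ q a) := by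
  rw [bl_eq γ δ hq]; exact measurableSet_Ioo

lemma bl_fin (γ δ : ℝ) {q : ℕ} (hq : 0 < q) (a : ℤ) : volume (bl γ δ q a) ≠ ⊤ := by
  rw [bl_eq γ δ hq]; simp

/-- indicator as a real number -/
noncomputable def ind (p : Prop) [Decidable p] : ℝ := if p then 1 else 0

lemma ind_nonneg (p : Prop) [Decidable p] : 0 ≤ ind p := by unfold ind; split_ifs <;> norm_num

lemma ind_le_one (p : Prop) [Decidable p] : ind p ≤ 1 := by unfold ind; split_ifs <;> norm_num

/-- the approximation set attached to `q`, with the residue restriction `Phi B A P`. -/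
def ES (γ δ : ℝ) (B A : ℤ) (P : Finset ℕ) (q : ℕ) : Set ℝ :=
  {x | x ∈ Set.Ico (0 : ℝ) 1 ∧ ∃ a : ℤ, Phi B A P a ∧ x ∈ bl γ δ q a}

/-- `m`-set : integers `m` with `|m + γ h| < L` -/
noncomputable def mset (t L : ℝ) : Finset ℤ := {m ∈ Icc ⌊-t - L⌋ ⌈-t + L⌉ | |(m : ℝ) + t| < L}

lemma mem_mset {t L : ℝ} {m : ℤ} : m ∈ mset t L ↔ |(m : ℝ) + t| < L := by
  unfold mset
  rw [mem_filter, mem_Icc]
  constructor
  · exact fun h => h.2
  · intro h
    refine ⟨⟨?_, ?_⟩, h⟩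
    · rw [abs_lt] at h
      have h1 : (-t - L) < m := by linarith
      have : ((⌊-t - L⌋ : ℤ) : ℝ) ≤ m := (Int.floor_le _).trans h1.le
      exact_mod_cast this
    · rw [abs_lt] at h
      have h1 : (m : ℝ) < -t + L := by linarith
      have : (m : ℝ) ≤ (⌈-t + L⌉ : ℤ) := h1.le.trans (Int.le_ceil _)
      exact_mod_cast this

/-- integers in an open interval of length `≤ X` -/
lemma card_int_le {S : Finset ℤ} {X : ℝ} (hX : 0 ≤ X)
    (h : ∀ m ∈ S, ∀ n ∈ S, ((m : ℝ) - n) < X) : (#S : ℝ) ≤ X + 1 := by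
  rcases S.eq_empty_or_nonempty with h0 | hne
  · rw [h0]; simp; linarith
  have hmax := S.max'_mem hne
  have hmin := S.min'_mem hne
  have hsub : S ⊆ Icc (S.min' hne) (S.max' hne) := by
    intro x hx
    rw [mem_Icc]
    exact ⟨S.min'_le x hx, S.le_max' x hx⟩
  have h1 := Finset.card_le_card hsub
  rw [Int.card_Icc] at h1
  have h2 := h _ hmax _ hmin
  have h3 : S.min' hne ≤ S.max' hne := S.min'_le _ hmax
  have h4 : (((S.max' hne + 1 - S.min' hne).toNat : ℕ) : ℝ) = (S.max' hne : ℝ) + 1 - S.min' hne := by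
    have : (((S.max' hne + 1 - S.min' hne).toNat : ℕ) : ℤ) = S.max' hne + 1 - S.min' hne :=
      Int.toNat_of_nonneg (by linarith)
    exact_mod_cast this
  have h5 : (#S : ℝ) ≤ (((S.max' hne + 1 - S.min' hne).toNat : ℕ) : ℝ) := by exact_mod_cast h1
  linarith

lemma card_mset_le {t L : ℝ} (hL : 0 ≤ L) : (#(mset t L) : ℝ) ≤ 2 * L + 1 := by
  apply card_int_le (by linarith)
  intro m hm n hn
  rw [mem_mset, abs_lt] at hm hn
  linarith

lemma card_mset_le_one {t L : ℝ} (hL : L ≤ 1 / 2) : #(mset t L) ≤ 1 := by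
  rw [Finset.card_le_one]
  intro m hm n hn
  rw [mem_mset, abs_lt] at hm hn
  have h1 : ((m : ℝ) - n) < 1 := by linarith
  have h2 : ((n : ℝ) - m) < 1 := by linarith
  have h3 : m - n < 1 := by exact_mod_cast h1
  have h4 : n - m < 1 := by exact_mod_cast h2
  omega

/-- number of admissible pairs -/
noncomputable def NN (γ L : ℝ) (q' r' d : ℕ) (F G : ℤ → ℝ) : ℝ :=
  ∑ m ∈ mset (γ * ((r' : ℝ) - q')) L,
    ∑ a ∈ Ico ⌊-γ⌋ (⌊-γ⌋ + 2 * (d * q' : ℕ)) with (q' : ℤ) ∣ a * r' - m,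
      F a * G ((a * r' - m) / q')

lemma overlap_le (γ δ δ' : ℝ) (hδ : 0 ≤ δ) (hδ' : 0 ≤ δ') (hδ2 : δ ≤ 1 / 2)
    (B A B' A' : ℤ) (P P' : Finset ℕ) (q' r' d : ℕ) (hq' : 0 < q') (hr' : 0 < r')
    (hq : 2 ≤ d * q') :
    volume.real (ES γ δ B A P (d * q') ∩ ES γ δ' B' A' P' (d * r')) ≤
      min (2 * δ / (d * q' : ℕ)) (2 * δ' / (d * r' : ℕ)) *
        NN γ (r' * δ + q' * δ') q' r' d (fun a => ind (Phi B A P a)) (fun b => ind (Phi B' A' P' b)) := by
  have hd : 0 < d := by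
    rcases Nat.eq_zero_or_pos d with h | h
    · subst h; omega
    · exact h
  have hqq : 0 < d * q' := by positivity
  have hrr : 0 < d * r' := by positivity
  set L : ℝ := r' * δ + q' * δ'
  set a₀ : ℤ := ⌊-γ⌋
  set M := mset (γ * ((r' : ℝ) - q')) L
  set W : ℤ → Finset ℤ := fun m => {a ∈ Ico a₀ (a₀ + 2 * (d * q' : ℕ)) | (q' : ℤ) ∣ a * r' - m}
  have hcover : ES γ δ B A P (d * q') ∩ ES γ δ' B' A' P' (d * r') ⊆
      ⋃ p ∈ M.sigma W, (if Phi B A P p.2 ∧ Phi B' A' P' ((p.2 * r' - p.1) / q') then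
        bl γ δ (d * q') p.2 ∩ bl γ δ' (d * r') ((p.2 * r' - p.1) / q') else ∅) := by
    rintro x ⟨⟨⟨hx0, hx1⟩, a, hPa, ha⟩, ⟨-, b, hPb, hb⟩⟩
    simp only [bl, Set.mem_ofPred_eq] at ha hb
    simp only [Set.mem_iUnion]
    set m : ℤ := a * r' - b * q' with hm
    have hbm : (a * r' - m) / (q' : ℤ) = b := by
      have : a * r' - m = b * q' := by rw [hm]; ring
      rw [this]
      exact Int.mul_ediv_cancel b (by exact_mod_cast hq'.ne')
    have hmM : m ∈ M := by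
      rw [mem_mset]
      have e : (m : ℝ) + γ * ((r' : ℝ) - q') =
          q' * (((d * r' : ℕ) : ℝ) * x - b - γ) - r' * (((d * q' : ℕ) : ℝ) * x - a - γ) := by
        rw [hm]; push_cast; ring
      rw [e]
      have hq'R : (0 : ℝ) < q' := by exact_mod_cast hq'
      have hr'R : (0 : ℝ) < r' := by exact_mod_cast hr'
      calc |(q' : ℝ) * (((d * r' : ℕ) : ℝ) * x - b - γ) - r' * (((d * q' : ℕ) : ℝ) * x - a - γ)|
          ≤ |(q' : ℝ) * (((d * r' : ℕ) : ℝ) * x - b - γ)| + |r' * (((d * q' : ℕ) : ℝ) * x - a - γ)| :=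
            abs_sub _ _
        _ = q' * |((d * r' : ℕ) : ℝ) * x - b - γ| + r' * |((d * q' : ℕ) : ℝ) * x - a - γ| := by
            rw [abs_mul, abs_mul, abs_of_pos hq'R, abs_of_pos hr'R]
        _ < q' * δ' + r' * δ := by
            have h1 : (q' : ℝ) * |((d * r' : ℕ) : ℝ) * x - b - γ| < q' * δ' := by gcongr
            have h2 : (r' : ℝ) * |((d * q' : ℕ) : ℝ) * x - a - γ| < r' * δ := by gcongr
            linarith
        _ = L := by simp only [L]; ring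
    have haW : a ∈ W m := by
      simp only [W, mem_filter, mem_Ico]
      refine ⟨?_, ?_⟩
      · rw [abs_lt] at ha
        have hf1 := Int.floor_le (-γ)
        have hf2 := Int.lt_floor_add_one (-γ)
        have hdq : (0 : ℝ) < ((d * q' : ℕ) : ℝ) := by exact_mod_cast hqq
        have hx0' : 0 ≤ ((d * q' : ℕ) : ℝ) * x := by positivity
        have hx1' : ((d * q' : ℕ) : ℝ) * x < ((d * q' : ℕ) : ℝ) := by nlinarith
        have hdq2 : (2 : ℝ) ≤ ((d * q' : ℕ) : ℝ) := by exact_mod_cast hq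
        constructor
        · have : ((a₀ - 1 : ℤ) : ℝ) < a := by
            push_cast
            simp only [a₀]
            linarith
          have : a₀ - 1 < a := by exact_mod_cast this
          omega
        · have : (a : ℝ) < ((a₀ + 2 * (d * q' : ℕ) : ℤ) : ℝ) := by
            push_cast
            push_cast at hx1' hdq2 ha
            simp only [a₀]
            linarith
          exact_mod_cast this
      · exact ⟨b, by rw [hm]; ring⟩
    refine ⟨⟨m, a⟩, ?_, ?_⟩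
    · rw [Finset.mem_sigma]; exact ⟨hmM, haW⟩
    · rw [hbm, if_pos ⟨hPa, hPb⟩]
      exact ⟨ha, hb⟩
  have hfin : volume (⋃ p ∈ M.sigma W, (if Phi B A P p.2 ∧ Phi B' A' P' ((p.2 * r' - p.1) / q') then
        bl γ δ (d * q') p.2 ∩ bl γ δ' (d * r') ((p.2 * r' - p.1) / q') else ∅)) ≠ ⊤ := by
    apply ne_of_lt
    refine (measure_biUnion_finset_le _ _).trans_lt ?_
    apply ENNReal.sum_lt_top.mpr
    intro p _
    split_ifs
    · exact lt_of_le_of_lt (measure_mono Set.inter_subset_left)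
        (lt_top_iff_ne_top.mpr (bl_fin γ δ hqq _))
    · simp
  calc volume.real (ES γ δ B A P (d * q') ∩ ES γ δ' B' A' P' (d * r'))
      ≤ volume.real (⋃ p ∈ M.sigma W, (if Phi B A P p.2 ∧ Phi B' A' P' ((p.2 * r' - p.1) / q') then
        bl γ δ (d * q') p.2 ∩ bl γ δ' (d * r') ((p.2 * r' - p.1) / q') else ∅)) :=
        measureReal_mono hcover hfin
    _ ≤ ∑ p ∈ M.sigma W, volume.real (if Phi B A P p.2 ∧ Phi B' A' P' ((p.2 * r' - p.1) / q') then
        bl γ δ (d * q') p.2 ∩ bl γ δ' (d * r') ((p.2 * r' - p.1) / q') else ∅) :=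
        measureReal_biUnion_finset_le _ _
    _ ≤ ∑ p ∈ M.sigma W, min (2 * δ / (d * q' : ℕ)) (2 * δ' / (d * r' : ℕ)) *
          (ind (Phi B A P p.2) * ind (Phi B' A' P' ((p.2 * r' - p.1) / q'))) := by
        refine Finset.sum_le_sum fun p _ => ?_
        by_cases h1 : Phi B A P p.2
        · by_cases h2 : Phi B' A' P' ((p.2 * r' - p.1) / q')
          · rw [if_pos ⟨h1, h2⟩]
            simp only [ind, h1, h2, if_true, mul_one]
            apply le_min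
            · rw [← bl_vol γ hδ hqq p.2]
              exact measureReal_mono Set.inter_subset_left (bl_fin γ δ hqq _)
            · rw [← bl_vol γ hδ' hrr ((p.2 * r' - p.1) / q')]
              exact measureReal_mono Set.inter_subset_right (bl_fin γ δ' hrr _)
          · rw [if_neg (fun h => h2 h.2)]
            simp [ind, h2]
        · rw [if_neg (fun h => h1 h.1)]
          simp [ind, h1]
    _ = _ := by
        rw [← Finset.mul_sum, Finset.sum_sigma]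
        rfl

/-- the inner count is exactly `2 d` without restriction -/
lemma card_window (q' r' d : ℕ) (hq' : 0 < q') (hcop : Nat.Coprime q' r') (a₀ m : ℤ) :
    #{a ∈ Ico a₀ (a₀ + 2 * (d * q' : ℕ)) | (q' : ℤ) ∣ a * r' - m} = 2 * d := by
  obtain ⟨u, v, hdet⟩ : ∃ u v : ℤ, u * r' - v * q' = 1 := by
    have h : IsCoprime (r' : ℤ) (q' : ℤ) := by
      rw [Nat.isCoprime_iff_coprime]; exact hcop.symm
    obtain ⟨x, y, hxy⟩ := h
    exact ⟨x, -y, by linear_combination hxy⟩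
  have h := inner_param q' r' d hq' u v hdet a₀ m (fun _ _ => 1)
  simp only [Finset.sum_const, nsmul_eq_mul, mul_one, Int.card_Ico] at h
  have h2 : (((-((u * m - a₀) / (q' : ℤ)) + 2 * (d : ℕ) - -((u * m - a₀) / (q' : ℤ))).toNat : ℕ) : ℝ)
      = ((2 * d : ℕ) : ℝ) := by
    congr 1
    have : -((u * m - a₀) / (q' : ℤ)) + 2 * ((d : ℕ) : ℤ) - -((u * m - a₀) / (q' : ℤ)) = ((2 * d : ℕ) : ℤ) := by
      push_cast; ring
    rw [this, Int.toNat_natCast]
  rw [h2] at h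
  exact_mod_cast h

lemma inner_le (q' r' d : ℕ) (hq' : 0 < q') (hcop : Nat.Coprime q' r') (a₀ m : ℤ)
    (F G : ℤ → ℝ) (hF0 : ∀ a, 0 ≤ F a) (hF1 : ∀ a, F a ≤ 1) (hG1 : ∀ a, G a ≤ 1) :
    ∑ a ∈ Ico a₀ (a₀ + 2 * (d * q' : ℕ)) with (q' : ℤ) ∣ a * r' - m,
      F a * G ((a * r' - m) / q') ≤ 2 * d := by
  calc _ ≤ ∑ a ∈ Ico a₀ (a₀ + 2 * (d * q' : ℕ)) with (q' : ℤ) ∣ a * r' - m, (1 : ℝ) := by
        refine Finset.sum_le_sum fun a _ => ?_
        calc F a * G ((a * r' - m) / q') ≤ F a * 1 := by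
              have := hF0 a
              have := hG1 ((a * r' - m) / q')
              gcongr
          _ ≤ 1 := by rw [mul_one]; exact hF1 a
    _ = 2 * d := by
        rw [Finset.sum_const, card_window q' r' d hq' hcop]
        simp

lemma NN_le_card (γ L : ℝ) (q' r' d : ℕ) (hq' : 0 < q') (hcop : Nat.Coprime q' r')
    (F G : ℤ → ℝ) (hF0 : ∀ a, 0 ≤ F a) (hF1 : ∀ a, F a ≤ 1) (hG1 : ∀ a, G a ≤ 1) :
    NN γ L q' r' d F G ≤ 2 * d * #(mset (γ * ((r' : ℝ) - q')) L) := by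
  unfold NN
  calc _ ≤ ∑ m ∈ mset (γ * ((r' : ℝ) - q')) L, (2 * d : ℝ) := by
        refine Finset.sum_le_sum fun m _ => ?_
        exact inner_le q' r' d hq' hcop _ m F G hF0 hF1 hG1
    _ = _ := by rw [Finset.sum_const, nsmul_eq_mul]; ring

/-- trivial bound for `L ≥ 1/2` -/
lemma NN_le_big (γ L : ℝ) (hL : 1 / 2 ≤ L) (q' r' d : ℕ) (hq' : 0 < q')
    (hcop : Nat.Coprime q' r')
    (F G : ℤ → ℝ) (hF0 : ∀ a, 0 ≤ F a) (hF1 : ∀ a, F a ≤ 1) (hG1 : ∀ a, G a ≤ 1) :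
    NN γ L q' r' d F G ≤ 8 * (d * L) := by
  have h1 := NN_le_card γ L q' r' d hq' hcop F G hF0 hF1 hG1
  have h2 := card_mset_le (t := γ * ((r' : ℝ) - q')) (L := L) (by linarith)
  have hd : (0 : ℝ) ≤ d := Nat.cast_nonneg d
  calc NN γ L q' r' d F G ≤ 2 * d * #(mset (γ * ((r' : ℝ) - q')) L) := h1
    _ ≤ 2 * d * (2 * L + 1) := by gcongr
    _ ≤ 2 * d * (4 * L) := by gcongr; linarith
    _ = 8 * (d * L) := by ring

/-- sieve bound -/
lemma NN_le_sieve (γ L : ℝ) (q' r' d Q : ℕ) (hq' : 0 < q') (hr' : 0 < r') (hd : 0 < d)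
    (hQ : 0 < Q) (hLQ : (Q : ℝ) ≤ L) (hcop : Nat.Coprime q' r')
    (F G F1 G1 : ℤ → ℝ) (hF0 : ∀ a, 0 ≤ F a) (hG0 : ∀ a, 0 ≤ G a)
    (hFF : ∀ a, F a ≤ F1 a) (hGG : ∀ a, G a ≤ G1 a)
    (hF : ∀ x, F1 (x + Q) = F1 x) (hG : ∀ x, G1 (x + Q) = G1 x)
    (hF' : ∀ x, F1 (x + (d * q' : ℕ)) = F1 x) (hG' : ∀ x, G1 (x + (d * r' : ℕ)) = G1 x) :
    NN γ L q' r' d F G ≤
      8 * (d * L) * (((∑ a ∈ Ico (0 : ℤ) Q, F1 a) / Q) * ((∑ b ∈ Ico (0 : ℤ) Q, G1 b) / Q)) := by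
  have hQR : (0 : ℝ) < Q := by exact_mod_cast hQ
  have hQ1 : (1 : ℝ) ≤ Q := by exact_mod_cast hQ
  have hL0 : 0 ≤ L := by linarith
  have hF10 : ∀ a, 0 ≤ F1 a := fun a => (hF0 a).trans (hFF a)
  have hG10 : ∀ a, 0 ≤ G1 a := fun a => (hG0 a).trans (hGG a)
  set t : ℝ := γ * ((r' : ℝ) - q')
  set m₀ : ℤ := ⌊-t - L⌋
  set j : ℕ := ⌊(2 * L + 1) / Q⌋₊ + 1
  have hj1 : 2 * L + 1 < j * Q := by
    have := Nat.lt_floor_add_one ((2 * L + 1) / Q)
    rw [div_lt_iff₀ hQR] at this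
    simp only [j]; push_cast; exact this
  have hj2 : (j : ℝ) * Q ≤ 4 * L := by
    have : (⌊(2 * L + 1) / Q⌋₊ : ℝ) ≤ (2 * L + 1) / Q := Nat.floor_le (by positivity)
    rw [le_div_iff₀ hQR] at this
    simp only [j]; push_cast
    nlinarith
  have hsub : mset t L ⊆ Ico m₀ (m₀ + (j * Q : ℕ)) := by
    intro m hm
    rw [mem_mset, abs_lt] at hm
    rw [mem_Ico]
    have hf1 := Int.floor_le (-t - L)
    have hf2 := Int.lt_floor_add_one (-t - L)
    constructor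
    · have : ((m₀ : ℤ) : ℝ) ≤ m := by simp only [m₀]; linarith
      exact_mod_cast this
    · have : (m : ℝ) < ((m₀ + (j * Q : ℕ) : ℤ) : ℝ) := by
        push_cast; simp only [m₀]; linarith
      exact_mod_cast this
  have hpc := pair_count q' r' d Q hq' hr' hd hQ hcop F1 G1 hF hG hF' hG' ⌊-γ⌋ m₀ j
  set SF := ∑ a ∈ Ico (0 : ℤ) Q, F1 a
  set SG := ∑ b ∈ Ico (0 : ℤ) Q, G1 b
  have hSF : 0 ≤ SF := Finset.sum_nonneg fun a _ => hF10 a
  have hSG : 0 ≤ SG := Finset.sum_nonneg fun a _ => hG10 a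
  have hnn : ∀ m : ℤ, 0 ≤ ∑ a ∈ Ico ⌊-γ⌋ (⌊-γ⌋ + 2 * (d * q' : ℕ)) with (q' : ℤ) ∣ a * r' - m,
        F1 a * G1 ((a * r' - m) / q') :=
    fun m => Finset.sum_nonneg fun a _ => mul_nonneg (hF10 _) (hG10 _)
  calc NN γ L q' r' d F G
      ≤ ∑ m ∈ mset t L, ∑ a ∈ Ico ⌊-γ⌋ (⌊-γ⌋ + 2 * (d * q' : ℕ)) with (q' : ℤ) ∣ a * r' - m,
        F1 a * G1 ((a * r' - m) / q') := by
        unfold NN
        refine Finset.sum_le_sum fun m _ => Finset.sum_le_sum fun a _ => ?_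
        exact mul_le_mul (hFF _) (hGG _) (hG0 _) (hF10 _)
    _ ≤ ∑ m ∈ Ico m₀ (m₀ + (j * Q : ℕ)),
        ∑ a ∈ Ico ⌊-γ⌋ (⌊-γ⌋ + 2 * (d * q' : ℕ)) with (q' : ℤ) ∣ a * r' - m,
        F1 a * G1 ((a * r' - m) / q') :=
        Finset.sum_le_sum_of_subset_of_nonneg hsub fun m _ _ => hnn m
    _ = 2 * d * (j * Q) * ((SF / Q) * (SG / Q)) := by
        field_simp
        linear_combination hpc
    _ ≤ 2 * d * (4 * L) * ((SF / Q) * (SG / Q)) := by gcongr
    _ = _ := by ring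

/-- small `L`: only non-exact coincidences survive -/
lemma NN_le_small (γ L : ℝ) (hL : L ≤ 1 / 2) (q' r' d : ℕ) (hq' : 0 < q') (hqr : q' < r')
    (hd : 0 < d) (hcop : Nat.Coprime q' r') (F : ℤ → ℝ) (hF0 : ∀ a, 0 ≤ F a)
    (hF1 : ∀ a, F a ≤ 1) (B A : ℤ) (hAB : IsCoprime A B) (P : Finset ℕ)
    (hP : ∀ p : ℕ, p.Prime → p ∣ d * r' → ¬ (p : ℤ) ∣ B → p ∈ P) :
    NN γ L q' r' d F (fun b => ind (Phi B A P b)) ≤
      2 * d * (open Classical in
        if ∃ m : ℤ, |(m : ℝ) + γ * ((r' : ℝ) - q')| < L ∧ B * m + A * ((r' : ℤ) - q') ≠ 0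
        then 1 else 0) := by
  classical
  have hcard := card_mset_le_one (t := γ * ((r' : ℝ) - q')) hL
  have hbase := NN_le_card γ L q' r' d hq' hcop F (fun b => ind (Phi B A P b)) hF0 hF1
    (fun b => ind_le_one _)
  split_ifs with hex
  · refine hbase.trans ?_
    have : (#(mset (γ * ((r' : ℝ) - q')) L) : ℝ) ≤ 1 := by exact_mod_cast hcard
    have hd' : (0 : ℝ) ≤ d := Nat.cast_nonneg d
    gcongr
  · rw [mul_zero]
    unfold NN
    apply le_of_eq
    apply Finset.sum_eq_zero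
    intro m hm
    rw [mem_mset] at hm
    apply Finset.sum_eq_zero
    intro a ha
    rw [mem_filter] at ha
    obtain ⟨-, b, hb⟩ := ha
    have hexact : B * m + A * ((r' : ℤ) - q') = 0 := by
      by_contra hne
      exact hex ⟨m, hm, hne⟩
    have hq0 : (q' : ℤ) ≠ 0 := by exact_mod_cast hq'.ne'
    have hdiv : (a * r' - m) / (q' : ℤ) = b := by
      rw [hb, Int.mul_ediv_cancel_left _ hq0]
    rw [hdiv]
    have hnot : ¬ Phi B A P b := by
      intro hphi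
      have hr1 : r' ≠ 1 := by omega
      obtain ⟨p, hp, hpr⟩ := Nat.exists_prime_and_dvd hr1
      -- r' ∣ B b + A
      have hrel : (B * a + A) * r' = (B * b + A) * q' := by
        linear_combination hexact + B * hb
      have hcopz : IsCoprime (r' : ℤ) (q' : ℤ) := by
        rw [Nat.isCoprime_iff_coprime]; exact hcop.symm
      have hrdvd : (r' : ℤ) ∣ B * b + A := by
        apply hcopz.dvd_of_dvd_mul_right
        rw [← hrel]
        exact Dvd.intro_left _ rfl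
      have hpdvd : (p : ℤ) ∣ B * b + A := (Int.natCast_dvd_natCast.mpr hpr).trans hrdvd
      by_cases hpB : (p : ℤ) ∣ B
      · have hpA : (p : ℤ) ∣ A := by
          have := dvd_sub hpdvd (hpB.mul_right b)
          simpa using this
        have := hAB.isUnit_of_dvd' hpA hpB
        rw [Int.isUnit_iff] at this
        have := hp.two_le
        omega
      · exact hphi p (hP p hp (hpr.mul_left d) hpB) hpdvd
    simp [ind, hnot]

end Vale.Agent.P028
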