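import Vale.Agent.Lib.P028.SumFour

/-!
Sum of the overlaps of the fourth type with exceptional gcd.
-/

open Finset

namespace Vale.Agent.P028

/-- near coincidences of the pair with parameters `h`, `Z` which are not exact -/
def NCc (γ Z : ℝ) (A : ℤ) (B : ℕ) (h : ℕ) : Prop :=
  ∃ m : ℤ, |(m : ℝ) + γ * h| < Z ∧ (B : ℤ) * m + A * h ≠ 0

lemma sum_bad : ∃ C : ℝ, 0 < C ∧ ∀ (γ : ℝ) (x : ℕ), 0 < x → ∀ (A : ℤ) (B : ℕ), 0 < B →
    IsCoprime A (B : ℤ) → (B : ℝ) ≤ w x ^ 20 → |B * γ - A| ≤ (w x ^ 8)⁻¹ →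
    ∀ Q : Finset ℕ, (∀ y ∈ Q, 0 < y) →
    (∀ y ∈ Q, (sg x ≤ sg (Nat.gcd x y) ^ 2 ∨ sg x ^ 80 ≤ (Nat.gcd x y : ℝ)) ∧
      ∃ h : ℕ, 1 ≤ h ∧ (h : ℝ) ≤ xq x y * (w (Nat.gcd x y) ^ 2 * sg x ^ 4) ∧
        (x / Nat.gcd x y = y / Nat.gcd x y + h ∨ y / Nat.gcd x y = x / Nat.gcd x y + h) ∧
        NCc γ (2 * w (Nat.gcd x y) ^ 2 * sg x ^ 4 * (Nat.gcd x y : ℝ)⁻¹) A B h) →
    ∑ y ∈ Q, (xq x y)⁻¹ ≤ C * (sg x)⁻¹ := by
  classical
  obtain ⟨C', hC1', hC'⟩ := sg_pow_le_w 20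
  refine ⟨72 * C', by positivity, fun γ x hx A B hB hAB hB1 hθ1 Q hQ hcond => ?_⟩
  obtain ⟨N, hN⟩ : ∃ N : ℕ, ∀ y ∈ Q, y ≤ N := ⟨Q.sup id, fun y hy => Finset.le_sup (f := id) hy⟩
  have hsx := one_le_sg hx
  set θ : ℝ := |B * γ - A| with hθ
  have hθ0 : 0 ≤ θ := abs_nonneg _
  have hBR : (0 : ℝ) < B := by exact_mod_cast hB
  have hwx := one_le_w hx
  set pr : ℕ → ℕ → Prop := fun d n => ∃ h : ℕ, 1 ≤ h ∧
        (h : ℝ) ≤ ((x / d : ℕ) : ℝ) * (w d ^ 2 * sg x ^ 4) ∧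
        (x / d = n + h ∨ n = x / d + h) ∧
        NCc γ (2 * w d ^ 2 * sg x ^ 4 * (d : ℝ)⁻¹) A B h with hpr
  set g : ℕ → ℕ → ℝ := fun d n => (2 * sg d ^ 20 * w d ^ 4 * (sg x ^ 10)⁻¹) *
    ((x / d : ℕ) : ℝ)⁻¹ * (if pr d n then 1 else 0) with hg
  have hg0 : ∀ d n, 0 ≤ g d n := by
    intro d n
    simp only [hg]
    have h2 := sg_nonneg d
    have h3 := w_nonneg d
    have e2 : (0 : ℝ) ≤ (if pr d n then 1 else 0) := by split_ifs <;> norm_num
    positivity
  calc ∑ y ∈ Q, (xq x y)⁻¹ ≤ ∑ d ∈ x.divisors, ∑ n ∈ Ioc 0 N, g d n := by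
        apply sum_gcd_le hx Q hQ _ g hg0 N hN
        intro y hy
        obtain ⟨h1, h2⟩ := hcond y hy
        simp only [hg]
        have hpry : pr (Nat.gcd x y) (y / Nat.gcd x y) := h2
        rw [if_pos hpry]
        set d := Nat.gcd x y with hd
        have hd0 : 0 < d := Nat.gcd_pos_of_pos_left _ hx
        have hx'0 : 0 < x / d := Nat.div_pos (Nat.le_of_dvd hx (Nat.gcd_dvd_left x y)) hd0
        have hx'R : (0 : ℝ) < ((x / d : ℕ) : ℝ) := by exact_mod_cast hx'0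
        have hxqe : (xq x y)⁻¹ = ((x / d : ℕ) : ℝ)⁻¹ := rfl
        rw [hxqe]
        have hsd := one_le_sg hd0
        have hwd := one_le_w hd0
        have hwt : sg x ^ 10 ≤ 2 * sg d ^ 20 * w d ^ 4 := by
          have hs20 : 1 ≤ sg d ^ 20 := one_le_pow₀ hsd
          have hw4 : 1 ≤ w d ^ 4 := one_le_pow₀ hwd
          rcases h1 with h1 | h1
          · calc sg x ^ 10 ≤ (sg d ^ 2) ^ 10 := by gcongr
              _ = sg d ^ 20 * 1 := by ring
              _ ≤ sg d ^ 20 * w d ^ 4 := by gcongr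
              _ ≤ 2 * sg d ^ 20 * w d ^ 4 := by nlinarith
          · have : sg x ^ 10 ≤ w d ^ 4 := by
              apply le_of_pow_le_pow_left₀ (n := 8) (by norm_num) (by positivity)
              rw [← pow_mul, ← pow_mul]
              calc sg x ^ (10 * 8) = sg x ^ 80 := by norm_num
                _ ≤ (d : ℝ) := h1
                _ = w d ^ 32 := (w_pow d).symm
                _ = _ := by norm_num
            nlinarith
        have hwt' : 1 ≤ 2 * sg d ^ 20 * w d ^ 4 * (sg x ^ 10)⁻¹ := by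
          rw [← div_eq_mul_inv, le_div_iff₀ (by positivity), one_mul]
          exact hwt
        calc ((x / d : ℕ) : ℝ)⁻¹ = 1 * ((x / d : ℕ) : ℝ)⁻¹ * 1 := by ring
          _ ≤ (2 * sg d ^ 20 * w d ^ 4 * (sg x ^ 10)⁻¹) * ((x / d : ℕ) : ℝ)⁻¹ * 1 := by gcongr
    _ ≤ ∑ d ∈ x.divisors, 72 * C' * (sg x ^ 2)⁻¹ * (w d)⁻¹ := by
        refine Finset.sum_le_sum fun d hd => ?_
        have hd0 : 0 < d := Nat.pos_of_mem_divisors hd
        have hdR : (0 : ℝ) < d := by exact_mod_cast hd0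
        have hd1 : (1 : ℝ) ≤ d := by exact_mod_cast hd0
        have hdx : d ≤ x := Nat.divisor_le hd
        have hx'0 : 0 < x / d := Nat.div_pos (Nat.divisor_le hd) hd0
        have hx'R : (0 : ℝ) < ((x / d : ℕ) : ℝ) := by exact_mod_cast hx'0
        have hxd : ((x / d : ℕ) : ℝ) * d = w x ^ 32 := by
          rw [w_pow]
          have := Nat.div_mul_cancel (Nat.dvd_of_mem_divisors hd)
          exact_mod_cast this
        have hwd := one_le_w hd0
        have hsd := one_le_sg hd0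
        have hwdx : w d ≤ w x := w_mono hdx
        set X : ℝ := ((x / d : ℕ) : ℝ) with hX
        set Z : ℝ := 2 * w d ^ 2 * sg x ^ 4 * (d : ℝ)⁻¹ with hZ
        set H : ℝ := X * (w d ^ 2 * sg x ^ 4) with hH
        have hH0 : 0 ≤ H := by positivity
        have hZ0 : 0 ≤ Z := by positivity
        simp only [hg]
        rw [← Finset.mul_sum]
        -- the count
        have hcount : ∑ n ∈ Ioc 0 N, (if pr d n then (1 : ℝ) else 0) ≤
            2 * (6 * Z * H + 2 * B * Z + 2 * θ * H) := by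
          set S : Finset ℕ := (Ioc 0 ⌊H⌋₊).filter (fun h => NCc γ Z A B h) with hS
          have hScard : (#S : ℝ) ≤ 6 * Z * H + 2 * B * Z + 2 * θ * H := by
            apply nc_count γ Z hZ0 A B hB hAB H hH0 S
            intro h hh
            rw [hS, mem_filter, mem_Ioc] at hh
            refine ⟨hh.1.1, ?_, hh.2⟩
            calc (h : ℝ) ≤ ⌊H⌋₊ := by exact_mod_cast hh.1.2
              _ ≤ H := Nat.floor_le hH0
          have hsub : (Ioc 0 N).filter (fun n => pr d n) ⊆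
              S.image (fun h => x / d - h) ∪ S.image (fun h => x / d + h) := by
            intro n hn
            rw [mem_filter] at hn
            obtain ⟨-, h, hh1, hh2, hh3, hh4⟩ := hn
            have hhS : h ∈ S := by
              rw [hS, mem_filter, mem_Ioc]
              exact ⟨⟨hh1, Nat.le_floor hh2⟩, hh4⟩
            rw [Finset.mem_union, Finset.mem_image, Finset.mem_image]
            rcases hh3 with hh3 | hh3
            · left; exact ⟨h, hhS, by omega⟩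
            · right; exact ⟨h, hhS, hh3.symm⟩
          have hcard := (Finset.card_le_card hsub).trans ((Finset.card_union_le _ _).trans
            (add_le_add Finset.card_image_le Finset.card_image_le))
          rw [← Finset.sum_filter]
          have hcard' : (#((Ioc 0 N).filter (fun n => pr d n)) : ℝ) ≤ (#S : ℝ) + #S := by
            exact_mod_cast hcard
          rw [Finset.sum_const, nsmul_eq_mul, mul_one]
          linarith
        have hsd20 := hC' d hd0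
        have hθ1' : θ ≤ (w x ^ 8)⁻¹ := hθ1
        have hwd0 : 0 < w d := by positivity
        have hwx0 : 0 < w x := by positivity
        have hsx0 : 0 < sg x := by positivity
        have hdw : (d : ℝ)⁻¹ = (w d ^ 32)⁻¹ := by rw [w_pow]
        -- the three terms
        have t1 : X⁻¹ * (6 * Z * H) = 12 * w d ^ 4 * sg x ^ 8 * (w d ^ 32)⁻¹ := by
          rw [← hdw, hZ, hH]
          field_simp
          norm_num
        have t2 : X⁻¹ * (2 * B * Z) ≤ 4 * w d ^ 2 * sg x ^ 4 * (w x ^ 8)⁻¹ := by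
          calc X⁻¹ * (2 * B * Z) = 4 * B * (w d ^ 2 * sg x ^ 4) * (X * d)⁻¹ := by
                rw [hZ]; field_simp; norm_num
            _ = 4 * B * (w d ^ 2 * sg x ^ 4) * (w x ^ 32)⁻¹ := by rw [hxd]
            _ ≤ 4 * w x ^ 20 * (w d ^ 2 * sg x ^ 4) * (w x ^ 32)⁻¹ := by gcongr
            _ = 4 * (w d ^ 2 * sg x ^ 4) * (w x ^ 12)⁻¹ := by field_simp
            _ ≤ 4 * (w d ^ 2 * sg x ^ 4) * (w x ^ 8)⁻¹ := by
                gcongr
                norm_num
            _ = _ := by ring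
        have t3 : X⁻¹ * (2 * θ * H) ≤ 2 * w d ^ 2 * sg x ^ 4 * (w x ^ 8)⁻¹ := by
          calc X⁻¹ * (2 * θ * H) = 2 * θ * (w d ^ 2 * sg x ^ 4) := by
                rw [hH]; field_simp
            _ ≤ 2 * (w x ^ 8)⁻¹ * (w d ^ 2 * sg x ^ 4) := by gcongr
            _ = _ := by ring
        have hwx8 : (w x ^ 8)⁻¹ ≤ (w d ^ 8)⁻¹ := by gcongr
        have ttot : X⁻¹ * (2 * (6 * Z * H + 2 * B * Z + 2 * θ * H)) ≤
            36 * w d ^ 2 * sg x ^ 8 * (w d ^ 8)⁻¹ := by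
          have e1 : 12 * w d ^ 4 * sg x ^ 8 * (w d ^ 32)⁻¹ ≤ 12 * w d ^ 2 * sg x ^ 8 * (w d ^ 8)⁻¹ := by
            calc 12 * w d ^ 4 * sg x ^ 8 * (w d ^ 32)⁻¹
                = 12 * w d ^ 2 * sg x ^ 8 * (w d ^ 30)⁻¹ := by field_simp
              _ ≤ _ := by
                gcongr
                norm_num
          have e2 : 4 * w d ^ 2 * sg x ^ 4 * (w x ^ 8)⁻¹ ≤ 4 * w d ^ 2 * sg x ^ 8 * (w d ^ 8)⁻¹ := by
            gcongr
            norm_num
          have e3 : 2 * w d ^ 2 * sg x ^ 4 * (w x ^ 8)⁻¹ ≤ 2 * w d ^ 2 * sg x ^ 8 * (w d ^ 8)⁻¹ := by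
            gcongr
            norm_num
          calc X⁻¹ * (2 * (6 * Z * H + 2 * B * Z + 2 * θ * H))
              = 2 * (X⁻¹ * (6 * Z * H) + X⁻¹ * (2 * B * Z) + X⁻¹ * (2 * θ * H)) := by ring
            _ ≤ 2 * (12 * w d ^ 2 * sg x ^ 8 * (w d ^ 8)⁻¹ + 4 * w d ^ 2 * sg x ^ 8 * (w d ^ 8)⁻¹ +
                  2 * w d ^ 2 * sg x ^ 8 * (w d ^ 8)⁻¹) := by
                rw [t1]
                have := t2.trans e2
                have := t3.trans e3
                gcongr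
            _ = _ := by ring
        calc 2 * sg d ^ 20 * w d ^ 4 * (sg x ^ 10)⁻¹ * X⁻¹ *
              ∑ n ∈ Ioc 0 N, (if pr d n then (1 : ℝ) else 0)
            ≤ 2 * sg d ^ 20 * w d ^ 4 * (sg x ^ 10)⁻¹ * X⁻¹ *
              (2 * (6 * Z * H + 2 * B * Z + 2 * θ * H)) := by gcongr
          _ = 2 * sg d ^ 20 * w d ^ 4 * (sg x ^ 10)⁻¹ *
              (X⁻¹ * (2 * (6 * Z * H + 2 * B * Z + 2 * θ * H))) := by ring
          _ ≤ 2 * (C' * w d) * w d ^ 4 * (sg x ^ 10)⁻¹ * (36 * w d ^ 2 * sg x ^ 8 * (w d ^ 8)⁻¹) := by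
              gcongr
          _ = 72 * C' * (sg x ^ 2)⁻¹ * (w d)⁻¹ := by field_simp; norm_num
    _ = 72 * C' * (sg x ^ 2)⁻¹ * sg x := by
        rw [← Finset.mul_sum]; rfl
    _ = _ := by
        have : sg x ≠ 0 := by positivity
        field_simp

end Vale.Agent.P028
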