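import Vale.Agent.Lib.P028.SumTwo

/-!
Sums of the overlaps of the third and fourth type.
-/

open Finset

namespace Vale.Agent.P028

/-- first component after division by the gcd -/
noncomputable def xq (x y : ℕ) : ℝ := ((x / Nat.gcd x y : ℕ) : ℝ)

/-- second component after division by the gcd -/
noncomputable def yq (x y : ℕ) : ℝ := ((y / Nat.gcd x y : ℕ) : ℝ)

lemma sum_three : ∃ C : ℝ, 0 < C ∧ ∀ x : ℕ, 0 < x → ∀ Q : Finset ℕ, (∀ y ∈ Q, 0 < y) →
    (∀ y ∈ Q, yq x y ≤ xq x y * ((w (Nat.gcd x y))⁻¹ * (sg x ^ 2)⁻¹)) →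
    ∑ y ∈ Q, (xq x y)⁻¹ ≤ C * (sg x)⁻¹ := by
  obtain ⟨C, hC1, hC⟩ := moment_cut 0
  refine ⟨C, by positivity, fun x hx Q hQ hcond => ?_⟩
  obtain ⟨N, hN⟩ : ∃ N : ℕ, ∀ y ∈ Q, y ≤ N := ⟨Q.sup id, fun y hy => Finset.le_sup (f := id) hy⟩
  have hsx := one_le_sg hx
  set g : ℕ → ℕ → ℝ := fun d n => ((x / d : ℕ) : ℝ)⁻¹ *
    (if (n : ℝ) ≤ ((x / d : ℕ) : ℝ) * ((w d)⁻¹ * (sg x ^ 2)⁻¹) then sg n ^ 0 else 0) with hg
  have hg0 : ∀ d n, 0 ≤ g d n := by
    intro d n
    simp only [hg]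
    have : (0 : ℝ) ≤ (if (n : ℝ) ≤ ((x / d : ℕ) : ℝ) * ((w d)⁻¹ * (sg x ^ 2)⁻¹)
      then sg n ^ 0 else 0) := by split_ifs <;> simp
    positivity
  calc ∑ y ∈ Q, (xq x y)⁻¹ ≤ ∑ d ∈ x.divisors, ∑ n ∈ Ioc 0 N, g d n := by
        apply sum_gcd_le hx Q hQ _ g hg0 N hN
        intro y hy
        have h := hcond y hy
        simp only [hg]
        unfold xq yq at h
        rw [if_pos h]
        simp [xq]
    _ ≤ ∑ d ∈ x.divisors, C * (sg x ^ 2)⁻¹ * (w d)⁻¹ := by
        refine Finset.sum_le_sum fun d hd => ?_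
        have hd0 : 0 < d := Nat.pos_of_mem_divisors hd
        have hx'0 : 0 < x / d := Nat.div_pos (Nat.divisor_le hd) hd0
        have hx'R : (0 : ℝ) < ((x / d : ℕ) : ℝ) := by exact_mod_cast hx'0
        have hwd := w_pos hd0
        simp only [hg]
        rw [← Finset.mul_sum]
        calc _ ≤ ((x / d : ℕ) : ℝ)⁻¹ * (C * (((x / d : ℕ) : ℝ) * ((w d)⁻¹ * (sg x ^ 2)⁻¹))) := by
              gcongr
              exact hC _ N (by positivity)
          _ = _ := by field_simp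
    _ = C * (sg x ^ 2)⁻¹ * sg x := by
        rw [← Finset.mul_sum]; rfl
    _ = _ := by
        have : sg x ≠ 0 := by positivity
        field_simp

lemma sum_far : ∃ C : ℝ, 0 < C ∧ ∀ x : ℕ, 0 < x → ∀ Q : Finset ℕ, (∀ y ∈ Q, 0 < y) →
    (∀ y ∈ Q, xq x y * (w (Nat.gcd x y) ^ 2 * sg x ^ 4) ≤ yq x y ∧
      yq x y ≤ xq x y * (w (Nat.gcd x y) * sg y ^ 2)) →
    ∑ y ∈ Q, (xq x y)⁻¹ ≤ C * (sg x)⁻¹ := by
  obtain ⟨C, hC1, hC⟩ := moment_tail 12
  obtain ⟨C', hC1', hC'⟩ := sg_pow_le_w 12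
  refine ⟨C * C', by positivity, fun x hx Q hQ hcond => ?_⟩
  obtain ⟨N, hN⟩ : ∃ N : ℕ, ∀ y ∈ Q, y ≤ N := ⟨Q.sup id, fun y hy => Finset.le_sup (f := id) hy⟩
  have hsx := one_le_sg hx
  set g : ℕ → ℕ → ℝ := fun d n => ((x / d : ℕ) : ℝ) ^ 2 * (sg d ^ 12 * (sg x ^ 12)⁻¹) *
    (if ((x / d : ℕ) : ℝ) * (w d ^ 2 * sg x ^ 4) ≤ (n : ℝ) then sg n ^ 12 * ((n : ℝ)⁻¹) ^ 3 else 0)
    with hg
  have hg0 : ∀ d n, 0 ≤ g d n := by
    intro d n
    simp only [hg]
    have h1 := sg_nonneg d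
    have h2 := sg_nonneg n
    have : (0 : ℝ) ≤ (if ((x / d : ℕ) : ℝ) * (w d ^ 2 * sg x ^ 4) ≤ (n : ℝ)
      then sg n ^ 12 * ((n : ℝ)⁻¹) ^ 3 else 0) := by split_ifs <;> positivity
    positivity
  calc ∑ y ∈ Q, (xq x y)⁻¹ ≤ ∑ d ∈ x.divisors, ∑ n ∈ Ioc 0 N, g d n := by
        apply sum_gcd_le hx Q hQ _ g hg0 N hN
        intro y hy
        obtain ⟨h1, h2⟩ := hcond y hy
        have hy0 := hQ y hy
        simp only [hg]
        unfold xq yq at h1
        rw [if_pos h1]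
        set d := Nat.gcd x y with hd
        have hd0 : 0 < d := Nat.gcd_pos_of_pos_left _ hx
        have hdR : (0 : ℝ) < d := by exact_mod_cast hd0
        have hyd : y / d * d = y := Nat.div_mul_cancel (Nat.gcd_dvd_right x y)
        have hx'0 : 0 < x / d := Nat.div_pos (Nat.le_of_dvd hx (Nat.gcd_dvd_left x y)) hd0
        have hy'0 : 0 < y / d := Nat.div_pos (Nat.le_of_dvd hy0 (Nat.gcd_dvd_right x y)) hd0
        have hx'R : (0 : ℝ) < ((x / d : ℕ) : ℝ) := by exact_mod_cast hx'0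
        have hy'R : (0 : ℝ) < ((y / d : ℕ) : ℝ) := by exact_mod_cast hy'0
        have hsplit : sg y ≤ sg d * sg (y / d) := by
          have := sg_mul_le d (y / d)
          rwa [mul_comm d (y / d), hyd] at this
        unfold xq yq at h2
        rw [← hd] at h2
        set X : ℝ := ((x / d : ℕ) : ℝ) with hX
        set Y : ℝ := ((y / d : ℕ) : ℝ) with hY
        have hxqe : (xq x y)⁻¹ = X⁻¹ := rfl
        rw [hxqe]
        have hw1 := one_le_w hd0
        have hsy := sg_nonneg y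
        have hsd := one_le_sg hd0
        have hsy' := one_le_sg hy'0
        -- main inequality
        have key : Y ^ 3 * sg x ^ 12 ≤ X ^ 3 * sg y ^ 12 := by
          have e1 : Y ^ 6 ≤ (X * (w d * sg y ^ 2)) ^ 6 := by gcongr
          have e2 : (X * (w d ^ 2 * sg x ^ 4)) ^ 3 ≤ Y ^ 3 := by gcongr
          have e3 : (X ^ 3 * w d ^ 6) * (Y ^ 3 * sg x ^ 12) ≤ (X ^ 3 * w d ^ 6) * (X ^ 3 * sg y ^ 12) := by
            calc (X ^ 3 * w d ^ 6) * (Y ^ 3 * sg x ^ 12) = Y ^ 3 * (X * (w d ^ 2 * sg x ^ 4)) ^ 3 := by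
                  ring
              _ ≤ Y ^ 3 * Y ^ 3 := by gcongr
              _ = Y ^ 6 := by ring
              _ ≤ (X * (w d * sg y ^ 2)) ^ 6 := e1
              _ = _ := by ring
          exact le_of_mul_le_mul_left e3 (by positivity)
        calc X⁻¹ = (Y ^ 3 * sg x ^ 12) * ((Y⁻¹) ^ 3 * (sg x ^ 12)⁻¹ * X⁻¹) := by
              field_simp
          _ ≤ (X ^ 3 * sg y ^ 12) * ((Y⁻¹) ^ 3 * (sg x ^ 12)⁻¹ * X⁻¹) := by gcongr
          _ ≤ (X ^ 3 * (sg d * sg (y / d)) ^ 12) * ((Y⁻¹) ^ 3 * (sg x ^ 12)⁻¹ * X⁻¹) := by gcongr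
          _ = _ := by field_simp
    _ ≤ ∑ d ∈ x.divisors, C * (sg x ^ 20)⁻¹ * (sg d ^ 12 * (w d ^ 4)⁻¹) := by
        refine Finset.sum_le_sum fun d hd => ?_
        have hd0 : 0 < d := Nat.pos_of_mem_divisors hd
        have hx'0 : 0 < x / d := Nat.div_pos (Nat.divisor_le hd) hd0
        have hx'R : (0 : ℝ) < ((x / d : ℕ) : ℝ) := by exact_mod_cast hx'0
        have hwd := w_pos hd0
        have hsd := sg_nonneg d
        simp only [hg]
        rw [← Finset.mul_sum]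
        calc _ ≤ ((x / d : ℕ) : ℝ) ^ 2 * (sg d ^ 12 * (sg x ^ 12)⁻¹) *
              (C * ((((x / d : ℕ) : ℝ) * (w d ^ 2 * sg x ^ 4))⁻¹) ^ 2) := by
              gcongr
              exact hC _ N (by positivity)
          _ = _ := by field_simp
    _ = C * (sg x ^ 20)⁻¹ * ∑ d ∈ x.divisors, sg d ^ 12 * (w d ^ 4)⁻¹ := by
        rw [← Finset.mul_sum]
    _ ≤ C * (sg x ^ 2)⁻¹ * (C' * sg x) := by
        have h20 : (sg x ^ 20)⁻¹ ≤ (sg x ^ 2)⁻¹ := by
          gcongr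
          norm_num
        have hsum : ∑ d ∈ x.divisors, sg d ^ 12 * (w d ^ 4)⁻¹ ≤ C' * sg x := by
          apply sum_divisors_le_of
          intro d hd
          have hd0 : 0 < d := Nat.pos_of_mem_divisors hd
          have hw := one_le_w hd0
          calc sg d ^ 12 * (w d ^ 4)⁻¹ ≤ (C' * w d) * (w d ^ 4)⁻¹ := by
                gcongr; exact hC' d hd0
            _ ≤ (C' * w d) * (w d ^ 2)⁻¹ := by
                gcongr
                norm_num
            _ = C' * (w d)⁻¹ := by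
                have : w d ≠ 0 := by positivity
                field_simp
        have h0 : 0 ≤ ∑ d ∈ x.divisors, sg d ^ 12 * (w d ^ 4)⁻¹ := by
          apply Finset.sum_nonneg
          intro d _
          have := sg_nonneg d
          have := w_nonneg d
          positivity
        gcongr
    _ = _ := by
        have : sg x ≠ 0 := by positivity
        field_simp

lemma sum_good : ∃ C : ℝ, 0 < C ∧ ∀ x : ℕ, 0 < x → ∀ Q : Finset ℕ, (∀ y ∈ Q, 0 < y) →
    (∀ y ∈ Q, yq x y ≤ xq x y * (w (Nat.gcd x y) ^ 2 * sg x ^ 4) ∧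
      sg (Nat.gcd x y) ^ 2 ≤ sg x ∧ (Nat.gcd x y : ℝ) ≤ sg x ^ 80 ∧ sg x ≤ sg y) →
    ∑ y ∈ Q, (xq x y)⁻¹ ≤ C * (sg x)⁻¹ := by
  obtain ⟨C, hC1, hC⟩ := moment_cut 180
  refine ⟨C, by positivity, fun x hx Q hQ hcond => ?_⟩
  obtain ⟨N, hN⟩ : ∃ N : ℕ, ∀ y ∈ Q, y ≤ N := ⟨Q.sup id, fun y hy => Finset.le_sup (f := id) hy⟩
  have hsx := one_le_sg hx
  set g : ℕ → ℕ → ℝ := fun d n => (if (d : ℝ) ≤ sg x ^ 80 then 1 else 0) *
    (((x / d : ℕ) : ℝ)⁻¹ * (sg x ^ 90)⁻¹) *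
    (if (n : ℝ) ≤ ((x / d : ℕ) : ℝ) * (w d ^ 2 * sg x ^ 4) then sg n ^ 180 else 0)
    with hg
  have hg0 : ∀ d n, 0 ≤ g d n := by
    intro d n
    simp only [hg]
    have h2 := sg_nonneg n
    have e1 : (0 : ℝ) ≤ (if (n : ℝ) ≤ ((x / d : ℕ) : ℝ) * (w d ^ 2 * sg x ^ 4)
      then sg n ^ 180 else 0) := by split_ifs <;> positivity
    have e2 : (0 : ℝ) ≤ (if (d : ℝ) ≤ sg x ^ 80 then 1 else 0) := by split_ifs <;> norm_num
    positivity
  calc ∑ y ∈ Q, (xq x y)⁻¹ ≤ ∑ d ∈ x.divisors, ∑ n ∈ Ioc 0 N, g d n := by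
        apply sum_gcd_le hx Q hQ _ g hg0 N hN
        intro y hy
        obtain ⟨h1, h2, h3, h4⟩ := hcond y hy
        have hy0 := hQ y hy
        simp only [hg]
        unfold xq yq at h1
        rw [if_pos h1, if_pos h3]
        set d := Nat.gcd x y with hd
        have hd0 : 0 < d := Nat.gcd_pos_of_pos_left _ hx
        have hyd : y / d * d = y := Nat.div_mul_cancel (Nat.gcd_dvd_right x y)
        have hx'0 : 0 < x / d := Nat.div_pos (Nat.le_of_dvd hx (Nat.gcd_dvd_left x y)) hd0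
        have hy'0 : 0 < y / d := Nat.div_pos (Nat.le_of_dvd hy0 (Nat.gcd_dvd_right x y)) hd0
        have hx'R : (0 : ℝ) < ((x / d : ℕ) : ℝ) := by exact_mod_cast hx'0
        have hsplit : sg y ≤ sg d * sg (y / d) := by
          have := sg_mul_le d (y / d)
          rwa [mul_comm d (y / d), hyd] at this
        have hxqe : (xq x y)⁻¹ = ((x / d : ℕ) : ℝ)⁻¹ := rfl
        rw [hxqe]
        have hsy' := one_le_sg hy'0
        have hsd := one_le_sg hd0
        have hle : sg x ≤ sg (y / d) ^ 2 := by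
          have e1 : sg x * sg x ≤ sg x * sg (y / d) ^ 2 := by
            calc sg x * sg x ≤ (sg d * sg (y / d)) * (sg d * sg (y / d)) := by
                  have := h4.trans hsplit
                  gcongr
              _ = sg d ^ 2 * sg (y / d) ^ 2 := by ring
              _ ≤ sg x * sg (y / d) ^ 2 := by gcongr
          exact le_of_mul_le_mul_left e1 (by positivity)
        have hwt : 1 ≤ (sg x ^ 90)⁻¹ * sg (y / d) ^ 180 := by
          rw [← div_eq_inv_mul, le_div_iff₀ (by positivity), one_mul]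
          calc sg x ^ 90 ≤ (sg (y / d) ^ 2) ^ 90 := by gcongr
            _ = _ := by rw [← pow_mul]
        calc ((x / d : ℕ) : ℝ)⁻¹ = 1 * ((x / d : ℕ) : ℝ)⁻¹ * 1 := by ring
          _ ≤ 1 * ((x / d : ℕ) : ℝ)⁻¹ * ((sg x ^ 90)⁻¹ * sg (y / d) ^ 180) := by gcongr
          _ = _ := by ring
    _ ≤ ∑ d ∈ x.divisors, C * (sg x ^ 81)⁻¹ * (if (d : ℝ) ≤ sg x ^ 80 then 1 else 0) := by
        refine Finset.sum_le_sum fun d hd => ?_
        have hd0 : 0 < d := Nat.pos_of_mem_divisors hd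
        have hx'0 : 0 < x / d := Nat.div_pos (Nat.divisor_le hd) hd0
        have hx'R : (0 : ℝ) < ((x / d : ℕ) : ℝ) := by exact_mod_cast hx'0
        have hwd := one_le_w hd0
        simp only [hg]
        rw [← Finset.mul_sum]
        by_cases hdD : (d : ℝ) ≤ sg x ^ 80
        · rw [if_pos hdD]
          have hw2 : w d ^ 2 ≤ sg x ^ 5 := by
            apply le_of_pow_le_pow_left₀ (n := 16) (by norm_num) (by positivity)
            rw [← pow_mul, ← pow_mul]
            calc w d ^ (2 * 16) = w d ^ 32 := by norm_num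
              _ = (d : ℝ) := w_pow d
              _ ≤ sg x ^ 80 := hdD
              _ = _ := by norm_num
          calc _ ≤ 1 * (((x / d : ℕ) : ℝ)⁻¹ * (sg x ^ 90)⁻¹) *
                (C * (((x / d : ℕ) : ℝ) * (w d ^ 2 * sg x ^ 4))) := by
                gcongr
                exact hC _ N (by positivity)
            _ = C * (sg x ^ 86)⁻¹ * w d ^ 2 := by
                have : sg x ≠ 0 := by positivity
                field_simp
            _ ≤ C * (sg x ^ 86)⁻¹ * sg x ^ 5 := by gcongr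
            _ = _ := by
                have : sg x ≠ 0 := by positivity
                field_simp
        · rw [if_neg hdD]; simp
    _ = C * (sg x ^ 81)⁻¹ * ∑ d ∈ x.divisors, (if (d : ℝ) ≤ sg x ^ 80 then (1 : ℝ) else 0) := by
        rw [← Finset.mul_sum]
    _ ≤ C * (sg x ^ 81)⁻¹ * sg x ^ 80 := by
        have hsum : ∑ d ∈ x.divisors, (if (d : ℝ) ≤ sg x ^ 80 then (1 : ℝ) else 0) ≤ sg x ^ 80 := by
          rw [← Finset.sum_filter]
          calc ∑ d ∈ x.divisors.filter (fun d : ℕ => (d : ℝ) ≤ sg x ^ 80), (1 : ℝ)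
              = (#(x.divisors.filter (fun d : ℕ => (d : ℝ) ≤ sg x ^ 80)) : ℝ) := by simp
            _ ≤ (#(Ioc 0 ⌊sg x ^ 80⌋₊) : ℝ) := by
                have : x.divisors.filter (fun d : ℕ => (d : ℝ) ≤ sg x ^ 80) ⊆ Ioc 0 ⌊sg x ^ 80⌋₊ := by
                  intro d hd
                  rw [mem_filter] at hd
                  rw [mem_Ioc]
                  exact ⟨Nat.pos_of_mem_divisors hd.1, Nat.le_floor hd.2⟩
                exact_mod_cast Finset.card_le_card this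
            _ = (⌊sg x ^ 80⌋₊ : ℝ) := by simp
            _ ≤ sg x ^ 80 := Nat.floor_le (by positivity)
        gcongr
    _ = _ := by
        have : sg x ≠ 0 := by positivity
        field_simp

end Vale.Agent.P028
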