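import Vale.Agent.Lib.P028.NC

/-!
Tools for the divisor sums in the overlap estimate.
-/

open Finset

namespace Vale.Agent.P028

lemma sum_gcd_le {x : ℕ} (hx : 0 < x) (Q : Finset ℕ) (hQ : ∀ y ∈ Q, 0 < y) (f : ℕ → ℝ)
    (g : ℕ → ℕ → ℝ) (hg : ∀ d n, 0 ≤ g d n) (N : ℕ) (hN : ∀ y ∈ Q, y ≤ N)
    (hfg : ∀ y ∈ Q, f y ≤ g (Nat.gcd x y) (y / Nat.gcd x y)) :
    ∑ y ∈ Q, f y ≤ ∑ d ∈ x.divisors, ∑ n ∈ Ioc 0 N, g d n := by
  set e : ℕ → ℕ × ℕ := fun y => (Nat.gcd x y, y / Nat.gcd x y)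
  have hinj : Set.InjOn e (Q : Set ℕ) := by
    intro y hy z hz h
    simp only [e, Prod.mk.injEq] at h
    have h1 := Nat.div_mul_cancel (Nat.gcd_dvd_right x y)
    have h2 := Nat.div_mul_cancel (Nat.gcd_dvd_right x z)
    rw [← h1, ← h2, h.2, h.1]
  have hsub : Q.image e ⊆ x.divisors ×ˢ Ioc 0 N := by
    intro p hp
    obtain ⟨y, hy, rfl⟩ := Finset.mem_image.mp hp
    rw [Finset.mem_product, Nat.mem_divisors, mem_Ioc]
    have hy0 := hQ y hy
    refine ⟨⟨Nat.gcd_dvd_left x y, hx.ne'⟩, ?_, ?_⟩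
    · exact Nat.div_pos (Nat.le_of_dvd hy0 (Nat.gcd_dvd_right x y)) (Nat.gcd_pos_of_pos_left _ hx)
    · exact (Nat.div_le_self _ _).trans (hN y hy)
  calc ∑ y ∈ Q, f y ≤ ∑ y ∈ Q, g (e y).1 (e y).2 := Finset.sum_le_sum hfg
    _ = ∑ p ∈ Q.image e, g p.1 p.2 := by rw [Finset.sum_image hinj]
    _ ≤ ∑ p ∈ x.divisors ×ˢ Ioc 0 N, g p.1 p.2 :=
        Finset.sum_le_sum_of_subset_of_nonneg hsub fun p _ _ => hg _ _
    _ = _ := Finset.sum_product _ _ _

lemma moment_cut (k : ℕ) : ∃ C : ℝ, 1 ≤ C ∧ ∀ (Y : ℝ) (N : ℕ), 0 ≤ Y →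
    ∑ n ∈ Ioc 0 N, (if (n : ℝ) ≤ Y then sg n ^ k else 0) ≤ C * Y := by
  obtain ⟨C, hC1, hC⟩ := sg_moment k
  refine ⟨C, hC1, fun Y N hY => ?_⟩
  calc ∑ n ∈ Ioc 0 N, (if (n : ℝ) ≤ Y then sg n ^ k else 0)
      = ∑ n ∈ (Ioc 0 N).filter (fun n : ℕ => (n : ℝ) ≤ Y), sg n ^ k := by
        rw [Finset.sum_filter]
    _ ≤ ∑ n ∈ Ioc 0 ⌊Y⌋₊, sg n ^ k := by
        apply Finset.sum_le_sum_of_subset_of_nonneg
        · intro n hn
          rw [mem_filter, mem_Ioc] at hn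
          rw [mem_Ioc]
          exact ⟨hn.1.1, Nat.le_floor hn.2⟩
        · intro n hn _
          exact pow_nonneg (sg_pos (mem_Ioc.mp hn).1).le _
    _ ≤ C * ⌊Y⌋₊ := hC _
    _ ≤ C * Y := by
        have := Nat.floor_le hY
        gcongr

/-- tail sums of moments -/
lemma moment_tail (k : ℕ) : ∃ C : ℝ, 1 ≤ C ∧ ∀ (X : ℝ) (N : ℕ), 0 < X →
    ∑ n ∈ Ioc 0 N, (if X ≤ (n : ℝ) then sg n ^ k * ((n : ℝ)⁻¹) ^ 3 else 0) ≤ C * (X⁻¹) ^ 2 := by
  obtain ⟨C, hC1, hC⟩ := moment_cut k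
  refine ⟨4 * C, by linarith, fun X N hX => ?_⟩
  -- number of dyadic levels
  obtain ⟨I, hI⟩ : ∃ I : ℕ, (N : ℝ) < X * 2 ^ I := by
    obtain ⟨I, hI⟩ := pow_unbounded_of_one_lt ((N : ℝ) / X) (one_lt_two)
    refine ⟨I, ?_⟩
    rw [div_lt_iff₀ hX] at hI
    linarith
  have hpt : ∀ n ∈ Ioc 0 N, (if X ≤ (n : ℝ) then sg n ^ k * ((n : ℝ)⁻¹) ^ 3 else 0) ≤
      ∑ i ∈ Finset.range I, (if (n : ℝ) ≤ X * 2 ^ (i + 1) then sg n ^ k else 0) *
        ((X * 2 ^ i)⁻¹) ^ 3 := by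
    intro n hn
    rw [mem_Ioc] at hn
    have hsg := (sg_pos hn.1).le
    split_ifs with hXn
    · have hex : ∃ i : ℕ, (n : ℝ) < X * 2 ^ (i + 1) := by
        refine ⟨I, ?_⟩
        calc (n : ℝ) ≤ N := by exact_mod_cast hn.2
          _ < X * 2 ^ I := hI
          _ ≤ X * 2 ^ (I + 1) := by gcongr <;> norm_num
      classical
      set i := Nat.find hex with hi
      have hi1 : (n : ℝ) < X * 2 ^ (i + 1) := Nat.find_spec hex
      have hi2 : X * 2 ^ i ≤ n := by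
        rcases Nat.eq_zero_or_pos i with h0 | hpos
        · rw [h0]; simpa using hXn
        · have := Nat.find_min hex (m := i - 1) (by omega)
          rw [not_lt, Nat.sub_add_cancel hpos] at this
          exact this
      have hiI : i < I := by
        by_contra hcon
        rw [not_lt] at hcon
        have : X * 2 ^ I ≤ X * 2 ^ i := by gcongr; norm_num
        have h2 : (n : ℝ) ≤ N := by exact_mod_cast hn.2
        linarith
      refine le_trans ?_ (Finset.single_le_sum (f := fun i : ℕ =>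
        (if (n : ℝ) ≤ X * 2 ^ (i + 1) then sg n ^ k else 0) * ((X * 2 ^ i)⁻¹) ^ 3) ?_
        (Finset.mem_range.mpr hiI))
      · simp only [if_pos hi1.le]
        have : 0 < X * 2 ^ i := by positivity
        gcongr
      · intro j _
        have : (0 : ℝ) ≤ if (n : ℝ) ≤ X * 2 ^ (j + 1) then sg n ^ k else 0 := by
          split_ifs <;> positivity
        positivity
    · apply Finset.sum_nonneg
      intro j _
      have : (0 : ℝ) ≤ if (n : ℝ) ≤ X * 2 ^ (j + 1) then sg n ^ k else 0 := by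
        split_ifs <;> positivity
      positivity
  calc _ ≤ ∑ n ∈ Ioc 0 N, ∑ i ∈ Finset.range I,
        (if (n : ℝ) ≤ X * 2 ^ (i + 1) then sg n ^ k else 0) * ((X * 2 ^ i)⁻¹) ^ 3 :=
        Finset.sum_le_sum hpt
    _ = ∑ i ∈ Finset.range I, (∑ n ∈ Ioc 0 N,
        (if (n : ℝ) ≤ X * 2 ^ (i + 1) then sg n ^ k else 0)) * ((X * 2 ^ i)⁻¹) ^ 3 := by
        rw [Finset.sum_comm]
        refine Finset.sum_congr rfl fun i _ => ?_
        rw [Finset.sum_mul]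
    _ ≤ ∑ i ∈ Finset.range I, (C * (X * 2 ^ (i + 1))) * ((X * 2 ^ i)⁻¹) ^ 3 := by
        refine Finset.sum_le_sum fun i _ => ?_
        gcongr
        exact hC _ _ (by positivity)
    _ = 2 * C * (X⁻¹) ^ 2 * ∑ i ∈ Finset.range I, ((1 : ℝ) / 4) ^ i := by
        rw [Finset.mul_sum]
        refine Finset.sum_congr rfl fun i _ => ?_
        have h4 : (4 : ℝ) ^ i = 2 ^ i * 2 ^ i := by rw [← mul_pow]; norm_num
        rw [one_div_pow, h4]
        field_simp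
        ring
    _ ≤ 2 * C * (X⁻¹) ^ 2 * 2 := by
        gcongr
        rw [geom_sum_eq (by norm_num)]
        have : (0 : ℝ) < (1 / 4) ^ I := by positivity
        rw [div_le_iff_of_neg (by norm_num)]
        linarith
    _ = _ := by ring

/-- reduction of divisor sums -/
lemma sum_divisors_le_of (F : ℕ → ℝ) (C : ℝ) (x : ℕ)
    (hF : ∀ d ∈ x.divisors, F d ≤ C * (w d)⁻¹) : ∑ d ∈ x.divisors, F d ≤ C * sg x := by
  unfold sg
  rw [Finset.mul_sum]
  exact Finset.sum_le_sum hF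

lemma sum_inv_sq_le (n : ℕ) : ∑ l ∈ Finset.range n, 1 / ((l : ℝ) + 1) ^ 2 ≤ 2 := by
  have : ∀ n : ℕ, ∑ l ∈ Finset.range (n + 1), 1 / ((l : ℝ) + 1) ^ 2 ≤ 2 - 1 / ((n : ℝ) + 1) := by
    intro n
    induction n with
    | zero => norm_num
    | succ n ih =>
      rw [Finset.sum_range_succ]
      refine (add_le_add_left ih _).trans ?_
      push_cast
      have h1 : (0 : ℝ) < (n : ℝ) + 1 := by positivity
      have h2 : (0 : ℝ) < (n : ℝ) + 1 + 1 := by positivity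
      have : 1 / ((n : ℝ) + 1 + 1) ^ 2 ≤ 1 / ((n : ℝ) + 1) - 1 / ((n : ℝ) + 1 + 1) := by
        rw [div_sub_div _ _ h1.ne' h2.ne', div_le_div_iff₀ (by positivity) (by positivity)]
        nlinarith
      linarith
  cases n with
  | zero => simp
  | succ n =>
    have h := this n
    have : (0 : ℝ) < 1 / ((n : ℝ) + 1) := by positivity
    linarith

end Vale.Agent.P028
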