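import Vale.Agent.Lib.P028.SumTools

/-!
Sum of the overlaps of the second type.
-/

open Finset

namespace Vale.Agent.P028

/-- the length parameter of a pair -/
noncomputable def LL (ψ : ℕ → ℝ) (x y : ℕ) : ℝ :=
  ((x / Nat.gcd x y : ℕ) : ℝ) * ψ y + ((y / Nat.gcd x y : ℕ) : ℝ) * ψ x

lemma LL_comm (ψ : ℕ → ℝ) (x y : ℕ) : LL ψ x y = LL ψ y x := by
  unfold LL
  rw [Nat.gcd_comm y x]; ring

/-- choice of the dyadic level -/
lemma exists_level {u : ℝ} (hu : 1 / 4 ≤ u) {T : ℕ} (hT : u < 4 ^ T) :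
    ∃ l : ℕ, l ≤ T ∧ u < 4 ^ l ∧ (4 : ℝ) ^ l ≤ 4 * u := by
  classical
  have hex : ∃ l : ℕ, u < (4 : ℝ) ^ l := ⟨T, hT⟩
  refine ⟨Nat.find hex, Nat.find_min' hex hT, Nat.find_spec hex, ?_⟩
  rcases Nat.eq_zero_or_pos (Nat.find hex) with h0 | hpos
  · rw [h0]; norm_num; linarith
  · have := Nat.find_min hex (m := Nat.find hex - 1) (by omega)
    rw [not_lt] at this
    calc (4 : ℝ) ^ (Nat.find hex) = 4 * 4 ^ (Nat.find hex - 1) := by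
          rw [← pow_succ']; congr 1; omega
      _ ≤ 4 * u := by linarith

/-- the majorant -/
noncomputable def g2 (ψ : ℕ → ℝ) (x Λ : ℕ) (d n : ℕ) : ℝ :=
  ∑ l ∈ Finset.range Λ, 16 * sg d ^ 6 * (sg x ^ 2)⁻¹ * (1 / ((l : ℝ) + 1) ^ 2) *
    ((if (n : ℝ) ≤ 4 * (4 ^ l)⁻¹ * (x / d : ℕ) * (d : ℝ)⁻¹ then sg n ^ 6 else 0) *
        (4 ^ l * ((x / d : ℕ) : ℝ)⁻¹) +
     (if (n : ℝ) ≤ 4 ^ l * (ψ x)⁻¹ then sg n ^ 6 else 0) *
        (4 * (4 ^ l)⁻¹ * ψ x * (d : ℝ)⁻¹))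

lemma sg_nonneg (n : ℕ) : 0 ≤ sg n := sb_nonneg _ n

lemma g2_nonneg (ψ : ℕ → ℝ) (hψ : ∀ q, 0 ≤ ψ q) (x Λ d n : ℕ) : 0 ≤ g2 ψ x Λ d n := by
  unfold g2
  have h1 := sg_nonneg d
  have h2 := sg_nonneg x
  have h3 := sg_nonneg n
  have h4 := hψ x
  apply Finset.sum_nonneg
  intro l _
  have e1 : (0 : ℝ) ≤ (if (n : ℝ) ≤ 4 * (4 ^ l)⁻¹ * (x / d : ℕ) * (d : ℝ)⁻¹ then sg n ^ 6 else 0) := by
    split_ifs <;> positivity
  have e2 : (0 : ℝ) ≤ (if (n : ℝ) ≤ 4 ^ l * (ψ x)⁻¹ then sg n ^ 6 else 0) := by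
    split_ifs <;> positivity
  positivity

lemma psi_le_g2 (ψ : ℕ → ℝ) (hψ : ∀ q, 0 ≤ ψ q) (hψ1 : ∀ q : ℕ, (q : ℝ) * ψ q ≤ 1) {x y : ℕ}
    (hx : 0 < x) (hy : 0 < y) (hs : sg x ≤ sg y) (hL1 : 1 / 2 ≤ LL ψ x y)
    (hL2 : LL ψ x y < 4 ^ ⌈sg y ^ 2⌉₊) (Λ : ℕ) (hΛ : ⌈sg y ^ 2⌉₊ < Λ) :
    ψ y ≤ g2 ψ x Λ (Nat.gcd x y) (y / Nat.gcd x y) := by
  set d := Nat.gcd x y with hd
  set x' := x / d with hx'
  set y' := y / d with hy'
  have hd0 : 0 < d := Nat.gcd_pos_of_pos_left _ hx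
  have hyd : y' * d = y := Nat.div_mul_cancel (Nat.gcd_dvd_right x y)
  have hx'0 : 0 < x' := Nat.div_pos (Nat.le_of_dvd hx (Nat.gcd_dvd_left x y)) hd0
  have hy'0 : 0 < y' := Nat.div_pos (Nat.le_of_dvd hy (Nat.gcd_dvd_right x y)) hd0
  have hdR : (0 : ℝ) < d := by exact_mod_cast hd0
  have hx'R : (0 : ℝ) < x' := by exact_mod_cast hx'0
  have hy'R : (0 : ℝ) < y' := by exact_mod_cast hy'0
  have hψx := hψ x
  have hψy := hψ y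
  set u : ℝ := max (x' * ψ y) (y' * ψ x) with hu
  have hLe : LL ψ x y = x' * ψ y + y' * ψ x := rfl
  have hu1 : 1 / 4 ≤ u := by
    have h1 := le_max_left ((x' : ℝ) * ψ y) (y' * ψ x)
    have h2 := le_max_right ((x' : ℝ) * ψ y) (y' * ψ x)
    rw [hLe] at hL1
    linarith
  have hu2 : u < 4 ^ ⌈sg y ^ 2⌉₊ := by
    refine lt_of_le_of_lt ?_ hL2
    rw [hLe]
    apply max_le
    · have : 0 ≤ (y' : ℝ) * ψ x := by positivity
      linarith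
    · have : 0 ≤ (x' : ℝ) * ψ y := by positivity
      linarith
  obtain ⟨l, hlT, hl1, hl2⟩ := exists_level hu1 hu2
  have hlΛ : l ∈ Finset.range Λ := Finset.mem_range.mpr (lt_of_le_of_lt hlT hΛ)
  have hsx := one_le_sg hx
  have hsy := one_le_sg hy
  have hsd := one_le_sg hd0
  have hsy' := one_le_sg hy'0
  -- the weight
  have hl3 : (l : ℝ) + 1 ≤ 4 * sg y ^ 2 := by
    have h1 : (l : ℝ) ≤ ⌈sg y ^ 2⌉₊ := by exact_mod_cast hlT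
    have h2 := (Nat.ceil_lt_add_one (a := sg y ^ 2) (by positivity)).le
    nlinarith
  have hsplit : sg y ≤ sg d * sg y' := by
    have := sg_mul_le d y'
    rwa [mul_comm d y', hyd] at this
  have hwt : 1 ≤ 16 * sg d ^ 6 * (sg x ^ 2)⁻¹ * (1 / ((l : ℝ) + 1) ^ 2) * sg y' ^ 6 := by
    have hl0 : (0 : ℝ) < (l : ℝ) + 1 := by positivity
    have e1 : 1 ≤ (4 * sg y ^ 2) ^ 2 * (1 / ((l : ℝ) + 1) ^ 2) := by
      rw [mul_one_div, le_div_iff₀ (by positivity), one_mul]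
      gcongr
    have e2 : 1 ≤ sg y ^ 2 * (sg x ^ 2)⁻¹ := by
      rw [← div_eq_mul_inv, le_div_iff₀ (by positivity), one_mul]
      gcongr
    have e3 : sg y ^ 6 ≤ sg d ^ 6 * sg y' ^ 6 := by
      rw [← mul_pow]; gcongr
    calc (1 : ℝ) = 1 * 1 := by ring
      _ ≤ ((4 * sg y ^ 2) ^ 2 * (1 / ((l : ℝ) + 1) ^ 2)) * (sg y ^ 2 * (sg x ^ 2)⁻¹) := by gcongr
      _ = 16 * sg y ^ 6 * (sg x ^ 2)⁻¹ * (1 / ((l : ℝ) + 1) ^ 2) := by ring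
      _ ≤ 16 * (sg d ^ 6 * sg y' ^ 6) * (sg x ^ 2)⁻¹ * (1 / ((l : ℝ) + 1) ^ 2) := by gcongr
      _ = _ := by ring
  -- single term
  unfold g2
  refine le_trans ?_ (Finset.single_le_sum (f := fun l : ℕ =>
    16 * sg d ^ 6 * (sg x ^ 2)⁻¹ * (1 / ((l : ℝ) + 1) ^ 2) *
    ((if (y' : ℝ) ≤ 4 * (4 ^ l)⁻¹ * (x / d : ℕ) * (d : ℝ)⁻¹ then sg y' ^ 6 else 0) *
        (4 ^ l * ((x / d : ℕ) : ℝ)⁻¹) +
     (if (y' : ℝ) ≤ 4 ^ l * (ψ x)⁻¹ then sg y' ^ 6 else 0) *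
        (4 * (4 ^ l)⁻¹ * ψ x * (d : ℝ)⁻¹))) ?_ hlΛ)
  swap
  · intro l _
    have e1 : (0 : ℝ) ≤ (if (y' : ℝ) ≤ 4 * (4 ^ l)⁻¹ * (x / d : ℕ) * (d : ℝ)⁻¹
        then sg y' ^ 6 else 0) := by
      split_ifs <;> positivity
    have e2 : (0 : ℝ) ≤ (if (y' : ℝ) ≤ 4 ^ l * (ψ x)⁻¹ then sg y' ^ 6 else 0) := by
      split_ifs <;> positivity
    positivity
  set W : ℝ := 16 * sg d ^ 6 * (sg x ^ 2)⁻¹ * (1 / ((l : ℝ) + 1) ^ 2) with hW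
  have hW0 : 0 ≤ W := by positivity
  set E : ℝ := 4 ^ l with hE
  have hE0 : 0 < E := by positivity
  have e1 : (0 : ℝ) ≤ (if (y' : ℝ) ≤ 4 * E⁻¹ * x' * (d : ℝ)⁻¹ then sg y' ^ 6 else 0) := by
    split_ifs <;> positivity
  have e2 : (0 : ℝ) ≤ (if (y' : ℝ) ≤ E * (ψ x)⁻¹ then sg y' ^ 6 else 0) := by
    split_ifs <;> positivity
  have hyψ : (y' : ℝ) * d * ψ y ≤ 1 := by
    have := hψ1 y
    rw [← hyd] at this
    push_cast at this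
    rwa [hyd] at this
  rcases le_total ((y' : ℝ) * ψ x) (x' * ψ y) with hcase | hcase
  · -- case α
    have hue : u = x' * ψ y := max_eq_left hcase
    have h1 : ψ y ≤ E * (x' : ℝ)⁻¹ := by
      rw [← div_eq_mul_inv, le_div_iff₀ hx'R]
      rw [hue] at hl1
      linarith
    have h2 : (y' : ℝ) ≤ 4 * E⁻¹ * x' * (d : ℝ)⁻¹ := by
      rw [← div_eq_mul_inv, le_div_iff₀ hdR, mul_comm 4, mul_assoc, ← div_eq_inv_mul,
        le_div_iff₀ hE0]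
      rw [hue] at hl2
      calc (y' : ℝ) * d * E ≤ y' * d * (4 * (x' * ψ y)) := by gcongr
        _ = 4 * x' * (y' * d * ψ y) := by ring
        _ ≤ 4 * x' * 1 := by gcongr
        _ = _ := by ring
    rw [if_pos h2]
    calc ψ y ≤ 1 * (E * (x' : ℝ)⁻¹) := by rw [one_mul]; exact h1
      _ ≤ (W * sg y' ^ 6) * (E * (x' : ℝ)⁻¹) := by gcongr
      _ = W * (sg y' ^ 6 * (E * (x' : ℝ)⁻¹) + 0) := by ring
      _ ≤ _ := by gcongr; positivity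
  · -- case β
    have hue : u = y' * ψ x := max_eq_right hcase
    have hψx0 : 0 < ψ x := by
      rw [hue] at hu1
      by_contra hcon
      have : ψ x = 0 := le_antisymm (not_lt.mp hcon) hψx
      rw [this] at hu1
      norm_num at hu1
    have h2 : (y' : ℝ) ≤ E * (ψ x)⁻¹ := by
      rw [← div_eq_mul_inv, le_div_iff₀ hψx0]
      rw [hue] at hl1
      exact hl1.le
    have h1 : ψ y ≤ 4 * E⁻¹ * ψ x * (d : ℝ)⁻¹ := by
      rw [← div_eq_mul_inv, le_div_iff₀ hdR, mul_comm 4, mul_assoc, ← div_eq_inv_mul,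
        le_div_iff₀ hE0]
      rw [hue] at hl2
      calc ψ y * d * E ≤ ψ y * d * (4 * (y' * ψ x)) := by gcongr
        _ = 4 * ψ x * (y' * d * ψ y) := by ring
        _ ≤ 4 * ψ x * 1 := by gcongr
        _ = _ := by ring
    rw [if_pos h2]
    calc ψ y ≤ 1 * (4 * E⁻¹ * ψ x * (d : ℝ)⁻¹) := by rw [one_mul]; exact h1
      _ ≤ (W * sg y' ^ 6) * (4 * E⁻¹ * ψ x * (d : ℝ)⁻¹) := by gcongr
      _ = W * (0 + sg y' ^ 6 * (4 * E⁻¹ * ψ x * (d : ℝ)⁻¹)) := by ring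
      _ ≤ _ := by gcongr; positivity

/-- the sum of the second type -/
lemma sum_two : ∃ C : ℝ, 0 < C ∧ ∀ ψ : ℕ → ℝ, (∀ q, 0 ≤ ψ q) →
    (∀ q : ℕ, (q : ℝ) * ψ q ≤ 1) → ∀ x : ℕ, 0 < x → ∀ Q : Finset ℕ, (∀ y ∈ Q, 0 < y) →
    (∀ y ∈ Q, sg x ≤ sg y ∧ 1 / 2 ≤ LL ψ x y ∧ LL ψ x y < 4 ^ ⌈sg y ^ 2⌉₊) →
    ∑ y ∈ Q, ψ y ≤ C * (sg x)⁻¹ := by
  obtain ⟨C, hC1, hC⟩ := moment_cut 6
  obtain ⟨C', hC1', hC'⟩ := sg_pow_le_w 6
  refine ⟨256 * C * C', by positivity, fun ψ hψ hψ1 x hx Q hQ hcond => ?_⟩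
  obtain ⟨Λ, hΛ⟩ : ∃ Λ : ℕ, ∀ y ∈ Q, ⌈sg y ^ 2⌉₊ < Λ := by
    refine ⟨Q.sup (fun y => ⌈sg y ^ 2⌉₊) + 1, fun y hy => ?_⟩
    exact Nat.lt_succ_of_le (Finset.le_sup (f := fun y => ⌈sg y ^ 2⌉₊) hy)
  obtain ⟨N, hN⟩ : ∃ N : ℕ, ∀ y ∈ Q, y ≤ N := ⟨Q.sup id, fun y hy => Finset.le_sup (f := id) hy⟩
  have hsx := one_le_sg hx
  calc ∑ y ∈ Q, ψ y ≤ ∑ d ∈ x.divisors, ∑ n ∈ Ioc 0 N, g2 ψ x Λ d n := by
        apply sum_gcd_le hx Q hQ ψ (g2 ψ x Λ) (g2_nonneg ψ hψ x Λ) N hN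
        intro y hy
        obtain ⟨h1, h2, h3⟩ := hcond y hy
        exact psi_le_g2 ψ hψ hψ1 hx (hQ y hy) h1 h2 h3 Λ (hΛ y hy)
    _ ≤ ∑ d ∈ x.divisors, 256 * C * (sg x ^ 2)⁻¹ * (sg d ^ 6 * (d : ℝ)⁻¹) := by
        refine Finset.sum_le_sum fun d hd => ?_
        have hd0 : 0 < d := Nat.pos_of_mem_divisors hd
        have hdR : (0 : ℝ) < d := by exact_mod_cast hd0
        have hx'0 : 0 < x / d := Nat.div_pos (Nat.divisor_le hd) hd0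
        have hx'R : (0 : ℝ) < ((x / d : ℕ) : ℝ) := by exact_mod_cast hx'0
        set x' : ℝ := ((x / d : ℕ) : ℝ)
        have hsd := one_le_sg hd0
        have hψx := hψ x
        unfold g2
        rw [Finset.sum_comm]
        calc _ = ∑ l ∈ Finset.range Λ, 16 * sg d ^ 6 * (sg x ^ 2)⁻¹ * (1 / ((l : ℝ) + 1) ^ 2) *
              ((∑ n ∈ Ioc 0 N, (if (n : ℝ) ≤ 4 * (4 ^ l)⁻¹ * x' * (d : ℝ)⁻¹
                then sg n ^ 6 else 0)) * (4 ^ l * x'⁻¹) +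
              (∑ n ∈ Ioc 0 N, (if (n : ℝ) ≤ 4 ^ l * (ψ x)⁻¹ then sg n ^ 6 else 0)) *
                (4 * (4 ^ l)⁻¹ * ψ x * (d : ℝ)⁻¹)) := by
              refine Finset.sum_congr rfl fun l _ => ?_
              rw [Finset.sum_mul, Finset.sum_mul, ← Finset.sum_add_distrib, Finset.mul_sum]
          _ ≤ ∑ l ∈ Finset.range Λ, 16 * sg d ^ 6 * (sg x ^ 2)⁻¹ * (1 / ((l : ℝ) + 1) ^ 2) *
              ((C * (4 * (4 ^ l)⁻¹ * x' * (d : ℝ)⁻¹)) * (4 ^ l * x'⁻¹) +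
              (C * (4 ^ l * (ψ x)⁻¹)) * (4 * (4 ^ l)⁻¹ * ψ x * (d : ℝ)⁻¹)) := by
              refine Finset.sum_le_sum fun l _ => ?_
              have h1 := hC (4 * (4 ^ l)⁻¹ * x' * (d : ℝ)⁻¹) N (by positivity)
              have h2 := hC (4 ^ l * (ψ x)⁻¹) N (by positivity)
              gcongr
          _ ≤ ∑ l ∈ Finset.range Λ, 16 * sg d ^ 6 * (sg x ^ 2)⁻¹ * (1 / ((l : ℝ) + 1) ^ 2) *
              (8 * C * (d : ℝ)⁻¹) := by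
              refine Finset.sum_le_sum fun l _ => ?_
              have e1 : (C * (4 * (4 ^ l)⁻¹ * x' * (d : ℝ)⁻¹)) * (4 ^ l * x'⁻¹)
                  = 4 * C * (d : ℝ)⁻¹ := by
                field_simp
              have e2 : (C * (4 ^ l * (ψ x)⁻¹)) * (4 * (4 ^ l)⁻¹ * ψ x * (d : ℝ)⁻¹)
                  ≤ 4 * C * (d : ℝ)⁻¹ := by
                rcases hψx.eq_or_lt with h0 | h0
                · rw [← h0]; simp; positivity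
                · apply le_of_eq; field_simp
              have e3 : (C * (4 * (4 ^ l)⁻¹ * x' * (d : ℝ)⁻¹)) * (4 ^ l * x'⁻¹) +
                  (C * (4 ^ l * (ψ x)⁻¹)) * (4 * (4 ^ l)⁻¹ * ψ x * (d : ℝ)⁻¹)
                  ≤ 8 * C * (d : ℝ)⁻¹ := by linarith
              gcongr
          _ = 128 * C * (sg x ^ 2)⁻¹ * (sg d ^ 6 * (d : ℝ)⁻¹) *
              ∑ l ∈ Finset.range Λ, 1 / ((l : ℝ) + 1) ^ 2 := by
              rw [Finset.mul_sum]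
              refine Finset.sum_congr rfl fun l _ => ?_
              ring
          _ ≤ 128 * C * (sg x ^ 2)⁻¹ * (sg d ^ 6 * (d : ℝ)⁻¹) * 2 := by
              gcongr
              exact sum_inv_sq_le Λ
          _ = _ := by ring
    _ = 256 * C * (sg x ^ 2)⁻¹ * ∑ d ∈ x.divisors, sg d ^ 6 * (d : ℝ)⁻¹ := by
        rw [Finset.mul_sum]
    _ ≤ 256 * C * (sg x ^ 2)⁻¹ * (C' * sg x) := by
        gcongr
        apply sum_divisors_le_of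
        intro d hd
        have hd0 : 0 < d := Nat.pos_of_mem_divisors hd
        have hw := one_le_w hd0
        calc sg d ^ 6 * (d : ℝ)⁻¹ ≤ (C' * w d) * (d : ℝ)⁻¹ := by
              gcongr; exact hC' d hd0
          _ = (C' * w d) * (w d ^ 32)⁻¹ := by rw [w_pow]
          _ ≤ (C' * w d) * (w d ^ 2)⁻¹ := by
              gcongr
              norm_num
          _ = C' * (w d)⁻¹ := by
              have : w d ≠ 0 := by positivity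
              field_simp
    _ = _ := by
        have : sg x ≠ 0 := by positivity
        field_simp

end Vale.Agent.P028
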