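import Mathlib

/-!
# The limsup set and the weighted sum of the weak inhomogeneous Duffin-Schaeffer conjecture
-/

open MeasureTheory Filter
open scoped NNReal ENNReal

namespace Vale.Agent.Lib.P028.Thin

/-- `W γ ψ`: the real `x` such that `‖q x - γ‖ < ψ q` for infinitely many positive integers `q`,
where `‖t‖ = |t - round t|` is the distance to the nearest integer. -/
def W (γ : ℝ) (ψ : ℕ+ → ℝ≥0) : Set ℝ :=
  limsup (fun q : ℕ+ => {x : ℝ | |(q : ℕ) * x - γ - round ((q : ℕ) * x - γ)| < ψ q}) cofinite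

/-- The weighted sum `∑ φ(q) / q * ψ(q)` over all positive integers, in `[0, ∞]`. -/
noncomputable def wsum (ψ : ℕ+ → ℝ≥0) : ℝ≥0∞ :=
  ∑' q : ℕ+, (Nat.totient q : ℝ≥0∞) / ((q : ℕ) : ℝ≥0∞) * (ψ q : ℝ≥0∞)

end Vale.Agent.Lib.P028.Thin
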