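import Vale.Agent.Results.P028.DuffinSchaefferPower
import Vale.Agent.Lib.P028.ThinDefs

/-!
# The weak inhomogeneous Duffin-Schaeffer conjecture: power range and what remains
-/

open MeasureTheory Filter
open scoped NNReal ENNReal

namespace Vale.Agent.Lib.P028.Thin

private theorem mem_W {γ : ℝ} {ψ : ℕ+ → ℝ≥0} {x : ℝ} : x ∈ W γ ψ ↔
    {q : ℕ+ | |(q : ℕ) * x - γ - round ((q : ℕ) * x - γ)| < ψ q}.Infinite := by
  unfold W
  rw [cofinite.limsup_set_eq]
  rfl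

private theorem W_mono {γ : ℝ} {ψ ψ' : ℕ+ → ℝ≥0} (h : ∀ q, ψ q ≤ ψ' q) : W γ ψ ⊆ W γ ψ' := by
  intro x hx
  rw [mem_W] at hx ⊢
  refine hx.mono fun q hq => ?_
  exact lt_of_lt_of_le hq (NNReal.coe_le_coe.2 (h q))

private theorem wt_eq (q : ℕ+) (t : ℝ≥0) :
    (Nat.totient q : ℝ≥0∞) / ((q : ℕ) : ℝ≥0∞) * (t : ℝ≥0∞)
      = (((Nat.totient q : ℝ≥0) / ((q : ℕ) : ℝ≥0) * t : ℝ≥0) : ℝ≥0∞) := by
  have hq : (((q : ℕ) : ℝ≥0)) ≠ 0 := by exact_mod_cast q.pos.ne'
  rw [ENNReal.coe_mul, ENNReal.coe_div hq, ENNReal.coe_natCast, ENNReal.coe_natCast]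

/-- divergence of the truncated sum gives full measure -/
theorem part2 (γ : ℝ) (ψ : ℕ+ → ℝ≥0) (ε : ℝ) (hε : 0 < ε)
    (h : wsum (fun q => min (ψ q) (((q : ℕ) : ℝ≥0) ^ (-ε))) = ∞) : volume (W γ ψ)ᶜ = 0 := by
  let ψ' : ℕ → ℝ := fun q => if h : 0 < q then (ψ ⟨q, h⟩ : ℝ) else 0
  have hψ' : ∀ q, 0 ≤ ψ' q := by
    intro q
    simp only [ψ']
    split_ifs
    · exact NNReal.coe_nonneg _
    · exact le_rfl
  have hval : ∀ q : ℕ+, ψ' q = ψ q := by
    intro q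
    simp only [ψ']
    rw [dif_pos q.pos]
    rfl
  have hdiv : ¬ Summable (fun q : ℕ => (Nat.totient q : ℝ) / q * min (ψ' q) ((q : ℝ) ^ (-ε))) := by
    intro hs
    have h1 : Summable (fun q : ℕ+ => (Nat.totient q : ℝ) / (q : ℕ) *
        min (ψ' q) (((q : ℕ) : ℝ) ^ (-ε))) := hs.comp_injective PNat.coe_injective
    have h2 : Summable (fun q : ℕ+ => ((Nat.totient q : ℝ≥0) / ((q : ℕ) : ℝ≥0) *
        min (ψ q) (((q : ℕ) : ℝ≥0) ^ (-ε)) : ℝ≥0)) := by
      rw [← NNReal.summable_coe]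
      refine h1.congr fun q => ?_
      rw [hval q]
      push_cast
      rfl
    have h3 := ENNReal.tsum_coe_ne_top_iff_summable.2 h2
    apply h3
    rw [← h]
    unfold wsum
    exact tsum_congr fun q => (wt_eq q _).symm
  have hres := Vale.Agent.Results.P028.DuffinSchaefferPower.result ε hε γ ψ' hψ' hdiv
  rw [ae_iff] at hres
  refine measure_mono_null ?_ hres
  intro x hx
  rw [Set.mem_ofPred_eq]
  intro hinf
  apply hx
  rw [mem_W]
  have h4 : ((fun q : ℕ+ => (q : ℕ)) '' {q : ℕ+ | |(q : ℕ) * x - γ - round ((q : ℕ) * x - γ)| < ψ q}).Infinite := by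
    refine hinf.mono ?_
    rintro q ⟨hq, a, ha⟩
    refine ⟨⟨q, hq⟩, ?_, rfl⟩
    change |(q : ℝ) * x - γ - round ((q : ℝ) * x - γ)| < ψ ⟨q, hq⟩
    have h5 : ψ' q = ψ ⟨q, hq⟩ := hval ⟨q, hq⟩
    rw [h5] at ha
    have h6 := round_le ((q : ℝ) * x - γ) a
    have h7 : |(q : ℝ) * x - γ - a| = |(q : ℝ) * x - a - γ| := by
      congr 1
      ring
    rw [h7] at h6
    exact lt_of_le_of_lt h6 ha
  exact Set.Infinite.of_image _ h4

/-- divergence for functions of size `O(q ^ (-ε))` -/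
theorem part1 (γ : ℝ) (ψ : ℕ+ → ℝ≥0) (ε : ℝ) (hε : 0 < ε) (C : ℝ)
    (hC : ∀ q : ℕ+, (ψ q : ℝ) ≤ C * ((q : ℕ) : ℝ) ^ (-ε)) (h : wsum ψ = ∞) :
    volume (W γ ψ)ᶜ = 0 := by
  refine part2 γ ψ ε hε ?_
  by_contra hne
  apply h.not_lt
  let K : ℝ≥0 := max C.toNNReal 1
  have hK : ∀ q : ℕ+, ψ q ≤ K * min (ψ q) (((q : ℕ) : ℝ≥0) ^ (-ε)) := by
    intro q
    rcases le_total (ψ q) (((q : ℕ) : ℝ≥0) ^ (-ε)) with h1 | h1
    · rw [min_eq_left h1]
      calc ψ q = 1 * ψ q := (one_mul _).symm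
        _ ≤ K * ψ q := by gcongr; exact le_max_right _ _
    · rw [min_eq_right h1, ← NNReal.coe_le_coe]
      push_cast
      refine (hC q).trans ?_
      refine mul_le_mul_of_nonneg_right ?_ (by positivity)
      exact (Real.le_coe_toNNReal C).trans (by exact_mod_cast le_max_left _ _)
  calc wsum ψ ≤ (K : ℝ≥0∞) * wsum (fun q => min (ψ q) (((q : ℕ) : ℝ≥0) ^ (-ε))) := by
        unfold wsum
        rw [← ENNReal.tsum_mul_left]
        refine ENNReal.tsum_le_tsum fun q => ?_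
        rw [mul_left_comm, ← ENNReal.coe_mul]
        gcongr
        exact hK q
    _ < ∞ := ENNReal.mul_lt_top ENNReal.coe_lt_top (lt_top_iff_ne_top.2 hne)

private theorem prod_le_card (s : Finset ℕ) : (∀ p ∈ s, 2 ≤ p) →
    ∏ p ∈ s, ((p : ℝ) / (p - 1)) ≤ s.card + 1 := by
  induction s using Finset.induction_on_max with
  | empty => simp
  | insert a s hs ih =>
    intro h2
    have ha : a ∉ s := fun h => lt_irrefl a (hs a h)
    rw [Finset.prod_insert ha, Finset.card_insert_of_notMem ha]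
    have ih' := ih fun p hp => h2 p (Finset.mem_insert_of_mem hp)
    have hsub : s ⊆ Finset.Ico 2 a := fun p hp =>
      Finset.mem_Ico.2 ⟨h2 p (Finset.mem_insert_of_mem hp), hs p hp⟩
    have hcard : s.card ≤ a - 2 := by
      have := Finset.card_le_card hsub
      rwa [Nat.card_Ico] at this
    have ha2 : 2 ≤ a := h2 a (Finset.mem_insert_self a s)
    have hcard' : (s.card : ℝ) + 2 ≤ a := by
      have : s.card + 2 ≤ a := by omega
      exact_mod_cast this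
    have hc0 : (0 : ℝ) ≤ s.card := by positivity
    have h3 : (a : ℝ) / (a - 1) ≤ (s.card + 2) / (s.card + 1) := by
      rw [div_le_div_iff₀ (by linarith) (by linarith)]
      nlinarith
    calc (a : ℝ) / (a - 1) * ∏ p ∈ s, ((p : ℝ) / (p - 1))
        ≤ (s.card + 2) / (s.card + 1) * (s.card + 1) := by
          refine mul_le_mul h3 ih' ?_ (by positivity)
          refine Finset.prod_nonneg fun p hp => ?_
          have : (2 : ℝ) ≤ p := by exact_mod_cast h2 p (Finset.mem_insert_of_mem hp)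
          exact div_nonneg (by linarith) (by linarith)
      _ = ((s.card + 1 : ℕ) : ℝ) + 1 := by
          push_cast
          field_simp
          ring

/-- `q ≤ C q ^ δ φ(q)` -/
private theorem totient_lower (δ : ℝ) (hδ : 0 < δ) :
    ∃ C : ℝ, 0 < C ∧ ∀ q : ℕ, 0 < q → (q : ℝ) ≤ C * (q : ℝ) ^ δ * Nat.totient q := by
  have hl : 0 < Real.log 2 := Real.log_pos (by norm_num)
  have hd : 0 < δ * Real.log 2 := mul_pos hδ hl
  refine ⟨max 1 (δ * Real.log 2)⁻¹, lt_max_of_lt_left one_pos, fun q hq => ?_⟩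
  have hq' : (0 : ℝ) < q := by exact_mod_cast hq
  have h1 : (Nat.totient q : ℝ) = q * ∏ p ∈ q.primeFactors, (1 - (p : ℝ)⁻¹) := by
    have h0 := congrArg (fun t : ℚ => (t : ℝ)) (Nat.totient_eq_mul_prod_factors q)
    push_cast at h0
    exact h0
  have h2 : ∏ p ∈ q.primeFactors, (1 - (p : ℝ)⁻¹) = (∏ p ∈ q.primeFactors, ((p : ℝ) / (p - 1)))⁻¹ := by
    rw [← Finset.prod_inv_distrib]
    refine Finset.prod_congr rfl fun p hp => ?_
    have h3 : (2 : ℝ) ≤ p := by exact_mod_cast (Nat.prime_of_mem_primeFactors hp).two_le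
    rw [inv_div, sub_div, div_self (by linarith), one_div]
  have h4 := prod_le_card q.primeFactors fun p hp => (Nat.prime_of_mem_primeFactors hp).two_le
  have hpos : 0 < ∏ p ∈ q.primeFactors, ((p : ℝ) / (p - 1)) := by
    refine Finset.prod_pos fun p hp => ?_
    have h3 : (2 : ℝ) ≤ p := by exact_mod_cast (Nat.prime_of_mem_primeFactors hp).two_le
    exact div_pos (by linarith) (by linarith)
  have h5 : (2 : ℝ) ^ (q.primeFactors.card : ℝ) ≤ q := by
    have h6 : 2 ^ q.primeFactors.card ≤ ∏ p ∈ q.primeFactors, p :=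
      Finset.pow_card_le_prod _ _ _ fun p hp => (Nat.prime_of_mem_primeFactors hp).two_le
    have h7 : ∏ p ∈ q.primeFactors, p ≤ q := Nat.le_of_dvd hq (Nat.prod_primeFactors_dvd q)
    rw [Real.rpow_natCast]
    exact_mod_cast h6.trans h7
  have h8 : (q.primeFactors.card : ℝ) + 1 ≤ max 1 (δ * Real.log 2)⁻¹ * (q : ℝ) ^ δ := by
    have h9 : (q.primeFactors.card : ℝ) * (δ * Real.log 2) + 1 ≤ (q : ℝ) ^ δ := by
      calc (q.primeFactors.card : ℝ) * (δ * Real.log 2) + 1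
          ≤ Real.exp ((q.primeFactors.card : ℝ) * (δ * Real.log 2)) := Real.add_one_le_exp _
        _ = ((2 : ℝ) ^ (q.primeFactors.card : ℝ)) ^ δ := by
            rw [← Real.rpow_mul (by norm_num), Real.rpow_def_of_pos (by norm_num)]
            congr 1
            ring
        _ ≤ (q : ℝ) ^ δ := Real.rpow_le_rpow (by positivity) h5 hδ.le
    have hM : 0 < max 1 (δ * Real.log 2)⁻¹ := lt_max_of_lt_left one_pos
    calc (q.primeFactors.card : ℝ) + 1
        = (δ * Real.log 2)⁻¹ * ((q.primeFactors.card : ℝ) * (δ * Real.log 2)) + 1 * 1 := by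
          rw [mul_comm, mul_assoc, mul_inv_cancel₀ hd.ne', mul_one, mul_one]
      _ ≤ max 1 (δ * Real.log 2)⁻¹ * ((q.primeFactors.card : ℝ) * (δ * Real.log 2))
          + max 1 (δ * Real.log 2)⁻¹ * 1 := by
          gcongr
          · exact le_max_right _ _
          · exact le_max_left _ _
      _ = max 1 (δ * Real.log 2)⁻¹ * ((q.primeFactors.card : ℝ) * (δ * Real.log 2) + 1) := by ring
      _ ≤ max 1 (δ * Real.log 2)⁻¹ * (q : ℝ) ^ δ := by gcongr
  have h10 : ∏ p ∈ q.primeFactors, ((p : ℝ) / (p - 1))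
      ≤ max 1 (δ * Real.log 2)⁻¹ * (q : ℝ) ^ δ := h4.trans h8
  rw [h1, h2]
  calc (q : ℝ) = q * ((∏ p ∈ q.primeFactors, ((p : ℝ) / (p - 1)))
        * (∏ p ∈ q.primeFactors, ((p : ℝ) / (p - 1)))⁻¹) := by
        rw [mul_inv_cancel₀ hpos.ne', mul_one]
    _ ≤ q * ((max 1 (δ * Real.log 2)⁻¹ * (q : ℝ) ^ δ)
        * (∏ p ∈ q.primeFactors, ((p : ℝ) / (p - 1)))⁻¹) := by gcongr
    _ = _ := by ring

/-- reduction to thin functions -/
theorem part3 (γ : ℝ)
    (H : ∀ ψ : ℕ+ → ℝ≥0, (∀ ε : ℝ, 0 < ε →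
        {q : ℕ+ | 0 < ψ q ∧ ψ q ≤ ((q : ℕ) : ℝ≥0) ^ (-ε)}.Finite ∧
        ∑' q : {q : ℕ+ // 0 < ψ q}, (((q : ℕ+) : ℕ) : ℝ≥0∞) ^ (-ε) < ∞) →
      wsum ψ = ∞ → volume (W γ ψ)ᶜ = 0)
    (ψ : ℕ+ → ℝ≥0) (h : wsum ψ = ∞) : volume (W γ ψ)ᶜ = 0 := by
  by_cases hex : ∃ ε : ℝ, 0 < ε ∧ wsum (fun q => min (ψ q) (((q : ℕ) : ℝ≥0) ^ (-ε))) = ∞
  · obtain ⟨ε, hε, h1⟩ := hex
    exact part2 γ ψ ε hε h1
  push Not at hex
  let e : ℕ → ℝ := fun k => 1 / ((k : ℝ) + 1)
  have he : ∀ k, 0 < e k := fun k => by simp only [e]; positivity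
  let f : ℕ → ℕ+ → ℝ≥0∞ := fun k q => (Nat.totient q : ℝ≥0∞) / ((q : ℕ) : ℝ≥0∞) *
    ((min (ψ q) (((q : ℕ) : ℝ≥0) ^ (-(e k))) : ℝ≥0) : ℝ≥0∞)
  have hf : ∀ k, ∑' q, f k q ≠ ∞ := fun k => hex (e k) (he k)
  have hF : ∀ k, ∃ F : Finset ℕ+, ∑' q : {q // q ∉ F}, f k q < 2⁻¹ ^ k := by
    intro k
    have h1 := ENNReal.tendsto_tsum_compl_atTop_zero (hf k)
    have h2 : (0 : ℝ≥0∞) < 2⁻¹ ^ k := ENNReal.pow_pos (ENNReal.inv_pos.2 (by norm_num)) k
    exact (h1.eventually_lt_const h2).exists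
  choose F hF using hF
  let R : Set ℕ+ := {q | ∃ k, q ∉ F k ∧ ψ q ≤ ((q : ℕ) : ℝ≥0) ^ (-(e k))}
  classical
  let ψ' : ℕ+ → ℝ≥0 := fun q => if q ∈ R then 0 else ψ q
  have hle : ∀ q, ψ' q ≤ ψ q := by
    intro q
    simp only [ψ']
    split_ifs
    · exact zero_le
    · exact le_rfl
  have hpos : ∀ q, 0 < ψ' q → ψ' q = ψ q ∧ ∀ k, q ∉ F k → ((q : ℕ) : ℝ≥0) ^ (-(e k)) < ψ q := by
    intro q hq
    by_cases hR : q ∈ R
    · simp only [ψ', if_pos hR] at hq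
      exact absurd hq (lt_irrefl _)
    · refine ⟨if_neg hR, fun k hk => ?_⟩
      by_contra hcon
      exact hR ⟨k, hk, not_lt.1 hcon⟩
  refine measure_mono_null (Set.compl_subset_compl.2 (W_mono hle)) (H ψ' ?_ ?_)
  · intro ε hε
    constructor
    · obtain ⟨k, hk⟩ := exists_nat_one_div_lt hε
      refine (F k).finite_toSet.subset ?_
      rintro q ⟨h1, h2⟩
      by_contra h3
      have h4 := (hpos q h1).2 k h3
      have h5 : ((q : ℕ) : ℝ≥0) ^ (-ε) ≤ ((q : ℕ) : ℝ≥0) ^ (-(e k)) :=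
        NNReal.rpow_le_rpow_of_exponent_le (by exact_mod_cast q.pos) (neg_le_neg hk.le)
      rw [(hpos q h1).1] at h2
      exact absurd (h4.trans_le (h2.trans h5)) (lt_irrefl _)
    · obtain ⟨k, hk⟩ := exists_nat_one_div_lt (half_pos hε)
      obtain ⟨C, hC0, hC⟩ := totient_lower (ε / 2) (half_pos hε)
      have hpt : ∀ q : {q : ℕ+ // 0 < ψ' q}, (((q : ℕ+) : ℕ) : ℝ≥0∞) ^ (-ε) ≤
          (if (q : ℕ+) ∈ F k then 1 else 0) + ENNReal.ofReal C * f k q := by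
        rintro ⟨q, hq⟩
        have hq1 : (1 : ℝ) ≤ ((q : ℕ) : ℝ) := by exact_mod_cast q.pos
        by_cases hqF : q ∈ F k
        · rw [if_pos hqF]
          refine le_trans ?_ le_self_add
          exact ENNReal.rpow_le_one_of_one_le_of_neg (by exact_mod_cast q.pos) (by linarith)
        · rw [if_neg hqF, zero_add]
          have h4 := (hpos q hq).2 k hqF
          have h5 : f k q = ENNReal.ofReal ((Nat.totient q : ℝ) / ((q : ℕ) : ℝ)
              * ((q : ℕ) : ℝ) ^ (-(e k))) := by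
            simp only [f]
            rw [min_eq_right h4.le, wt_eq, ← ENNReal.ofReal_coe_nnreal]
            congr 1
          have h6 : (((q : ℕ) : ℝ≥0∞)) ^ (-ε) = ENNReal.ofReal (((q : ℕ) : ℝ) ^ (-ε)) := by
            rw [← ENNReal.ofReal_rpow_of_pos (by linarith), ENNReal.ofReal_natCast]
          rw [h6, h5, ← ENNReal.ofReal_mul hC0.le]
          refine ENNReal.ofReal_le_ofReal ?_
          have h7 := hC q q.pos
          have h8 : ((q : ℕ) : ℝ) ^ (-(ε / 2)) ≤ ((q : ℕ) : ℝ) ^ (-(e k)) :=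
            Real.rpow_le_rpow_of_exponent_le hq1 (neg_le_neg hk.le)
          have h9 : ((q : ℕ) : ℝ) ^ (-ε) * ((q : ℕ) : ℝ) ^ (ε / 2) = ((q : ℕ) : ℝ) ^ (-(ε / 2)) := by
            rw [← Real.rpow_add (by linarith)]
            congr 1
            ring
          have hq0 : (0 : ℝ) < ((q : ℕ) : ℝ) := by linarith
          calc ((q : ℕ) : ℝ) ^ (-ε) = ((q : ℕ) : ℝ) ^ (-ε) * ((q : ℕ) : ℝ) / ((q : ℕ) : ℝ) := by
                field_simp
            _ ≤ ((q : ℕ) : ℝ) ^ (-ε) * (C * ((q : ℕ) : ℝ) ^ (ε / 2) * (Nat.totient q : ℝ))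
                / ((q : ℕ) : ℝ) := by gcongr
            _ = C * ((Nat.totient q : ℝ) / ((q : ℕ) : ℝ)
                * (((q : ℕ) : ℝ) ^ (-ε) * ((q : ℕ) : ℝ) ^ (ε / 2))) := by ring
            _ ≤ C * ((Nat.totient q : ℝ) / ((q : ℕ) : ℝ) * ((q : ℕ) : ℝ) ^ (-(e k))) := by
                rw [h9]
                gcongr
      calc ∑' q : {q : ℕ+ // 0 < ψ' q}, (((q : ℕ+) : ℕ) : ℝ≥0∞) ^ (-ε)
          ≤ ∑' q : {q : ℕ+ // 0 < ψ' q}, ((if (q : ℕ+) ∈ F k then 1 else 0)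
            + ENNReal.ofReal C * f k q) := ENNReal.tsum_le_tsum hpt
        _ ≤ ∑' q : ℕ+, ((if q ∈ F k then 1 else 0) + ENNReal.ofReal C * f k q) :=
            ENNReal.tsum_comp_le_tsum_of_injective Subtype.val_injective _
        _ = (∑' q : ℕ+, (if q ∈ F k then (1 : ℝ≥0∞) else 0)) + ENNReal.ofReal C * ∑' q, f k q := by
            rw [ENNReal.tsum_add, ENNReal.tsum_mul_left]
        _ < ∞ := by
            refine ENNReal.add_lt_top.2 ⟨?_, ENNReal.mul_lt_top ENNReal.ofReal_lt_top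
              (lt_top_iff_ne_top.2 (hf k))⟩
            rw [tsum_eq_sum (s := F k) fun q hq => if_neg hq]
            exact ENNReal.sum_lt_top.2 fun q hq => by rw [if_pos hq]; exact ENNReal.one_lt_top
  · by_contra hne
    apply h.not_lt
    have hpt : ∀ q : ℕ+, (Nat.totient q : ℝ≥0∞) / ((q : ℕ) : ℝ≥0∞) * (ψ q : ℝ≥0∞) ≤
        (Nat.totient q : ℝ≥0∞) / ((q : ℕ) : ℝ≥0∞) * (ψ' q : ℝ≥0∞)
          + ∑' k, (if q ∈ F k then 0 else f k q) := by
      intro q
      by_cases hR : q ∈ R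
      · obtain ⟨k, hk, hk2⟩ := hR
        refine le_trans ?_ le_add_self
        refine le_trans ?_ (ENNReal.le_tsum k)
        rw [if_neg hk]
        simp only [f]
        rw [min_eq_left hk2]
      · have : ψ' q = ψ q := if_neg hR
        rw [this]
        exact le_self_add
    calc wsum ψ ≤ ∑' q : ℕ+, ((Nat.totient q : ℝ≥0∞) / ((q : ℕ) : ℝ≥0∞) * (ψ' q : ℝ≥0∞)
          + ∑' k, (if q ∈ F k then 0 else f k q)) := ENNReal.tsum_le_tsum hpt
      _ = wsum ψ' + ∑' k, ∑' q : ℕ+, (if q ∈ F k then 0 else f k q) := by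
          rw [ENNReal.tsum_add, ENNReal.tsum_comm]
          rfl
      _ ≤ wsum ψ' + ∑' k : ℕ, (2⁻¹ : ℝ≥0∞) ^ k := by
          gcongr with k
          refine le_trans (le_of_eq ?_) (hF k).le
          have h1 := tsum_subtype {q : ℕ+ | q ∉ F k} (f k)
          rw [show (∑' q : {q // q ∉ F k}, f k q) = ∑' q : {q : ℕ+ | q ∉ F k}, f k q from rfl, h1]
          refine tsum_congr fun q => ?_
          by_cases hq : q ∈ F k
          · rw [if_pos hq, Set.indicator_of_notMem (by simpa using hq)]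
          · rw [if_neg hq, Set.indicator_of_mem (by simpa using hq)]
      _ < ∞ := by
          refine ENNReal.add_lt_top.2 ⟨lt_top_iff_ne_top.2 hne, ?_⟩
          rw [ENNReal.tsum_geometric, ENNReal.one_sub_inv_two, inv_inv]
          exact ENNReal.ofNat_lt_top

end Vale.Agent.Lib.P028.Thin
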